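import Mathlib
import Vale.Agent.P011.H722.MeanDef

/-!
# H73/Gns: the Hilbert space of a finitely additive mean

`IsMean l`: `l` is a positive normalised functional on the bounded functions `X → ℝ`
(values on unbounded functions are irrelevant).  `Mean.Hsp m` is the Hilbert space of `m`,
`Mean.vec m f` the vector of a bounded function `f : X → ℂ`, `Mean.U m φ` the unitary operator
of a permutation `φ` of `X` preserving `m`.
-/

namespace Vale.Agent.P011.H73.Gns

open scoped InnerProductSpace ComplexConjugate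
open UniformSpace Filter Topology

variable {X : Type*}

open Vale.Agent.P011.H722

/-- a mean, bundled -/
structure Mean (X : Type*) where
  /-- the functional -/
  toFun : (X → ℝ) → ℝ
  isMean : IsMean toFun

/-- bounded complex valued functions -/
def BC (X : Type*) : Submodule ℂ (X → ℂ) where
  carrier := {f | ∃ C : ℝ, ∀ x, ‖f x‖ ≤ C}
  add_mem' := by
    rintro f g ⟨C, hC⟩ ⟨C', hC'⟩
    exact ⟨C + C', fun x => (norm_add_le _ _).trans (add_le_add (hC x) (hC' x))⟩
  zero_mem' := ⟨0, fun x => by simp⟩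
  smul_mem' := by
    rintro c f ⟨C, hC⟩
    refine ⟨‖c‖ * C, fun x => ?_⟩
    rw [Pi.smul_apply, norm_smul]
    exact mul_le_mul_of_nonneg_left (hC x) (norm_nonneg _)

theorem BC.bd_re {f : X → ℂ} (hf : ∃ C : ℝ, ∀ x, ‖f x‖ ≤ C) : Bdd (fun x => (f x).re) := by
  obtain ⟨C, hC⟩ := hf
  exact ⟨C, fun x => (Complex.abs_re_le_norm _).trans (hC x)⟩

theorem BC.bd_im {f : X → ℂ} (hf : ∃ C : ℝ, ∀ x, ‖f x‖ ≤ C) : Bdd (fun x => (f x).im) := by
  obtain ⟨C, hC⟩ := hf
  exact ⟨C, fun x => (Complex.abs_im_le_norm _).trans (hC x)⟩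

namespace Mean

variable (m : Mean X)

/-- the mean of a complex function -/
noncomputable def cint (f : X → ℂ) : ℂ := ⟨m.toFun fun x => (f x).re, m.toFun fun x => (f x).im⟩

theorem cint_add {f g : X → ℂ} (hf : f ∈ BC X) (hg : g ∈ BC X) :
    m.cint (fun x => f x + g x) = m.cint f + m.cint g := by
  apply Complex.ext
  · simp only [cint, Complex.add_re]
    exact m.isMean.add _ _ (BC.bd_re hf) (BC.bd_re hg)
  · simp only [cint, Complex.add_im]
    exact m.isMean.add _ _ (BC.bd_im hf) (BC.bd_im hg)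

theorem cint_smul (c : ℂ) {f : X → ℂ} (hf : f ∈ BC X) :
    m.cint (fun x => c * f x) = c * m.cint f := by
  apply Complex.ext
  · have h1 := m.isMean.sub ((BC.bd_re hf).smul c.re) ((BC.bd_im hf).smul c.im)
    rw [m.isMean.smul _ _ (BC.bd_re hf), m.isMean.smul _ _ (BC.bd_im hf)] at h1
    simp only [cint, Complex.mul_re]
    rw [← h1]
    rfl
  · have h1 := m.isMean.add _ _ ((BC.bd_im hf).smul c.re) ((BC.bd_re hf).smul c.im)
    rw [m.isMean.smul _ _ (BC.bd_re hf), m.isMean.smul _ _ (BC.bd_im hf)] at h1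
    simp only [cint, Complex.mul_im]
    rw [← h1]
    rfl

theorem cint_conj {f : X → ℂ} (hf : f ∈ BC X) :
    m.cint (fun x => conj (f x)) = conj (m.cint f) := by
  apply Complex.ext
  · simp [cint]
  · simp only [cint, Complex.conj_im]
    exact m.isMean.neg (BC.bd_im hf)

theorem cint_ofReal (f : X → ℝ) : m.cint (fun x => (f x : ℂ)) = m.toFun f := by
  apply Complex.ext
  · simp [cint]
  · simp only [cint, Complex.ofReal_im]
    exact m.isMean.zero

theorem mul_mem_BC {f g : X → ℂ} (hf : f ∈ BC X) (hg : g ∈ BC X) :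
    (fun x => conj (f x) * g x) ∈ BC X := by
  obtain ⟨C, hC⟩ := hf
  obtain ⟨C', hC'⟩ := hg
  refine ⟨C * C', fun x => ?_⟩
  rw [norm_mul, RCLike.norm_conj]
  exact mul_le_mul (hC x) (hC' x) (norm_nonneg _) ((norm_nonneg _).trans (hC x))

set_option linter.unusedVariables false in
/-- the pre-Hilbert space of `m`: bounded functions -/
@[nolint unusedArguments]
def Pre (m : Mean X) : Type _ := BC X

noncomputable instance : AddCommGroup m.Pre := inferInstanceAs (AddCommGroup (BC X))
noncomputable instance : Module ℂ m.Pre := inferInstanceAs (Module ℂ (BC X))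

/-- the function underlying an element of `Pre` -/
def fn (f : m.Pre) : X → ℂ := (show BC X from f).1

theorem fn_mem (f : m.Pre) : m.fn f ∈ BC X := (show BC X from f).2

theorem fn_add (f g : m.Pre) (x : X) : m.fn (f + g) x = m.fn f x + m.fn g x := rfl

theorem fn_smul (c : ℂ) (f : m.Pre) (x : X) : m.fn (c • f) x = c * m.fn f x := rfl

theorem fn_ext {f g : m.Pre} (h : ∀ x, m.fn f x = m.fn g x) : f = g :=
  Subtype.ext (funext h)

/-- a bounded function as an element of `Pre` -/
def ofFn (f : X → ℂ) (hf : f ∈ BC X) : m.Pre := (⟨f, hf⟩ : BC X)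

@[simp] theorem fn_ofFn (f : X → ℂ) (hf : f ∈ BC X) : m.fn (m.ofFn f hf) = f := rfl

noncomputable abbrev core : PreInnerProductSpace.Core ℂ m.Pre where
  inner f g := m.cint fun x => conj (m.fn f x) * m.fn g x
  conj_inner_symm f g := by
    rw [← m.cint_conj (mul_mem_BC (m.fn_mem g) (m.fn_mem f))]
    congr 1
    funext x
    simp [mul_comm]
  re_inner_nonneg f := by
    have : (m.cint fun x => conj (m.fn f x) * m.fn f x).re
        = m.toFun fun x => Complex.normSq (m.fn f x) := by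
      simp only [cint]
      congr 1
      funext x
      rw [mul_comm, Complex.mul_conj, Complex.ofReal_re]
    change 0 ≤ (m.cint fun x => conj (m.fn f x) * m.fn f x).re
    rw [this]
    refine m.isMean.nonneg _ ?_ fun x => Complex.normSq_nonneg _
    obtain ⟨C, hC⟩ := m.fn_mem f
    refine ⟨C ^ 2, fun x => ?_⟩
    rw [abs_of_nonneg (Complex.normSq_nonneg _), Complex.normSq_eq_norm_sq]
    exact pow_le_pow_left₀ (norm_nonneg _) (hC x) 2
  add_left f g h := by
    rw [← m.cint_add (mul_mem_BC (m.fn_mem f) (m.fn_mem h)) (mul_mem_BC (m.fn_mem g) (m.fn_mem h))]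
    congr 1
    funext x
    rw [m.fn_add, map_add, add_mul]
  smul_left f g c := by
    rw [← m.cint_smul _ (mul_mem_BC (m.fn_mem f) (m.fn_mem g))]
    congr 1
    funext x
    rw [m.fn_smul, map_mul, mul_assoc]

noncomputable instance : SeminormedAddCommGroup m.Pre :=
  InnerProductSpace.Core.toSeminormedAddCommGroup (c := m.core)
noncomputable instance : InnerProductSpace ℂ m.Pre :=
  InnerProductSpace.ofCore m.core

theorem pre_inner (f g : m.Pre) : ⟪f, g⟫_ℂ = m.cint fun x => conj (m.fn f x) * m.fn g x := rfl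

/-- The Hilbert space of `m`. -/
abbrev Hsp : Type _ := Completion m.Pre

/-- the vector of a bounded function -/
noncomputable def vec (f : X → ℂ) (hf : f ∈ BC X) : m.Hsp := ((m.ofFn f hf : m.Pre) : m.Hsp)

theorem inner_vec {f g : X → ℂ} (hf : f ∈ BC X) (hg : g ∈ BC X) :
    ⟪m.vec f hf, m.vec g hg⟫_ℂ = m.cint fun x => conj (f x) * g x := by
  rw [vec, vec, Completion.inner_coe]
  rfl

/-- the permutations of `X` that preserve `m` -/
def Pres : Subgroup (Equiv.Perm X) where
  carrier := {φ | ∀ f, Bdd f → m.toFun (fun x => f (φ x)) = m.toFun f}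
  mul_mem' := by
    intro φ ψ hφ hψ f hf
    have h1 := hψ (fun x => f (φ x)) (hf.comp φ)
    rw [← hφ f hf, ← h1]
    rfl
  one_mem' := fun f _ => rfl
  inv_mem' := by
    intro φ hφ f hf
    have h1 := hφ (fun x => f (φ⁻¹ x)) (hf.comp _)
    rw [← h1]
    simp

theorem mem_Pres {φ : Equiv.Perm X} :
    φ ∈ m.Pres ↔ ∀ f, Bdd f → m.toFun (fun x => f (φ x)) = m.toFun f := Iff.rfl

theorem cint_comp (φ : m.Pres) {f : X → ℂ} (hf : f ∈ BC X) :
    m.cint (fun x => f (φ.1 x)) = m.cint f := by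
  apply Complex.ext
  · exact φ.2 _ (BC.bd_re hf)
  · exact φ.2 _ (BC.bd_im hf)

theorem comp_mem_BC {f : X → ℂ} (hf : f ∈ BC X) {Y : Type*} (φ : Y → X) :
    (fun x => f (φ x)) ∈ BC Y := by
  obtain ⟨C, hC⟩ := hf
  exact ⟨C, fun x => hC _⟩

/-- translation on bounded functions -/
noncomputable def preU (φ : m.Pres) : m.Pre →ₗᵢ[ℂ] m.Pre where
  toFun f := m.ofFn (fun x => m.fn f (φ.1⁻¹ x)) (comp_mem_BC (m.fn_mem f) _)
  map_add' f g := rfl
  map_smul' c f := rfl
  norm_map' f := by
    have h1 : ⟪m.ofFn (fun x => m.fn f (φ.1⁻¹ x)) (comp_mem_BC (m.fn_mem f) _),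
        m.ofFn (fun x => m.fn f (φ.1⁻¹ x)) (comp_mem_BC (m.fn_mem f) _)⟫_ℂ = ⟪f, f⟫_ℂ := by
      rw [m.pre_inner, m.pre_inner]
      exact m.cint_comp φ⁻¹ (mul_mem_BC (m.fn_mem f) (m.fn_mem f))
    have h2 := congrArg Complex.re h1
    have h3 := inner_self_eq_norm_sq (𝕜 := ℂ) f
    have h4 := inner_self_eq_norm_sq (𝕜 := ℂ)
      (m.ofFn (fun x => m.fn f (φ.1⁻¹ x)) (comp_mem_BC (m.fn_mem f) _))
    simp only [RCLike.re_to_complex] at h3 h4
    rw [h3, h4] at h2
    exact (sq_eq_sq₀ (norm_nonneg _) (norm_nonneg _)).1 h2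

/-- translation on the Hilbert space, as a continuous linear map -/
noncomputable def Uc (φ : m.Pres) : m.Hsp →L[ℂ] m.Hsp :=
  (m.preU φ).toContinuousLinearMap.completion

theorem Uc_coe (φ : m.Pres) (f : m.Pre) : m.Uc φ (f : m.Hsp) = (m.preU φ f : m.Pre) := by
  rw [Uc, ContinuousLinearMap.completion_apply_coe]
  rfl

theorem Uc_mul (φ ψ : m.Pres) (v : m.Hsp) : m.Uc (φ * ψ) v = m.Uc φ (m.Uc ψ v) := by
  induction v using Completion.induction_on with
  | hp => exact isClosed_eq (by fun_prop) (by fun_prop)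
  | ih f =>
    rw [Uc_coe, Uc_coe, Uc_coe]
    congr 1

theorem Uc_one (v : m.Hsp) : m.Uc 1 v = v := by
  induction v using Completion.induction_on with
  | hp => exact isClosed_eq (by fun_prop) (by fun_prop)
  | ih f =>
    rw [Uc_coe]
    rfl

theorem norm_Uc (φ : m.Pres) (v : m.Hsp) : ‖m.Uc φ v‖ = ‖v‖ := by
  induction v using Completion.induction_on with
  | hp => exact isClosed_eq (by fun_prop) (by fun_prop)
  | ih f =>
    rw [Uc_coe, Completion.norm_coe, Completion.norm_coe]
    exact (m.preU φ).norm_map f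

/-- the unitary operator of a permutation preserving `m` -/
noncomputable def U : m.Pres →* (m.Hsp ≃ₗᵢ[ℂ] m.Hsp) where
  toFun φ :=
    { toFun := m.Uc φ
      invFun := m.Uc φ⁻¹
      left_inv := fun v => by rw [← Uc_mul, inv_mul_cancel, Uc_one]
      right_inv := fun v => by rw [← Uc_mul, mul_inv_cancel, Uc_one]
      map_add' := map_add _
      map_smul' := map_smul _
      norm_map' := m.norm_Uc φ }
  map_one' := by
    ext v
    exact m.Uc_one v
  map_mul' φ ψ := by
    ext v
    exact m.Uc_mul φ ψ v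

theorem U_apply (φ : m.Pres) (v : m.Hsp) : m.U φ v = m.Uc φ v := rfl

theorem U_vec (φ : m.Pres) {f : X → ℂ} (hf : f ∈ BC X) :
    m.U φ (m.vec f hf) = m.vec (fun x => f (φ.1⁻¹ x)) (comp_mem_BC hf _) := by
  rw [U_apply, vec, Uc_coe]
  rfl

theorem U_symm_vec (φ : m.Pres) {f : X → ℂ} (hf : f ∈ BC X) :
    (m.U φ)⁻¹ (m.vec f hf) = m.vec (fun x => f (φ.1 x)) (comp_mem_BC hf _) := by
  rw [← map_inv, U_vec]
  congr 1

end Mean

end Vale.Agent.P011.H73.Gns
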