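import Mathlib
import Vale.Agent.P011.H73.Gns

/-!
# H73/Gns2: comparison of two laws in the Hilbert space of a mean

`law_compare`: if `g b = τ * Wk b` and `gm b = τ' * wt b * Wk b` with `τ, τ'` in a set `S` of
permutations and one-step mixing holds for `g` and `gm` (vectors orthogonal to the `S`-invariants
are moved weakly to zero), then the joint law of `(col x, col (gm b x))` is, up to `o(1)`, the
joint law of `(col x, col (g b x))` with the second coordinate conjugated.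
-/

namespace Vale.Agent.P011.H73.Gns

open scoped InnerProductSpace ComplexConjugate
open UniformSpace Filter Topology
open Vale.Agent.P011.H722

variable {X : Type*}

namespace Mean

variable (m : Mean X)

theorem ind_mem (S : Set X) : (S.indicator 1 : X → ℂ) ∈ BC X := by
  refine ⟨1, fun x => ?_⟩
  by_cases h : x ∈ S <;> simp [h]

/-- the vector of the indicator of `S` -/
noncomputable def ind (S : Set X) : m.Hsp := m.vec (S.indicator 1) (ind_mem S)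

theorem inner_ind (S T : Set X) : ⟪m.ind S, m.ind T⟫_ℂ = (mset m.toFun (S ∩ T) : ℝ) := by
  rw [ind, ind, inner_vec, mset, ← m.cint_ofReal]
  congr 1
  funext x
  by_cases h1 : x ∈ S <;> by_cases h2 : x ∈ T <;> simp [h1, h2]

theorem U_inv_ind (φ : m.Pres) (S : Set X) :
    (m.U φ)⁻¹ (m.ind S) = m.ind {x | φ.1 x ∈ S} := by
  rw [ind, U_symm_vec]
  congr 1

/-- the vectors fixed by all `U τ`, `τ ∈ S` -/
noncomputable def Inv (S : Set (Equiv.Perm X)) : Submodule ℂ m.Hsp where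
  carrier := {v | ∀ τ : m.Pres, τ.1 ∈ S → m.U τ v = v}
  add_mem' := by
    intro v w hv hw τ hτ
    rw [map_add, hv τ hτ, hw τ hτ]
  zero_mem' := fun τ _ => map_zero _
  smul_mem' := by
    intro c v hv τ hτ
    rw [map_smul, hv τ hτ]

theorem mem_Inv {S : Set (Equiv.Perm X)} {v : m.Hsp} :
    v ∈ m.Inv S ↔ ∀ τ : m.Pres, τ.1 ∈ S → m.U τ v = v := Iff.rfl

theorem isClosed_Inv (S : Set (Equiv.Perm X)) : IsClosed (m.Inv S : Set m.Hsp) := by
  have : (m.Inv S : Set m.Hsp) = ⋂ τ : m.Pres, ⋂ _ : τ.1 ∈ S, {v | m.U τ v = v} := by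
    ext v
    simp [mem_Inv]
  rw [this]
  refine isClosed_iInter fun τ => isClosed_iInter fun _ => ?_
  exact isClosed_eq (m.U τ).continuous continuous_id

instance (S : Set (Equiv.Perm X)) : CompleteSpace (m.Inv S) :=
  (m.isClosed_Inv S).completeSpace_coe

/-- the projection of a vector to the `S`-invariants -/
noncomputable def proj (S : Set (Equiv.Perm X)) (v : m.Hsp) : m.Hsp :=
  (m.Inv S).starProjection v

theorem proj_mem (S : Set (Equiv.Perm X)) (v : m.Hsp) : m.proj S v ∈ m.Inv S :=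
  Submodule.starProjection_apply_mem _ _

theorem sub_proj_orth (S : Set (Equiv.Perm X)) (v w : m.Hsp) (hw : w ∈ m.Inv S) :
    ⟪v - m.proj S v, w⟫_ℂ = 0 :=
  Submodule.starProjection_inner_eq_zero v w hw

theorem proj_unique {S : Set (Equiv.Perm X)} {v w : m.Hsp} (hw : w ∈ m.Inv S)
    (h : ∀ z ∈ m.Inv S, ⟪v - w, z⟫_ℂ = 0) : m.proj S v = w :=
  Submodule.eq_starProjection_of_mem_of_inner_eq_zero hw h

theorem inner_inv_left (φ : m.Pres) (v w : m.Hsp) :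
    ⟪(m.U φ)⁻¹ v, w⟫_ℂ = ⟪v, m.U φ w⟫_ℂ := by
  rw [← LinearIsometryEquiv.inner_map_map (m.U φ) ((m.U φ)⁻¹ v) w]
  congr 1
  exact (m.U φ).apply_symm_apply v

theorem inner_inv_right (φ : m.Pres) (v w : m.Hsp) :
    ⟪v, (m.U φ)⁻¹ w⟫_ℂ = ⟪m.U φ v, w⟫_ℂ := by
  rw [← LinearIsometryEquiv.inner_map_map (m.U φ) v ((m.U φ)⁻¹ w)]
  congr 1
  exact (m.U φ).apply_symm_apply w

theorem inv_apply_of_fix {φ : m.Pres} {v : m.Hsp} (h : m.U φ v = v) : (m.U φ)⁻¹ v = v := by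
  conv_lhs => rw [← h]
  exact (m.U φ).symm_apply_apply v

/-- a permutation normalising `S` commutes with the projection -/
theorem inv_proj {S : Set (Equiv.Perm X)} (φ : m.Pres)
    (h1 : ∀ τ ∈ S, φ.1 * τ * φ.1⁻¹ ∈ S) (h2 : ∀ τ ∈ S, φ.1⁻¹ * τ * φ.1 ∈ S) (v : m.Hsp) :
    (m.U φ)⁻¹ (m.proj S v) = m.proj S ((m.U φ)⁻¹ v) := by
  symm
  apply m.proj_unique
  · intro τ hτ
    have h3 := m.proj_mem S v (φ * τ * φ⁻¹) (h1 _ hτ)
    have h4 : τ * φ⁻¹ = φ⁻¹ * (φ * τ * φ⁻¹) := by group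
    calc m.U τ ((m.U φ)⁻¹ (m.proj S v)) = m.U (τ * φ⁻¹) (m.proj S v) := by
          rw [map_mul, map_inv]; rfl
      _ = (m.U φ)⁻¹ (m.U (φ * τ * φ⁻¹) (m.proj S v)) := by
          rw [h4, map_mul, map_inv]; rfl
      _ = _ := by rw [h3]
  · intro z hz
    rw [← map_sub, m.inner_inv_left]
    apply m.sub_proj_orth
    intro τ hτ
    have h3 := hz (φ⁻¹ * τ * φ) (h2 _ hτ)
    have h4 : τ * φ = φ * (φ⁻¹ * τ * φ) := by group
    calc m.U τ (m.U φ z) = m.U (τ * φ) z := by rw [map_mul]; rfl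
      _ = m.U φ (m.U (φ⁻¹ * τ * φ) z) := by rw [h4, map_mul]; rfl
      _ = _ := by rw [h3]

end Mean

section Law

variable {Q I : Type*}

/-- One step: up to `o(1)`, the joint law of `(col x, col (g b x))` is computed from the projection
to the `S`-invariants. -/
theorem step_one (m : Mean X) (col : X → Q) (S : Set (Equiv.Perm X)) (p : Filter I)
    (g : I → m.Pres)
    (OM : ∀ F : m.Hsp, (∀ w ∈ m.Inv S, ⟪F, w⟫_ℂ = 0) → ∀ G : m.Hsp,
      Tendsto (fun b => ⟪F, m.U (g b) G⟫_ℂ) p (𝓝 0)) (a a' : Q) :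
    Tendsto (fun b => ((mset m.toFun {x | col x = a ∧ col ((g b).1 x) = a'} : ℝ) : ℂ)
      - ⟪m.ind {x | col x = a}, (m.U (g b))⁻¹ (m.proj S (m.ind {x | col x = a'}))⟫_ℂ) p (𝓝 0) := by
  have h1 := OM (m.ind {x | col x = a'} - m.proj S (m.ind {x | col x = a'}))
    (fun w hw => m.sub_proj_orth S _ w hw) (m.ind {x | col x = a})
  have h2 : Tendsto (fun b => conj (⟪m.ind {x | col x = a'} - m.proj S (m.ind {x | col x = a'}),
      m.U (g b) (m.ind {x | col x = a})⟫_ℂ)) p (𝓝 0) := by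
    have := (Complex.continuous_conj.tendsto 0).comp h1
    rwa [map_zero] at this
  refine h2.congr fun b => ?_
  rw [inner_conj_symm, inner_sub_right, ← m.inner_inv_right, ← m.inner_inv_right, m.U_inv_ind,
    m.inner_ind]
  rfl

/-- The comparison of the two laws. -/
theorem law_compare [Group Q] (m : Mean X) (col : X → Q) (S : Set (Equiv.Perm X)) (p : Filter I)
    (g gm : I → m.Pres) (Wk wt : I → m.Pres) (u : Q)
    (hg : ∀ᶠ b in p, ∃ τ : m.Pres, τ.1 ∈ S ∧ g b = τ * Wk b)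
    (hgm : ∀ᶠ b in p, ∃ τ : m.Pres, τ.1 ∈ S ∧ gm b = τ * wt b * Wk b)
    (hwt1 : ∀ᶠ b in p, ∀ τ ∈ S, (wt b).1 * τ * (wt b).1⁻¹ ∈ S)
    (hwt2 : ∀ᶠ b in p, ∀ τ ∈ S, (wt b).1⁻¹ * τ * (wt b).1 ∈ S)
    (hcol : ∀ᶠ b in p, ∀ x, col ((wt b).1 x) = u * col x * u⁻¹)
    (OM : ∀ F : m.Hsp, (∀ w ∈ m.Inv S, ⟪F, w⟫_ℂ = 0) → ∀ G : m.Hsp,
      Tendsto (fun b => ⟪F, m.U (g b) G⟫_ℂ) p (𝓝 0))
    (OMm : ∀ F : m.Hsp, (∀ w ∈ m.Inv S, ⟪F, w⟫_ℂ = 0) → ∀ G : m.Hsp,
      Tendsto (fun b => ⟪F, m.U (gm b) G⟫_ℂ) p (𝓝 0)) (a a' : Q) :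
    Tendsto (fun b => mset m.toFun {x | col x = a ∧ col ((gm b).1 x) = a'}
      - mset m.toFun {x | col x = a ∧ col ((g b).1 x) = u⁻¹ * a' * u}) p (𝓝 0) := by
  have h1 := step_one m col S p g OM a (u⁻¹ * a' * u)
  have h2 := step_one m col S p gm OMm a a'
  have h3 : ∀ᶠ b in p,
      ⟪m.ind {x | col x = a}, (m.U (gm b))⁻¹ (m.proj S (m.ind {x | col x = a'}))⟫_ℂ
      = ⟪m.ind {x | col x = a},
          (m.U (g b))⁻¹ (m.proj S (m.ind {x | col x = u⁻¹ * a' * u}))⟫_ℂ := by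
    filter_upwards [hg, hgm, hwt1, hwt2, hcol] with b hg hgm hwt1 hwt2 hcol
    congr 1
    obtain ⟨τ, hτ, hg⟩ := hg
    obtain ⟨τ', hτ', hgm⟩ := hgm
    rw [hg, hgm, ← map_inv, ← map_inv, mul_inv_rev, mul_inv_rev, mul_inv_rev, map_mul, map_mul,
      map_mul]
    change m.U (Wk b)⁻¹ (m.U (wt b)⁻¹ (m.U τ'⁻¹ (m.proj S (m.ind {x | col x = a'}))))
      = m.U (Wk b)⁻¹ (m.U τ⁻¹ (m.proj S (m.ind {x | col x = u⁻¹ * a' * u})))
    congr 1
    rw [map_inv m.U τ', map_inv m.U τ, map_inv m.U (wt b),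
      m.inv_apply_of_fix (m.proj_mem S _ τ' hτ'), m.inv_apply_of_fix (m.proj_mem S _ τ hτ),
      m.inv_proj (wt b) hwt1 hwt2, m.U_inv_ind]
    congr 2
    ext x
    simp only [Set.mem_ofPred_eq, hcol]
    constructor
    · intro h
      rw [← h]
      group
    · intro h
      rw [h]
      group
  have h4 : Tendsto (fun b => ((mset m.toFun {x | col x = a ∧ col ((gm b).1 x) = a'} : ℝ) : ℂ)
      - ((mset m.toFun {x | col x = a ∧ col ((g b).1 x) = u⁻¹ * a' * u} : ℝ) : ℂ)) p (𝓝 0) := by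
    have h5 := h2.sub h1
    rw [sub_zero] at h5
    refine h5.congr' ?_
    filter_upwards [h3] with b hb
    rw [hb]
    ring
  have h6 := (Complex.continuous_re.tendsto 0).comp h4
  simpa [Function.comp_def] using h6

end Law

end Vale.Agent.P011.H73.Gns
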