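import Mathlib
import Vale.Agent.P011.H73.Gns2

/-!
# H73/Gns3: the limit law

`limit_law`: from a mean `m`, an ultrafilter `p` in `b`, one-step mixing for `g b = τ * Wk b` and
`gm b = τ' * wt b * Wk b`, and the conjugation invariance of the two pair laws, one gets a
probability `D` on `Q × Q` satisfying the hypotheses of the finite group lemma.
-/

namespace Vale.Agent.P011.H73.Gns

open scoped InnerProductSpace ComplexConjugate
open UniformSpace Filter Topology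
open Vale.Agent.P011.H722

variable {X Q I : Type*} [Group Q] [Fintype Q]

/-- total mass of a joint law -/
theorem sum_mset_and (m : Mean X) {A : Type*} [Fintype A] (S : Set X) (φ : X → A) :
    ∑ a, mset m.toFun (S ∩ {x | φ x = a}) = mset m.toFun S := by
  classical
  simp only [mset]
  rw [← m.isMean.sum Finset.univ fun a _ => Bdd.indicator _]
  congr 1
  funext x
  rw [Finset.sum_apply]
  by_cases h : x ∈ S
  · rw [Finset.sum_eq_single (φ x)]
    · simp [h]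
    · intro b _ hb
      rw [Set.indicator_of_notMem]
      rintro ⟨-, h2⟩
      exact hb h2.symm
    · intro h2
      exact absurd (Finset.mem_univ _) h2
  · rw [Set.indicator_of_notMem h]
    refine Finset.sum_eq_zero fun a _ => Set.indicator_of_notMem ?_ _
    rintro ⟨h1, -⟩
    exact h h1

theorem sum_mset_eq (m : Mean X) {A : Type*} [Fintype A] (φ : X → A) :
    ∑ a, mset m.toFun {x | φ x = a} = 1 := by
  have h := sum_mset_and m Set.univ φ
  simpa [m.isMean.mset_univ] using h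

theorem mset_comp (m : Mean X) (φ : m.Pres) (S : Set X) :
    mset m.toFun {x | φ.1 x ∈ S} = mset m.toFun S := by
  rw [mset, mset, ← φ.2 (S.indicator 1) (Bdd.indicator S)]
  congr 1

/-- **The limit law.** -/
theorem limit_law (m : Mean X) (col : X → Q) (S : Set (Equiv.Perm X)) (p : Ultrafilter I)
    (g gm : I → m.Pres) (Wk wt : I → m.Pres) (r s : Q) (hrs : Commute r s)
    (P : Subgroup Q) (hP : P.Normal)
    (hg : ∀ᶠ b in (p : Filter I), ∃ τ : m.Pres, τ.1 ∈ S ∧ g b = τ * Wk b)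
    (hgm : ∀ᶠ b in (p : Filter I), ∃ τ : m.Pres, τ.1 ∈ S ∧ gm b = τ * wt b * Wk b)
    (hwt1 : ∀ᶠ b in (p : Filter I), ∀ τ ∈ S, (wt b).1 * τ * (wt b).1⁻¹ ∈ S)
    (hwt2 : ∀ᶠ b in (p : Filter I), ∀ τ ∈ S, (wt b).1⁻¹ * τ * (wt b).1 ∈ S)
    (hcol : ∀ᶠ b in (p : Filter I), ∀ x,
      col ((wt b).1 x) = s * r⁻¹ * col x * (s * r⁻¹)⁻¹)
    (OM : ∀ F : m.Hsp, (∀ w ∈ m.Inv S, ⟪F, w⟫_ℂ = 0) → ∀ G : m.Hsp,
      Tendsto (fun b => ⟪F, m.U (g b) G⟫_ℂ) (p : Filter I) (𝓝 0))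
    (OMm : ∀ F : m.Hsp, (∀ w ∈ m.Inv S, ⟪F, w⟫_ℂ = 0) → ∀ G : m.Hsp,
      Tendsto (fun b => ⟪F, m.U (gm b) G⟫_ℂ) (p : Filter I) (𝓝 0))
    (L1 : ∀ᶠ b in (p : Filter I), ∀ ρ ∈ P, ∀ a a' : Q,
      mset m.toFun {x | r * col x = ρ * a * ρ⁻¹ ∧ s * col ((g b).1 x) = ρ * a' * ρ⁻¹}
      = mset m.toFun {x | r * col x = a ∧ s * col ((g b).1 x) = a'})
    (L2 : ∀ᶠ b in (p : Filter I), ∀ ρ ∈ P, ∀ a a' : Q,
      mset m.toFun {x | r⁻¹ * col x = ρ * a * ρ⁻¹ ∧ s⁻¹ * col ((gm b).1 x) = ρ * a' * ρ⁻¹}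
      = mset m.toFun {x | r⁻¹ * col x = a ∧ s⁻¹ * col ((gm b).1 x) = a'})
    (hcomm : ∀ᶠ b in (p : Filter I), ∀ x, Commute (r * col x) (s * col ((g b).1 x))) :
    ∃ D : Q → Q → ℝ, (∀ a a', 0 ≤ D a a') ∧ ∑ a, ∑ a', D a a' = 1 ∧
      (∀ a, ∑ a', D a a' = ∑ a', D a' a) ∧
      (∀ g ∈ P, ∀ a a', D (r⁻¹ * g * r * a * g⁻¹) (s⁻¹ * g * s * a' * g⁻¹) = D a a') ∧
      (∀ g ∈ P, ∀ a a', D (g * a * r⁻¹ * g⁻¹ * r) (g * a' * s⁻¹ * g⁻¹ * s) = D a a') ∧
      (∀ a a', D a a' ≠ 0 → Commute (r * a) (s * a')) := by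
  classical
  -- the limits exist
  have hlim : ∀ a a' : Q, ∃ y : ℝ,
      Tendsto (fun b => mset m.toFun {x | col x = a ∧ col ((g b).1 x) = a'})
        (p : Filter I) (𝓝 y) := by
    intro a a'
    have h1 : ∀ b, mset m.toFun {x | col x = a ∧ col ((g b).1 x) = a'} ∈ Set.Icc (0 : ℝ) 1 :=
      fun b => ⟨m.isMean.mset_nonneg _, m.isMean.mset_le_one _⟩
    obtain ⟨y, -, hy⟩ := (isCompact_Icc (a := (0 : ℝ)) (b := 1)).ultrafilter_le_nhds
      (p.map fun b => mset m.toFun {x | col x = a ∧ col ((g b).1 x) = a'}) (by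
        rw [Ultrafilter.coe_map, le_principal_iff, Filter.mem_map]
        exact Filter.univ_mem' h1)
    exact ⟨y, hy⟩
  choose D hD using hlim
  have hDm : ∀ a a' : Q,
      Tendsto (fun b => mset m.toFun {x | col x = a ∧ col ((gm b).1 x) = a'})
        (p : Filter I) (𝓝 (D a ((s * r⁻¹)⁻¹ * a' * (s * r⁻¹)))) := by
    intro a a'
    have h1 := law_compare m col S (p : Filter I) g gm Wk wt (s * r⁻¹) hg hgm hwt1 hwt2 hcol
      OM OMm a a'
    have h2 := h1.add (hD a ((s * r⁻¹)⁻¹ * a' * (s * r⁻¹)))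
    rw [zero_add] at h2
    refine h2.congr fun b => ?_
    ring
  have uniq : ∀ {u : I → ℝ} {y y' : ℝ}, Tendsto u (p : Filter I) (𝓝 y) →
      Tendsto u (p : Filter I) (𝓝 y') → y = y' := fun h1 h2 => tendsto_nhds_unique h1 h2
  -- one marginal
  have hm1 : ∀ a, ∑ a', D a a' = mset m.toFun {x | col x = a} := by
    intro a
    have h1 := tendsto_finsetSum (Finset.univ : Finset Q) fun a' _ => hD a a'
    refine uniq h1 ?_
    refine (tendsto_const_nhds (x := mset m.toFun {x | col x = a})).congr fun b => ?_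
    exact (sum_mset_and m {x | col x = a} fun x => col ((g b).1 x)).symm
  have hm2 : ∀ a, ∑ a', D a' a = mset m.toFun {x | col x = a} := by
    intro a
    have h1 := tendsto_finsetSum (Finset.univ : Finset Q) fun a' _ => hD a' a
    refine uniq h1 ?_
    refine (tendsto_const_nhds (x := mset m.toFun {x | col x = a})).congr fun b => ?_
    have h2 := sum_mset_and m {x | col ((g b).1 x) = a} col
    have h3 := mset_comp m (g b) {x | col x = a}
    rw [← h3]
    refine Eq.trans h2.symm (Finset.sum_congr rfl fun a' _ => ?_)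
    congr 1
    ext x
    exact and_comm
  refine ⟨D, fun a a' => ?_, ?_, fun a => ?_, fun ρ hρ a a' => ?_, fun ρ hρ a a' => ?_,
    fun a a' h => ?_⟩
  · exact ge_of_tendsto (hD a a') (Eventually.of_forall fun b => m.isMean.mset_nonneg _)
  · rw [Finset.sum_congr rfl fun a _ => hm1 a]
    exact sum_mset_eq m col
  · rw [hm1, hm2]
  · -- first invariance
    refine uniq (hD _ _) ?_
    refine (hD a a').congr' ?_
    filter_upwards [L1] with b hb
    have h1 := hb ρ hρ (r * a) (s * a')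
    have e1 : {x | r * col x = r * a ∧ s * col ((g b).1 x) = s * a'}
        = {x | col x = a ∧ col ((g b).1 x) = a'} := by
      ext x
      simp
    have e2 : {x | r * col x = ρ * (r * a) * ρ⁻¹ ∧ s * col ((g b).1 x) = ρ * (s * a') * ρ⁻¹}
        = {x | col x = r⁻¹ * ρ * r * a * ρ⁻¹ ∧ col ((g b).1 x) = s⁻¹ * ρ * s * a' * ρ⁻¹} := by
      ext x
      simp only [Set.mem_ofPred_eq, ← mul_assoc]
      rw [← eq_inv_mul_iff_mul_eq, ← eq_inv_mul_iff_mul_eq]
      simp only [mul_assoc]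
    rw [e1, e2] at h1
    exact h1.symm
  · -- second invariance
    set ρ' : Q := r⁻¹ * ρ * r with hρ'
    have hρ'P : ρ' ∈ P := by
      have := hP.conj_mem ρ hρ r⁻¹
      simpa [hρ'] using this
    have hrs' : r * s⁻¹ = s⁻¹ * r := (hrs.inv_right).eq
    set a'' : Q := (s * r⁻¹) * a' * (s * r⁻¹)⁻¹ with ha''
    have e0 : (s * r⁻¹)⁻¹ * a'' * (s * r⁻¹) = a' := by
      rw [ha'']
      group
    have h1 := hDm a a''
    rw [e0] at h1
    -- the moved pair
    set b1 : Q := r * ρ' * (r⁻¹ * a) * ρ'⁻¹ with hb1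
    set b2 : Q := s * ρ' * (s⁻¹ * a'') * ρ'⁻¹ with hb2
    have h2 := hDm b1 b2
    have e1 : b1 = ρ * a * r⁻¹ * ρ⁻¹ * r := by
      rw [hb1, hρ']
      group
    have e2 : (s * r⁻¹)⁻¹ * b2 * (s * r⁻¹) = ρ * a' * s⁻¹ * ρ⁻¹ * s := by
      have h3 : r * s⁻¹ * (s * (r⁻¹ * ρ * r) * (s⁻¹ * (s * r⁻¹ * a' * (r * s⁻¹)))
          * (r⁻¹ * ρ⁻¹ * r)) * (s * r⁻¹)
          = ρ * a' * (r * s⁻¹) * r⁻¹ * ρ⁻¹ * (r * s * r⁻¹) := by
        group
      have h4 : r * s * r⁻¹ = s := by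
        rw [hrs.eq]
        group
      have h5 : ρ * a' * (r * s⁻¹) * r⁻¹ * ρ⁻¹ * (r * s * r⁻¹) = ρ * a' * s⁻¹ * ρ⁻¹ * s := by
        rw [h4, hrs']
        group
      rw [← h5, ← h3, hb2, ha'', hρ']
      simp only [mul_inv_rev, inv_inv]
      group
    rw [e1, e2] at h2
    refine uniq h2 ?_
    refine h1.congr' ?_
    filter_upwards [L2] with b hb
    have h6 := hb ρ' hρ'P (r⁻¹ * a) (s⁻¹ * a'')
    have e3 : {x | r⁻¹ * col x = r⁻¹ * a ∧ s⁻¹ * col ((gm b).1 x) = s⁻¹ * a''}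
        = {x | col x = a ∧ col ((gm b).1 x) = a''} := by
      ext x
      simp
    have e4 : {x | r⁻¹ * col x = ρ' * (r⁻¹ * a) * ρ'⁻¹ ∧
          s⁻¹ * col ((gm b).1 x) = ρ' * (s⁻¹ * a'') * ρ'⁻¹}
        = {x | col x = b1 ∧ col ((gm b).1 x) = b2} := by
      ext x
      simp only [Set.mem_ofPred_eq, hb1, hb2]
      rw [inv_mul_eq_iff_eq_mul, inv_mul_eq_iff_eq_mul]
      simp only [mul_assoc]
    rw [e3, e4] at h6
    rw [← e1]
    exact h6.symm
  · -- commuting support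
    by_contra hc
    apply h
    refine uniq (hD a a') ?_
    refine (tendsto_const_nhds (x := (0 : ℝ))).congr' ?_
    filter_upwards [hcomm] with b hb
    have : {x | col x = a ∧ col ((g b).1 x) = a'} = (∅ : Set X) := by
      ext x
      simp only [Set.mem_ofPred_eq, Set.mem_empty_iff_false, iff_false]
      rintro ⟨h1, h2⟩
      apply hc
      have := hb x
      rwa [h1, h2] at this
    rw [this, m.isMean.mset_empty]

end Vale.Agent.P011.H73.Gns
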