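import Mathlib
import Vale.Agent.P011.H722.Mean
import Vale.Agent.P011.H73.Gns3

/-!
# H73/LineAbs: the line theorem, abstract form

`k` an additive group (the line), `X` the set of points, `col : X → Q` the colouring of the points,
`f : k → Q` the colours of the base points `σ + b`, `Lt b` the left translation by the base point
`σ + b`, `Tk b` the translation by `b ∈ k`, `S` the set of the translations by `L`.
-/

namespace Vale.Agent.P011.H73.Gns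

open scoped InnerProductSpace ComplexConjugate
open UniformSpace Filter Topology
open Vale.Agent.P011.H722

/-- The hypotheses of the finite group lemma (P2) on the limit law `D`. -/
structure PairLaw {Q : Type*} [Group Q] [Fintype Q] (P : Subgroup Q) (r s : Q)
    (D : Q → Q → ℝ) : Prop where
  nonneg : ∀ a a', 0 ≤ D a a'
  sum_eq : ∑ a, ∑ a', D a a' = 1
  marg : ∀ a, ∑ a', D a a' = ∑ a', D a' a
  inv1 : ∀ g ∈ P, ∀ a a', D (r⁻¹ * g * r * a * g⁻¹) (s⁻¹ * g * s * a' * g⁻¹) = D a a'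
  inv2 : ∀ g ∈ P, ∀ a a', D (g * a * r⁻¹ * g⁻¹ * r) (g * a' * s⁻¹ * g⁻¹ * s) = D a a'
  comm : ∀ a a', D a a' ≠ 0 → Commute (r * a) (s * a')

/-- One-step mixing of the family `g` in the mean `m` with respect to the mean `mk` of the
parameters (the output of P3). -/
def Mixing {X k : Type*} (m : Mean X) (mk : (k → ℝ) → ℝ) (S : Set (Equiv.Perm X))
    (g : k → m.Pres) : Prop :=
  ∀ F : m.Hsp, (∀ w ∈ m.Inv S, ⟪F, w⟫_ℂ = 0) → ∀ G : m.Hsp, ∀ ε : ℝ, 0 < ε →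
    mset mk {b | ε ≤ ‖⟪F, m.U (g b) G⟫_ℂ‖} = 0

/-- The data at one base point (`r` = colour of the base point, `f b` = colour of the base point
moved by `b`). -/
structure BaseData {X k Q : Type*} [Group Q] [Neg k] (P : Subgroup Q) (col : X → Q)
    (S : Set (Equiv.Perm X)) (mk : (k → ℝ) → ℝ) (r : Q) (f : k → Q) (m : Mean X)
    (g gm Wk wt : k → m.Pres) : Prop where
  hg : ∀ b, ∃ τ : m.Pres, τ.1 ∈ S ∧ g b = τ * Wk b
  hgm : ∀ b, ∃ τ : m.Pres, τ.1 ∈ S ∧ gm b = τ * wt b * Wk b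
  hwt1 : ∀ b, ∀ τ ∈ S, (wt b).1 * τ * (wt b).1⁻¹ ∈ S
  hwt2 : ∀ b, ∀ τ ∈ S, (wt b).1⁻¹ * τ * (wt b).1 ∈ S
  hcol : ∀ b x, col ((wt b).1 x) = f b * r⁻¹ * col x * (f b * r⁻¹)⁻¹
  law : ∀ b, ∀ ρ ∈ P, ∀ a a' : Q,
      mset m.toFun {x | r * col x = ρ * a * ρ⁻¹ ∧ f b * col ((g b).1 x) = ρ * a' * ρ⁻¹}
      = mset m.toFun {x | r * col x = a ∧ f b * col ((g b).1 x) = a'}
  lawm : ∀ b, ∀ ρ ∈ P, ∀ a a' : Q,
      mset m.toFun {x | r⁻¹ * col x = ρ * a * ρ⁻¹ ∧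
        (f b)⁻¹ * col ((gm b).1 x) = ρ * a' * ρ⁻¹}
      = mset m.toFun {x | r⁻¹ * col x = a ∧ (f b)⁻¹ * col ((gm b).1 x) = a'}
  comm : ∀ b x, Commute (r * col x) (f b * col ((g b).1 x))
  mix : Mixing m mk S g
  mixm : Mixing m mk S gm

/-- One base point: if the colour `s` has positive mean among the `f b`, a pair law exists. -/
theorem exists_pairLaw {X k Q : Type*} [Group Q] [Fintype Q] [Neg k] {P : Subgroup Q}
    (hP : P.Normal) {col : X → Q} {S : Set (Equiv.Perm X)} {mk : (k → ℝ) → ℝ} (hmk : IsMean mk)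
    {r : Q} {f : k → Q} {m : Mean X} {g gm Wk wt : k → m.Pres}
    (h : BaseData P col S mk r f m g gm Wk wt) (hf : ∀ b, Commute r (f b))
    {s : Q} (hs : 0 < mset mk {b | f b = s}) : ∃ D : Q → Q → ℝ, PairLaw P r s D := by
  obtain ⟨p, hp1, hp2⟩ := hmk.exists_ultrafilter hs
  have hne : ∃ b, f b = s := by
    by_contra hcon
    push Not at hcon
    have : {b | f b = s} = (∅ : Set k) := by
      ext b
      simpa using hcon b
    rw [this, hmk.mset_empty] at hs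
    exact lt_irrefl _ hs
  have hrs : Commute r s := by
    obtain ⟨b, rfl⟩ := hne
    exact hf b
  have hev : ∀ {R : k → Prop}, (∀ b, f b = s → R b) → ∀ᶠ b in (p : Filter k), R b := by
    intro R hR
    exact Filter.mem_of_superset hp1 fun b hb => hR b hb
  obtain ⟨D, h1, h2, h3, h4, h5, h6⟩ := limit_law m col S p g gm Wk wt r s hrs P hP
    (hev fun b _ => h.hg b) (hev fun b _ => h.hgm b) (hev fun b _ => h.hwt1 b)
    (hev fun b _ => h.hwt2 b)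
    (hev fun b hb x => by rw [← hb]; exact h.hcol b x)
    (fun F hF G => tendsto_zero_of_null hp2 fun ε hε => h.mix F hF G ε hε)
    (fun F hF G => tendsto_zero_of_null hp2 fun ε hε => h.mixm F hF G ε hε)
    (hev fun b hb ρ hρ a a' => by rw [← hb]; exact h.law b ρ hρ a a')
    (hev fun b hb ρ hρ a a' => by rw [← hb]; exact h.lawm b ρ hρ a a')
    (hev fun b hb x => by rw [← hb]; exact h.comm b x)
  exact ⟨D, ⟨h1, h2, h3, h4, h5, h6⟩⟩

/-- **The line theorem, abstract form.**  `hP2` is the finite group lemma, `hbase` the data at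
every base point `σ + b₀`. -/
theorem line_abs {X k Q : Type*} [AddCommGroup k] [Group Q] [Fintype Q] {P : Subgroup Q}
    (hP : P.Normal) (hP2 : ∀ (r s : Q) (D : Q → Q → ℝ), Commute r s → PairLaw P r s D →
      (r = 1 ↔ s = 1))
    {col : X → Q} {S : Set (Equiv.Perm X)} {mk : (k → ℝ) → ℝ} (hmk : IsMean mk)
    (hinv : ∀ (b : k) (F : k → ℝ), mk (fun x => F (x + b)) = mk F)
    {f : k → Q} (hf : ∀ b b', Commute (f b) (f b'))
    (hbase : ∀ b₀ : k, ∃ (m : Mean X) (g gm Wk wt : k → m.Pres),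
      BaseData P col S mk (f b₀) (fun b => f (b₀ + b)) m g gm Wk wt)
    {b₀ : k} (hb₀ : f b₀ = 1) (b : k) : f b = 1 := by
  classical
  have key : ∀ b₀ s, 0 < mset mk {b | f (b₀ + b) = s} → (f b₀ = 1 ↔ s = 1) := by
    intro b₀ s hs
    obtain ⟨m, g, gm, Wk, wt, hB⟩ := hbase b₀
    obtain ⟨D, hD⟩ := exists_pairLaw hP hmk hB (fun b => hf _ _) hs
    have hne : ∃ b, f (b₀ + b) = s := by
      by_contra hcon
      push Not at hcon
      have : {b | f (b₀ + b) = s} = (∅ : Set k) := by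
        ext b
        simpa using hcon b
      rw [this, hmk.mset_empty] at hs
      exact lt_irrefl _ hs
    obtain ⟨b, rfl⟩ := hne
    exact hP2 _ _ D (hf _ _) hD
  have hshift : ∀ b₀ s, mset mk {b | f (b₀ + b) = s} = mset mk {b | f b = s} := by
    intro b₀ s
    have h1 := hinv b₀ (({b | f b = s} : Set k).indicator 1)
    rw [mset, mset, ← h1]
    congr 1
    funext x
    simp only [Set.indicator, Set.mem_ofPred_eq, add_comm x b₀, Pi.one_apply]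
  -- some colour has positive mean
  have huniv : 0 < mset mk (Set.univ : Set k) := by
    rw [hmk.mset_univ]
    exact one_pos
  obtain ⟨s, hs⟩ := hmk.exists_pos f huniv
  have hs' : 0 < mset mk {b | f b = s} := by
    refine hs.trans_le (hmk.mset_mono fun b hb => hb.2)
  have hs1 : s = 1 := (key b₀ s (by rwa [hshift])).1 hb₀
  rw [hs1] at hs'
  exact (key b 1 (by rwa [hshift])).2 rfl

/-- **The line theorem at the level of permutations.**  `PE` is a group of permutations of the set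
`X` of points, `S ⊆ PE` the translations by `L`; `Lt b` = left translation by the base point
`σ + b`, `Tk b` = translation by `b`; `hmean` = the invariant means (P9 + P5); `hmix`, `hmixm` =
one-step mixing (P3) for all means. -/
theorem line_perm {X k Q : Type*} [AddCommGroup k] [Group Q] [Fintype Q] {P : Subgroup Q}
    (hP : P.Normal) (hP2 : ∀ (r s : Q) (D : Q → Q → ℝ), Commute r s → PairLaw P r s D →
      (r = 1 ↔ s = 1))
    {col : X → Q} {f : k → Q} (hf : ∀ b b', Commute (f b) (f b'))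
    {mk : (k → ℝ) → ℝ} (hmk : IsMean mk)
    (hinv : ∀ (b : k) (F : k → ℝ), mk (fun x => F (x + b)) = mk F)
    {PE : Subgroup (Equiv.Perm X)} {S : Set (Equiv.Perm X)} (hS : ∀ τ ∈ S, τ ∈ PE)
    {Lt Tk : k → Equiv.Perm X}
    (hLt : ∀ b x, col (Lt b x) = f b * col x)
    (hTk : ∀ b x, Commute (col x) (col (Tk b x)))
    {g gm Wk wt : k → k → Equiv.Perm X}
    (hWk : ∀ b₀ b, Wk b₀ b ∈ PE) (hwt : ∀ b₀ b, wt b₀ b ∈ PE)
    (hg : ∀ b₀ b, ∃ τ ∈ S, g b₀ b = τ * Wk b₀ b)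
    (hgm : ∀ b₀ b, ∃ τ ∈ S, gm b₀ b = τ * wt b₀ b * Wk b₀ b)
    (hrel : ∀ b₀ b, Tk b * Lt b₀ = Lt (b₀ + b) * g b₀ b)
    (hrelm : ∀ b₀ b, Tk (-b) * (Lt b₀)⁻¹ = (Lt (b₀ + b))⁻¹ * gm b₀ b)
    (hwt1 : ∀ b₀ b, ∀ τ ∈ S, wt b₀ b * τ * (wt b₀ b)⁻¹ ∈ S)
    (hwt2 : ∀ b₀ b, ∀ τ ∈ S, (wt b₀ b)⁻¹ * τ * wt b₀ b ∈ S)
    (hcol : ∀ b₀ b x, col (wt b₀ b x)
      = f (b₀ + b) * (f b₀)⁻¹ * col x * (f (b₀ + b) * (f b₀)⁻¹)⁻¹)
    (hmean : ∀ b₀ : k, ∃ l : (X → ℝ) → ℝ, IsMean l ∧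
      (∀ π ∈ PE, ∀ F : X → ℝ, Bdd F → l (fun x => F (π x)) = l F) ∧
      (∀ b, ∀ ρ ∈ P, ∀ a a' : Q,
        mset l {x | col (Lt b₀ x) = ρ * a * ρ⁻¹ ∧ col (Tk b (Lt b₀ x)) = ρ * a' * ρ⁻¹}
        = mset l {x | col (Lt b₀ x) = a ∧ col (Tk b (Lt b₀ x)) = a'}) ∧
      (∀ b, ∀ ρ ∈ P, ∀ a a' : Q,
        mset l {x | col ((Lt b₀)⁻¹ x) = ρ * a * ρ⁻¹ ∧ col (Tk b ((Lt b₀)⁻¹ x)) = ρ * a' * ρ⁻¹}
        = mset l {x | col ((Lt b₀)⁻¹ x) = a ∧ col (Tk b ((Lt b₀)⁻¹ x)) = a'}))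
    (hmix : ∀ (b₀ : k) (m : Mean X) (g' : k → m.Pres), (∀ τ ∈ S, τ ∈ m.Pres) →
      (∀ b, (g' b).1 = g b₀ b) → Mixing m mk S g')
    (hmixm : ∀ (b₀ : k) (m : Mean X) (g' : k → m.Pres), (∀ τ ∈ S, τ ∈ m.Pres) →
      (∀ b, (g' b).1 = gm b₀ b) → Mixing m mk S g')
    {b₀ : k} (hb₀ : f b₀ = 1) (b : k) : f b = 1 := by
  classical
  have hLti : ∀ b x, col ((Lt b)⁻¹ x) = (f b)⁻¹ * col x := by
    intro b x
    have h1 := hLt b ((Lt b)⁻¹ x)
    rw [show Lt b ((Lt b)⁻¹ x) = x from (Lt b).apply_symm_apply x] at h1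
    rw [h1, inv_mul_cancel_left]
  refine line_abs hP hP2 hmk hinv hf (col := col) (S := S) (fun b₁ => ?_) hb₀ b
  obtain ⟨l, hl, hlPE, hlaw, hlawm⟩ := hmean b₁
  let m : Mean X := ⟨l, hl⟩
  have hPres : ∀ π ∈ PE, π ∈ m.Pres := fun π hπ F hF => hlPE π hπ F hF
  have hgPE : ∀ b, g b₁ b ∈ PE := by
    intro b
    obtain ⟨τ, hτ, h⟩ := hg b₁ b
    rw [h]
    exact PE.mul_mem (hS τ hτ) (hWk _ _)
  have hgmPE : ∀ b, gm b₁ b ∈ PE := by
    intro b
    obtain ⟨τ, hτ, h⟩ := hgm b₁ b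
    rw [h]
    exact PE.mul_mem (PE.mul_mem (hS τ hτ) (hwt _ _)) (hWk _ _)
  -- the colours of the moved points
  have hcg : ∀ b x, col (Tk b (Lt b₁ x)) = f (b₁ + b) * col (g b₁ b x) := by
    intro b x
    have h1 : Tk b (Lt b₁ x) = Lt (b₁ + b) (g b₁ b x) := by
      rw [← Equiv.Perm.mul_apply, hrel, Equiv.Perm.mul_apply]
    rw [h1, hLt]
  have hcgm : ∀ b x, col (Tk (-b) ((Lt b₁)⁻¹ x)) = (f (b₁ + b))⁻¹ * col (gm b₁ b x) := by
    intro b x
    have h1 : Tk (-b) ((Lt b₁)⁻¹ x) = (Lt (b₁ + b))⁻¹ (gm b₁ b x) := by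
      rw [← Equiv.Perm.mul_apply, hrelm, Equiv.Perm.mul_apply]
    rw [h1, hLti]
  refine ⟨m, fun b => ⟨g b₁ b, hPres _ (hgPE b)⟩, fun b => ⟨gm b₁ b, hPres _ (hgmPE b)⟩,
    fun b => ⟨Wk b₁ b, hPres _ (hWk _ _)⟩, fun b => ⟨wt b₁ b, hPres _ (hwt _ _)⟩, ?_⟩
  constructor
  · intro b
    obtain ⟨τ, hτ, h⟩ := hg b₁ b
    exact ⟨⟨τ, hPres _ (hS τ hτ)⟩, hτ, Subtype.ext h⟩
  · intro b
    obtain ⟨τ, hτ, h⟩ := hgm b₁ b
    exact ⟨⟨τ, hPres _ (hS τ hτ)⟩, hτ, Subtype.ext h⟩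
  · exact fun b => hwt1 b₁ b
  · exact fun b => hwt2 b₁ b
  · exact fun b x => hcol b₁ b x
  · intro b ρ hρ a a'
    have h1 := hlaw b ρ hρ a a'
    simp only [hLt, hcg] at h1
    exact h1
  · intro b ρ hρ a a'
    have h1 := hlawm (-b) ρ hρ a a'
    simp only [hLti, hcgm] at h1
    exact h1
  · intro b x
    have h1 := hTk b (Lt b₁ x)
    rw [hLt, hcg] at h1
    exact h1
  · exact hmix b₁ m _ (fun τ hτ => hPres _ (hS τ hτ)) fun b => rfl
  · exact hmixm b₁ m _ (fun τ hτ => hPres _ (hS τ hτ)) fun b => rfl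

end Vale.Agent.P011.H73.Gns
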