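import Mathlib

/-!
# H73/GrpLemma: subgroups of a minimal normal subgroup with trivial centraliser

`Q` a finite group, `P` a minimal normal subgroup with `C_Q(P) = 1`.  Every nontrivial `P`-invariant
subgroup `K ≤ P` contains a `P`-invariant `T` with: `T ∩ C(T) = 1`, `T` is not contained in `C(T)`,
every `T`-invariant subgroup of `T` is `1` or `T`, and every conjugate of `T` under `Q` is `T` or
contained in `C(T)`.
-/

namespace Vale.Agent.P011.H73.Grp

open Subgroup

variable {Q : Type*} [Group Q]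

/-- `N ≤ P` is normalised by `P` -/
def NP (P N : Subgroup Q) : Prop := N ≤ P ∧ ∀ p ∈ P, ∀ n ∈ N, p * n * p⁻¹ ∈ N

/-- conjugate subgroup -/
def cj (q : Q) (N : Subgroup Q) : Subgroup Q := N.map (MulAut.conj q).toMonoidHom

theorem mem_cj {q x : Q} {N : Subgroup Q} : x ∈ cj q N ↔ q⁻¹ * x * q ∈ N := by
  constructor
  · rintro ⟨n, hn, rfl⟩
    have : q⁻¹ * (MulAut.conj q).toMonoidHom n * q = n := by
      simp [MulAut.conj_apply, mul_assoc]
    rwa [this]
  · intro h
    refine ⟨_, h, ?_⟩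
    simp [MulAut.conj_apply, mul_assoc]

theorem NP.cj {P N : Subgroup Q} (hP : P.Normal) (h : NP P N) (q : Q) : NP P (cj q N) := by
  constructor
  · intro x hx
    rw [mem_cj] at hx
    have h1 := hP.conj_mem _ (h.1 hx) q
    have h2 : q * (q⁻¹ * x * q) * q⁻¹ = x := by group
    rwa [h2] at h1
  · intro p hp n hn
    rw [mem_cj] at hn ⊢
    have h1 : q⁻¹ * p * q ∈ P := by
      have := hP.conj_mem _ hp q⁻¹
      simpa using this
    have h2 := h.2 _ h1 _ hn
    have h3 : q⁻¹ * p * q * (q⁻¹ * n * q) * (q⁻¹ * p * q)⁻¹ = q⁻¹ * (p * n * p⁻¹) * q := by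
      group
    rwa [h3] at h2

theorem NP.inf {P N M : Subgroup Q} (hN : NP P N) (hM : NP P M) : NP P (N ⊓ M) :=
  ⟨inf_le_left.trans hN.1, fun p hp n hn => ⟨hN.2 p hp n hn.1, hM.2 p hp n hn.2⟩⟩

theorem NP.centralizer {P N : Subgroup Q} (hN : NP P N) :
    NP P (P ⊓ Subgroup.centralizer (N : Set Q)) := by
  refine ⟨inf_le_left, fun p hp n hn => ⟨?_, ?_⟩⟩
  · exact P.mul_mem (P.mul_mem hp hn.1) (P.inv_mem hp)
  · change p * n * p⁻¹ ∈ Subgroup.centralizer (N : Set Q)
    rw [Subgroup.mem_centralizer_iff]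
    intro y hy
    have h1 : p⁻¹ * y * p ∈ N := by
      have := hN.2 p⁻¹ (P.inv_mem hp) y hy
      simpa using this
    have h2 := (Subgroup.mem_centralizer_iff.1 hn.2) _ h1
    calc y * (p * n * p⁻¹) = p * ((p⁻¹ * y * p) * n) * p⁻¹ := by group
      _ = p * (n * (p⁻¹ * y * p)) * p⁻¹ := by rw [h2]
      _ = p * n * p⁻¹ * y := by group

/-- The structure of minimal `P`-invariant subgroups. -/
theorem exists_min [Finite Q] {P : Subgroup Q} (hP : P.Normal)
    (hmin : ∀ N : Subgroup Q, N.Normal → N ≤ P → N = ⊥ ∨ N = P)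
    (hC : Subgroup.centralizer (P : Set Q) = ⊥) {K : Subgroup Q} (hK : NP P K) (hK1 : K ≠ ⊥) :
    ∃ T : Subgroup Q, T ≤ K ∧ NP P T ∧
      T ⊓ Subgroup.centralizer (T : Set Q) = ⊥ ∧
      ¬ T ≤ Subgroup.centralizer (T : Set Q) ∧
      (∀ N : Subgroup Q, N ≤ T → (∀ t ∈ T, ∀ n ∈ N, t * n * t⁻¹ ∈ N) → N = ⊥ ∨ N = T) ∧
      (∀ q : Q, cj q T = T ∨ cj q T ≤ Subgroup.centralizer (T : Set Q)) := by
  classical
  obtain ⟨T, hT⟩ := (Set.toFinite {N : Subgroup Q | NP P N ∧ N ≠ ⊥ ∧ N ≤ K}).exists_minimal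
    ⟨K, hK, hK1, le_refl _⟩
  obtain ⟨⟨hT1, hT2, hT3⟩, hT4⟩ := hT
  have hmT : ∀ N : Subgroup Q, NP P N → N ≤ T → N = ⊥ ∨ N = T := by
    intro N hN hNT
    by_cases h : N = ⊥
    · exact Or.inl h
    · exact Or.inr (le_antisymm hNT (hT4 ⟨hN, h, hNT.trans hT3⟩ hNT))
  have hcj : ∀ q : Q, cj q T = T ∨ cj q T ≤ Subgroup.centralizer (T : Set Q) := by
    intro q
    have hq := hT1.cj hP q
    rcases hmT _ (hT1.inf hq) inf_le_left with h | h
    · right
      intro x hx
      rw [Subgroup.mem_centralizer_iff]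
      intro y hy
      have h1 : y * x * y⁻¹ * x⁻¹ ∈ T ⊓ cj q T := by
        refine ⟨?_, ?_⟩
        · have h2 : x * y⁻¹ * x⁻¹ ∈ T := hT1.2 x (hq.1 hx) _ (T.inv_mem hy)
          have h3 := T.mul_mem hy h2
          simpa [mul_assoc] using h3
        · exact (cj q T).mul_mem (hq.2 y (hT1.1 hy) x hx) ((cj q T).inv_mem hx)
      rw [h, Subgroup.mem_bot] at h1
      calc y * x = (y * x * y⁻¹ * x⁻¹) * (x * y) := by group
        _ = x * y := by rw [h1, one_mul]
    · left
      have h1 : T ≤ cj q T := inf_eq_left.1 h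
      have h2 : Nat.card (cj q T) = Nat.card T := by
        exact Nat.card_congr (T.equivMapOfInjective _ (MulAut.conj q).injective).symm.toEquiv
      exact (Subgroup.eq_of_le_of_card_ge h1 h2.le).symm
  -- the normal closure of `T` is `P`
  have hsup : P ≤ T ⊔ Subgroup.centralizer (T : Set Q) := by
    have hN : (⨆ q : Q, cj q T).Normal := by
      constructor
      intro n hn g
      have hle : (⨆ q : Q, cj q T) ≤ cj g⁻¹ (⨆ q : Q, cj q T) := by
        refine iSup_le fun q x hx => ?_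
        rw [mem_cj, inv_inv]
        have : g * x * g⁻¹ ∈ cj (g * q) T := by
          rw [mem_cj] at hx ⊢
          have e : (g * q)⁻¹ * (g * x * g⁻¹) * (g * q) = q⁻¹ * x * q := by group
          rwa [e]
        exact (le_iSup (fun q : Q => cj q T) (g * q)) this
      have := hle hn
      rwa [mem_cj, inv_inv] at this
    have hle : (⨆ q : Q, cj q T) ≤ P := iSup_le fun q => (hT1.cj hP q).1
    have hT5 : T ≤ ⨆ q : Q, cj q T := by
      have : cj (1 : Q) T = T := by
        ext x
        rw [mem_cj]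
        simp
      calc T = cj 1 T := this.symm
        _ ≤ _ := le_iSup (fun q : Q => cj q T) 1
    rcases hmin _ hN hle with h | h
    · exfalso
      rw [h] at hT5
      exact hT2 (le_bot_iff.1 hT5)
    · rw [← h]
      refine iSup_le fun q => ?_
      rcases hcj q with h | h
      · rw [h]
        exact le_sup_left
      · exact h.trans le_sup_right
  have hna : ¬ T ≤ Subgroup.centralizer (T : Set Q) := by
    intro hab
    have h1 : P ≤ Subgroup.centralizer (T : Set Q) := hsup.trans (sup_le hab (le_refl _))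
    have h2 : T ≤ Subgroup.centralizer (P : Set Q) := by
      intro t ht
      rw [Subgroup.mem_centralizer_iff]
      intro y hy
      exact ((Subgroup.mem_centralizer_iff.1 (h1 hy)) t ht).symm
    rw [hC] at h2
    exact hT2 (le_bot_iff.1 h2)
  have hinv : ∀ N : Subgroup Q, N ≤ T → (∀ t ∈ T, ∀ n ∈ N, t * n * t⁻¹ ∈ N) →
      N = ⊥ ∨ N = T := by
    intro N hN hNT
    refine hmT N ⟨hN.trans hT1.1, fun p hp n hn => ?_⟩ hN
    have h1 : T ⊔ Subgroup.centralizer (T : Set Q) ≤ Subgroup.normalizer (N : Set Q) := by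
      refine sup_le (fun t ht => ?_) (fun c hc => ?_)
      · rw [Subgroup.mem_normalizer_iff]
        intro y
        refine ⟨fun hy => hNT t ht y hy, fun hy => ?_⟩
        have := hNT t⁻¹ (T.inv_mem ht) _ hy
        have e : t⁻¹ * (t * y * t⁻¹) * t⁻¹⁻¹ = y := by group
        rwa [e] at this
      · rw [Subgroup.mem_normalizer_iff]
        intro y
        have hc' := Subgroup.mem_centralizer_iff.1 hc
        refine ⟨fun hy => ?_, fun hy => ?_⟩
        · have h2 := hc' y (hN hy)
          have e : c * y * c⁻¹ = y := by rw [← h2]; group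
          rwa [e]
        · have h2 := hc' _ (hN hy)
          have e : c * y * c⁻¹ = y := by
            have h3 : c * y * c⁻¹ * c = c * (c * y * c⁻¹) := h2
            have h4 : c * y = c * (c * y * c⁻¹) := by rw [← h3]; group
            exact (mul_left_cancel h4).symm
          rwa [e] at hy
    have h2 := Subgroup.mem_normalizer_iff.1 (h1 (hsup hp)) n
    exact h2.1 hn
  have hTC : T ⊓ Subgroup.centralizer (T : Set Q) = ⊥ := by
    have h0 : ∀ t ∈ T, ∀ n ∈ T ⊓ Subgroup.centralizer (T : Set Q),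
        t * n * t⁻¹ ∈ T ⊓ Subgroup.centralizer (T : Set Q) := by
      intro t ht n hn
      have h2 := (Subgroup.mem_centralizer_iff.1 hn.2) t ht
      rw [h2]
      have e : n * t * t⁻¹ = n := by group
      rw [e]
      exact hn
    rcases hinv _ inf_le_left h0 with h | h
    · exact h
    · exact absurd (inf_eq_left.1 h) hna
  exact ⟨T, hT3, hT1, hTC, hna, hinv, hcj⟩

/-- `P` has no nontrivial abelian `P`-invariant subgroup. -/
theorem eq_bot_of_comm [Finite Q] {P : Subgroup Q} (hP : P.Normal)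
    (hmin : ∀ N : Subgroup Q, N.Normal → N ≤ P → N = ⊥ ∨ N = P)
    (hC : Subgroup.centralizer (P : Set Q) = ⊥) {N : Subgroup Q} (hN : NP P N)
    (hab : ∀ x ∈ N, ∀ y ∈ N, x * y = y * x) : N = ⊥ := by
  by_contra h
  obtain ⟨T, hTN, -, -, hT, -, -⟩ := exists_min hP hmin hC hN h
  apply hT
  intro x hx
  rw [Subgroup.mem_centralizer_iff]
  intro y hy
  exact hab y (hTN hy) x (hTN hx)

end Vale.Agent.P011.H73.Grp
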