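import Mathlib
import Vale.Agent.P011.H73.GrpLemma
import Vale.Agent.P011.H73.LineAbs

/-!
# H73/GrpLaw: the finite group lemma (P2)

`Q` a finite group, `P` a minimal normal subgroup with trivial centraliser, `D` a probability on
`Q × Q` as produced by the limit law: then `r = 1 ↔ s = 1`.
-/

namespace Vale.Agent.P011.H73.Grp

open Subgroup
open Vale.Agent.P011.H73.Gns (PairLaw)

variable {Q : Type*} [Group Q] [Fintype Q]

/-- the commutator map `g ↦ s⁻¹ g s g⁻¹` -/
def ph (s g : Q) : Q := s⁻¹ * g * s * g⁻¹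

theorem sum_le_inv {T : Subgroup Q} (hTC : T ⊓ Subgroup.centralizer (T : Set Q) = ⊥)
    (q : Q → ℝ) (h0 : ∀ a, 0 ≤ q a) (h1 : ∑ a, q a = 1) (hq : ∀ t ∈ T, ∀ a, q (t * a) = q a)
    [DecidablePred (· ∈ Subgroup.centralizer (T : Set Q))] :
    (Nat.card T : ℝ) * ∑ a ∈ Finset.univ.filter (· ∈ Subgroup.centralizer (T : Set Q)), q a
      ≤ 1 := by
  classical
  have h2 : (Nat.card T : ℝ) * ∑ a ∈ Finset.univ.filter
      (· ∈ Subgroup.centralizer (T : Set Q)), q a
      = ∑ x ∈ (Finset.univ : Finset T) ×ˢ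
        (Finset.univ.filter (· ∈ Subgroup.centralizer (T : Set Q))), q (x.1 * x.2) := by
    rw [Finset.sum_product]
    have : ∀ t : T, ∑ a ∈ Finset.univ.filter (· ∈ Subgroup.centralizer (T : Set Q)),
        q ((t : Q) * a) = ∑ a ∈ Finset.univ.filter (· ∈ Subgroup.centralizer (T : Set Q)), q a :=
      fun t => Finset.sum_congr rfl fun a _ => hq t t.2 a
    simp only [this]
    rw [Finset.sum_const, nsmul_eq_mul, Finset.card_univ, Nat.card_eq_fintype_card]
  rw [h2]
  have hinj : Set.InjOn (fun x : T × Q => (x.1 : Q) * x.2)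
      ((Finset.univ : Finset T) ×ˢ
        (Finset.univ.filter (· ∈ Subgroup.centralizer (T : Set Q))) : Finset (T × Q)) := by
    rintro ⟨t, a⟩ ha ⟨t', a'⟩ ha' h
    simp only [Finset.coe_product, Finset.coe_univ, Finset.coe_filter, Set.mem_prod,
      Set.mem_univ, true_and, Finset.mem_univ, Set.mem_ofPred_eq] at ha ha'
    change (t : Q) * a = t' * a' at h
    have h3 : (t' : Q)⁻¹ * t = a' * a⁻¹ := by
      rw [inv_mul_eq_iff_eq_mul, ← mul_assoc, ← h]
      group
    have h4 : (t' : Q)⁻¹ * t ∈ T ⊓ Subgroup.centralizer (T : Set Q) := by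
      refine ⟨T.mul_mem (T.inv_mem t'.2) t.2, ?_⟩
      change (t' : Q)⁻¹ * t ∈ Subgroup.centralizer (T : Set Q)
      rw [h3]
      exact Subgroup.mul_mem _ ha' (Subgroup.inv_mem _ ha)
    rw [hTC, Subgroup.mem_bot] at h4
    have h5 : (t : Q) = t' := by
      rw [inv_mul_eq_one] at h4
      exact h4.symm
    have h6 : a = a' := by
      rw [h5] at h
      exact mul_left_cancel h
    rw [Prod.mk.injEq]
    exact ⟨Subtype.ext h5, h6⟩
  rw [← h1, ← Finset.sum_image (f := q) hinj]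
  exact Finset.sum_le_sum_of_subset_of_nonneg (Finset.subset_univ _) fun a _ _ => h0 a

omit [Fintype Q] in
/-- The claim on the support: `z` commutes with all `h a h⁻¹ a⁻¹`, `h ∈ T`; then `a ∈ C(T)` or
`z ∈ C(T)`. -/
theorem mem_or_mem {T : Subgroup Q} (hTC : T ⊓ Subgroup.centralizer (T : Set Q) = ⊥)
    (hna : ¬ T ≤ Subgroup.centralizer (T : Set Q))
    (hinv : ∀ N : Subgroup Q, N ≤ T → (∀ t ∈ T, ∀ n ∈ N, t * n * t⁻¹ ∈ N) → N = ⊥ ∨ N = T)
    (hcj : ∀ q : Q, cj q T = T ∨ cj q T ≤ Subgroup.centralizer (T : Set Q)) {a z : Q}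
    (hz : ∀ h ∈ T, z * (h * a * h⁻¹ * a⁻¹) = (h * a * h⁻¹ * a⁻¹) * z) :
    a ∈ Subgroup.centralizer (T : Set Q) ∨ z ∈ Subgroup.centralizer (T : Set Q) := by
  classical
  -- `B`: the subgroup of `T` of all elements centralised by `z` together with their conjugates
  have hTa : ∀ h ∈ T, ∀ x ∈ T, x * (a * h * a⁻¹) * x⁻¹ * (a * h * a⁻¹)⁻¹ ∈ T := by
    intro h hh x hx
    have h1 : a * h * a⁻¹ ∈ cj a T := by
      rw [mem_cj]
      have : a⁻¹ * (a * h * a⁻¹) * a = h := by group
      rwa [this]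
    rcases hcj a with h2 | h2
    · rw [h2] at h1
      exact T.mul_mem (T.mul_mem (T.mul_mem hx h1) (T.inv_mem hx)) (T.inv_mem h1)
    · have h3 := (Subgroup.mem_centralizer_iff.1 (h2 h1)) x hx
      have h4 : x * (a * h * a⁻¹) * x⁻¹ * (a * h * a⁻¹)⁻¹ = 1 := by
        rw [h3]
        group
      rw [h4]
      exact T.one_mem
  -- the subgroup `N` of `T` generated by all `[x, b]`, `x ∈ T`, `b = h a h⁻¹ a⁻¹`
  let W : Subgroup Q := Subgroup.centralizer {z}
  have hW : ∀ {y : Q}, y ∈ W ↔ z * y = y * z := by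
    intro y
    rw [Subgroup.mem_centralizer_iff]
    simp
  let N : Subgroup Q := Subgroup.closure
    {y | ∃ x ∈ T, ∃ h ∈ T, y = x * (h * a * h⁻¹ * a⁻¹) * x⁻¹ * (h * a * h⁻¹ * a⁻¹)⁻¹}
  have hb : ∀ x ∈ T, ∀ h ∈ T, x * (h * a * h⁻¹ * a⁻¹) * x⁻¹ ∈ W := by
    intro x hx h hh
    have e : x * (h * a * h⁻¹ * a⁻¹) * x⁻¹
        = ((x * h) * a * (x * h)⁻¹ * a⁻¹) * (x * a * x⁻¹ * a⁻¹)⁻¹ := by group
    rw [e]
    exact W.mul_mem (hW.2 (hz _ (T.mul_mem hx hh))) (W.inv_mem (hW.2 (hz _ hx)))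
  have hNT : N ≤ T := by
    rw [Subgroup.closure_le]
    rintro y ⟨x, hx, h, hh, rfl⟩
    have h1 := hTa h⁻¹ (T.inv_mem hh) x hx
    have e : x * (h * a * h⁻¹ * a⁻¹) * x⁻¹ * (h * a * h⁻¹ * a⁻¹)⁻¹
        = x * h * (x⁻¹ * (x * (a * h⁻¹ * a⁻¹) * x⁻¹ * (a * h⁻¹ * a⁻¹)⁻¹) * h⁻¹) := by group
    have e2 : x * h * (x⁻¹ * (x * (a * h⁻¹ * a⁻¹) * x⁻¹ * (a * h⁻¹ * a⁻¹)⁻¹) * h⁻¹)
      = x * (h * x⁻¹ * (x * (a * h⁻¹ * a⁻¹) * x⁻¹ * (a * h⁻¹ * a⁻¹)⁻¹) * h⁻¹) := by group
    rw [SetLike.mem_coe, e]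
    exact T.mul_mem (T.mul_mem hx hh) (T.mul_mem (T.mul_mem (T.inv_mem hx) h1) (T.inv_mem hh))
  have hNW : N ≤ W := by
    rw [Subgroup.closure_le]
    rintro y ⟨x, hx, h, hh, rfl⟩
    exact W.mul_mem (hb x hx h hh) (W.inv_mem (hW.2 (hz h hh)))
  have hNn : ∀ t ∈ T, ∀ n ∈ N, t * n * t⁻¹ ∈ N := by
    intro t ht n hn
    induction hn using Subgroup.closure_induction with
    | mem y hy =>
      obtain ⟨x, hx, h, hh, rfl⟩ := hy
      have e : t * (x * (h * a * h⁻¹ * a⁻¹) * x⁻¹ * (h * a * h⁻¹ * a⁻¹)⁻¹) * t⁻¹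
          = ((t * x) * (h * a * h⁻¹ * a⁻¹) * (t * x)⁻¹ * (h * a * h⁻¹ * a⁻¹)⁻¹)
            * (t * (h * a * h⁻¹ * a⁻¹) * t⁻¹ * (h * a * h⁻¹ * a⁻¹)⁻¹)⁻¹ := by group
      rw [e]
      exact N.mul_mem (Subgroup.subset_closure ⟨_, T.mul_mem ht hx, h, hh, rfl⟩)
        (N.inv_mem (Subgroup.subset_closure ⟨t, ht, h, hh, rfl⟩))
    | one =>
      have : t * 1 * t⁻¹ = 1 := by group
      rw [this]
      exact N.one_mem
    | mul x y _ _ hx hy =>
      have : t * (x * y) * t⁻¹ = (t * x * t⁻¹) * (t * y * t⁻¹) := by group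
      rw [this]
      exact N.mul_mem hx hy
    | inv x _ hx =>
      have : t * x⁻¹ * t⁻¹ = (t * x * t⁻¹)⁻¹ := by group
      rw [this]
      exact N.inv_mem hx
  rcases hinv N hNT hNn with h | h
  · -- `T` commutes with all `h a h⁻¹ a⁻¹`
    left
    have hcomm : ∀ x ∈ T, ∀ h ∈ T,
        x * (h * a * h⁻¹ * a⁻¹) = (h * a * h⁻¹ * a⁻¹) * x := by
      intro x hx h' hh'
      have h1 : x * (h' * a * h'⁻¹ * a⁻¹) * x⁻¹ * (h' * a * h'⁻¹ * a⁻¹)⁻¹ ∈ N :=
        Subgroup.subset_closure ⟨x, hx, h', hh', rfl⟩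
      rw [h, Subgroup.mem_bot, mul_inv_eq_one, mul_inv_eq_iff_eq_mul] at h1
      exact h1
    have hbC : ∀ h ∈ T, h * a * h⁻¹ * a⁻¹ ∈ Subgroup.centralizer (T : Set Q) := by
      intro h' hh'
      rw [Subgroup.mem_centralizer_iff]
      intro x hx
      exact hcomm x hx h' hh'
    rcases hcj a with h2 | h2
    · rw [Subgroup.mem_centralizer_iff]
      intro y hy
      have h3 : y * a * y⁻¹ * a⁻¹ ∈ T ⊓ Subgroup.centralizer (T : Set Q) := by
        refine ⟨?_, hbC y hy⟩
        have h4 : a * y⁻¹ * a⁻¹ ∈ T := by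
          rw [← h2, mem_cj]
          have : a⁻¹ * (a * y⁻¹ * a⁻¹) * a = y⁻¹ := by group
          rw [this]
          exact T.inv_mem hy
        have h5 := T.mul_mem hy h4
        simpa [mul_assoc] using h5
      rw [hTC, Subgroup.mem_bot] at h3
      calc y * a = (y * a * y⁻¹ * a⁻¹) * (a * y) := by group
        _ = a * y := by rw [h3, one_mul]
    · exfalso
      apply hna
      intro h' hh'
      have h3 : a * h'⁻¹ * a⁻¹ ∈ Subgroup.centralizer (T : Set Q) := by
        apply h2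
        rw [mem_cj]
        have : a⁻¹ * (a * h'⁻¹ * a⁻¹) * a = h'⁻¹ := by group
        rw [this]
        exact T.inv_mem hh'
      have h4 := Subgroup.mul_mem _ (hbC h' hh') (Subgroup.inv_mem _ h3)
      have e : h' * a * h'⁻¹ * a⁻¹ * (a * h'⁻¹ * a⁻¹)⁻¹ = h' := by group
      rwa [e] at h4
  · right
    rw [Subgroup.mem_centralizer_iff]
    intro y hy
    rw [← h] at hy
    exact (hW.1 (hNW hy)).symm

/-- **P2, first half** (`r = 1`). -/
theorem eq_one_of_left {P : Subgroup Q} (hP : P.Normal)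
    (hmin : ∀ N : Subgroup Q, N.Normal → N ≤ P → N = ⊥ ∨ N = P)
    (hC : Subgroup.centralizer (P : Set Q) = ⊥) {s : Q} {D : Q → Q → ℝ}
    (h0 : ∀ a a', 0 ≤ D a a') (h1 : ∑ a, ∑ a', D a a' = 1)
    (hm : ∀ a, ∑ a', D a a' = ∑ a', D a' a)
    (G1 : ∀ g ∈ P, ∀ a a', D (g * a * g⁻¹) (s⁻¹ * g * s * a' * g⁻¹) = D a a')
    (G2 : ∀ g ∈ P, ∀ a a', D (g * a * g⁻¹) (g * a' * s⁻¹ * g⁻¹ * s) = D a a')
    (hc : ∀ a a', D a a' ≠ 0 → Commute a (s * a')) : s = 1 := by
  classical
  by_contra hs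
  have hconj : ∀ {g}, g ∈ P → ∀ x : Q, x * g * x⁻¹ ∈ P := fun {g} hg x => hP.conj_mem g hg x
  have hph : ∀ g ∈ P, ph s g ∈ P := by
    intro g hg
    have h2 := hconj hg s⁻¹
    rw [inv_inv] at h2
    exact P.mul_mem h2 (P.inv_mem hg)
  -- the subgroup `K = [P, s]`
  let K : Subgroup Q := Subgroup.closure {k | ∃ g ∈ P, k = ph s g}
  have hphK : ∀ g ∈ P, ph s g ∈ K := fun g hg => Subgroup.subset_closure ⟨g, hg, rfl⟩
  have hKP : K ≤ P := by
    rw [Subgroup.closure_le]
    rintro k ⟨g, hg, rfl⟩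
    exact hph g hg
  have hKn : NP P K := by
    refine ⟨hKP, fun p hp n hn => ?_⟩
    induction hn using Subgroup.closure_induction with
    | mem y hy =>
      obtain ⟨g, hg, rfl⟩ := hy
      have e : p * ph s g * p⁻¹ = (ph s p)⁻¹ * ph s (p * g) := by
        simp only [ph]
        group
      rw [e]
      exact K.mul_mem (K.inv_mem (hphK p hp)) (hphK _ (P.mul_mem hp hg))
    | one =>
      have : p * 1 * p⁻¹ = 1 := by group
      rw [this]
      exact K.one_mem
    | mul x y _ _ hx hy =>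
      have : p * (x * y) * p⁻¹ = (p * x * p⁻¹) * (p * y * p⁻¹) := by group
      rw [this]
      exact K.mul_mem hx hy
    | inv x _ hx =>
      have : p * x⁻¹ * p⁻¹ = (p * x * p⁻¹)⁻¹ := by group
      rw [this]
      exact K.inv_mem hx
  have hcent : ∀ x : Q, (∀ g ∈ P, g * x = x * g) → x = 1 := by
    intro x hx
    have : x ∈ Subgroup.centralizer (P : Set Q) := Subgroup.mem_centralizer_iff.2 hx
    rwa [hC, Subgroup.mem_bot] at this
  have hK1 : K ≠ ⊥ := by
    intro hK
    apply hs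
    apply hcent
    intro g hg
    have h2 := hphK g hg
    rw [hK, Subgroup.mem_bot, ph, mul_inv_eq_one] at h2
    calc g * s = s * (s⁻¹ * g * s) := by group
      _ = s * g := by rw [h2]
  have hKab : ∀ N : Subgroup Q, NP P N → (∀ x ∈ N, ∀ y ∈ N, x * y = y * x) → N = ⊥ :=
    fun N hN hab => eq_bot_of_comm hP hmin hC hN hab
  -- the marginal
  set q : Q → ℝ := fun a => ∑ a', D a a' with hq
  have hq2 : ∀ a, q a = ∑ a', D a' a := fun a => hm a
  have hq0 : ∀ a, 0 ≤ q a := fun a => Finset.sum_nonneg fun a' _ => h0 a a'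
  have hqc : ∀ g ∈ P, ∀ a, q (g * a * g⁻¹) = q a := by
    intro g hg a
    simp only [hq]
    let e : Q ≃ Q := (Equiv.mulLeft (s⁻¹ * g * s)).trans (Equiv.mulRight g⁻¹)
    rw [← Equiv.sum_comp e]
    refine Finset.sum_congr rfl fun a' _ => ?_
    exact G1 g hg a a'
  have hqc2 : ∀ g ∈ P, ∀ a, q (s⁻¹ * g * s * a * g⁻¹) = q a := by
    intro g hg a
    rw [hq2, hq2]
    let e : Q ≃ Q := (Equiv.mulLeft g).trans (Equiv.mulRight g⁻¹)
    rw [← Equiv.sum_comp e]
    refine Finset.sum_congr rfl fun a' _ => ?_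
    exact G1 g hg a' a
  have hqK : ∀ k ∈ K, ∀ a, q (k * a) = q a := by
    intro k hk
    induction hk using Subgroup.closure_induction with
    | mem y hy =>
      obtain ⟨g, hg, rfl⟩ := hy
      intro a
      have h2 := hqc2 g hg (g⁻¹ * a * g)
      have h3 := hqc g⁻¹ (P.inv_mem hg) a
      rw [inv_inv] at h3
      rw [h3] at h2
      rw [← h2]
      congr 1
      simp only [ph]
      group
    | one =>
      intro a
      rw [one_mul]
    | mul x y _ _ hx hy =>
      intro a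
      rw [mul_assoc, hx, hy]
    | inv x _ hx =>
      intro a
      have h2 := hx (x⁻¹ * a)
      rw [mul_inv_cancel_left] at h2
      exact h2.symm
  -- the transformation `a' ↦ k a' k`
  have hk2 : ∀ g ∈ P, ∀ a a', D a (ph s g * a' * ph s g) = D a a' := by
    intro g hg a a'
    have h2 := G2 g⁻¹ (P.inv_mem hg) a a'
    have h3 := G1 g hg (g⁻¹ * a * g) (g⁻¹ * a' * s⁻¹ * g * s)
    rw [inv_inv] at h2
    rw [h2] at h3
    rw [← h3]
    congr 1
    · group
    · simp only [ph]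
      group
  -- the support is not empty
  have hsupp : ∃ a a', D a a' ≠ 0 := by
    by_contra hcon
    push Not at hcon
    have h2 : ∀ a, q a = 0 := fun a => by simp [hq, hcon]
    have h3 : ∑ a, q a = 1 := h1
    simp [h2] at h3
  obtain ⟨a₀, a₀', ha₀⟩ := hsupp
  have hqa₀ : q a₀ ≠ 0 := by
    intro h2
    have h3 := (Finset.sum_eq_zero_iff_of_nonneg fun a' _ => h0 a₀ a').1 h2 a₀'
      (Finset.mem_univ _)
    exact ha₀ h3
  -- `s² = 1`
  have hs2 : s * s = 1 := by
    apply hcent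
    -- for `h ∈ P`, `y = s⁻² h s² h⁻¹`
    have hy : ∀ h ∈ P, (s * s)⁻¹ * h * (s * s) * h⁻¹ ∈ K := by
      intro h hh
      have h2 : s⁻¹ * h * s ∈ P := by
        have := hconj hh s⁻¹
        rwa [inv_inv] at this
      have e : (s * s)⁻¹ * h * (s * s) * h⁻¹ = ph s (s⁻¹ * h * s) * ph s h := by
        simp only [ph]
        group
      rw [e]
      exact K.mul_mem (hphK _ h2) (hphK _ hh)
    have hm1 : ∀ h ∈ P, ∀ g ∈ P, ∀ a a',
        D a (a' * ((ph s g)⁻¹ * ((s * s)⁻¹ * h * (s * s) * h⁻¹)⁻¹ * ph s g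
          * ((s * s)⁻¹ * h * (s * s) * h⁻¹))) = D a a' := by
      intro h hh g hg
      have hh' : s⁻¹ * h * s ∈ P := by
        have := hconj hh s⁻¹
        rwa [inv_inv] at this
      set w : Q := h * (s⁻¹ * h * s)⁻¹ with hw
      set y : Q := (s * s)⁻¹ * h * (s * s) * h⁻¹ with hyy
      -- `γ : (a, a') ↦ (w a w⁻¹, a' y)`
      have hγ : ∀ a a', D (w * a * w⁻¹) (a' * y) = D a a' := by
        intro a a'
        have h2 := G2 (s⁻¹ * h * s)⁻¹ (P.inv_mem hh') a a'
        have h3 := G1 h hh ((s⁻¹ * h * s)⁻¹ * a * (s⁻¹ * h * s))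
          ((s⁻¹ * h * s)⁻¹ * a' * s⁻¹ * (s⁻¹ * h * s) * s)
        rw [inv_inv] at h2
        rw [h2] at h3
        rw [← h3]
        congr 1
        · rw [hw]
          group
        · rw [hyy]
          group
      have hγ' : ∀ a a', D (w⁻¹ * a * w) (a' * y⁻¹) = D a a' := by
        intro a a'
        have h2 := hγ (w⁻¹ * a * w) (a' * y⁻¹)
        rw [← h2]
        congr 1
        · group
        · group
      intro a a'
      set k : Q := ph s g with hk
      -- `γ⁻¹`, then `κ_k`, then `γ`, then `κ_k⁻¹`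
      have e1 : D a a' = D a (k⁻¹ * a' * k⁻¹) := by
        have h2 := hk2 g hg a (k⁻¹ * a' * k⁻¹)
        rw [← hk] at h2
        rw [← h2]
        congr 1
        group
      have e2 : D a (k⁻¹ * a' * k⁻¹) = D (w⁻¹ * a * w) (k⁻¹ * a' * k⁻¹ * y⁻¹) := (hγ' _ _).symm
      have e3 : D (w⁻¹ * a * w) (k⁻¹ * a' * k⁻¹ * y⁻¹)
          = D (w⁻¹ * a * w) (k * (k⁻¹ * a' * k⁻¹ * y⁻¹) * k) := by
        have h2 := hk2 g hg (w⁻¹ * a * w) (k⁻¹ * a' * k⁻¹ * y⁻¹)
        rw [← hk] at h2
        exact h2.symm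
      have e4 : D (w⁻¹ * a * w) (k * (k⁻¹ * a' * k⁻¹ * y⁻¹) * k)
          = D a (a' * (k⁻¹ * y⁻¹ * k * y)) := by
        have h2 := hγ (w⁻¹ * a * w) (k * (k⁻¹ * a' * k⁻¹ * y⁻¹) * k)
        rw [← h2]
        congr 1
        · group
        · group
      rw [e1, e2, e3, e4]
    -- `K` commutes with the elements `m`
    intro h hh
    have hyK := hy h hh
    set y : Q := (s * s)⁻¹ * h * (s * s) * h⁻¹ with hyy
    have hmc : ∀ g ∈ P, ∀ k ∈ K, ((ph s g)⁻¹ * y⁻¹ * ph s g * y) * k
        = k * ((ph s g)⁻¹ * y⁻¹ * ph s g * y) := by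
      intro g hg
      set mm : Q := (ph s g)⁻¹ * y⁻¹ * ph s g * y with hmm
      -- all `a` in the support of `q` commute with `mm` conjugated by `s a'`; we use left version
      have hsup : ∀ a, q a ≠ 0 → a * mm = mm * a := by
        intro a ha
        obtain ⟨a', -, ha'⟩ := Finset.exists_ne_zero_of_sum_ne_zero ha
        have h2 := hc a a' ha'
        have h3 : D a (a' * mm) ≠ 0 := by
          rw [hmm, hyy, hm1 h hh g hg a a']
          exact ha'
        have h4 := hc a (a' * mm) h3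
        have h5 : s * (a' * mm) = (s * a') * mm := by group
        rw [h5] at h4
        have h6 : mm = (s * a')⁻¹ * ((s * a') * mm) := by group
        have h7 : Commute a mm := by
          rw [h6]
          exact (h2.inv_right).mul_right h4
        exact h7.eq
      intro k hk
      have h2 := hsup a₀ hqa₀
      have h3 : q (k * a₀) ≠ 0 := by rw [hqK k hk]; exact hqa₀
      have h4 := hsup _ h3
      have h5 : mm * k * a₀ = k * mm * a₀ := by
        calc mm * k * a₀ = mm * (k * a₀) := by group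
          _ = k * a₀ * mm := h4.symm
          _ = k * (a₀ * mm) := by group
          _ = k * (mm * a₀) := by rw [h2]
          _ = k * mm * a₀ := by group
      exact mul_right_cancel h5
    -- the centre of `K` is trivial
    have hZ : ∀ x ∈ K, (∀ k ∈ K, x * k = k * x) → x = 1 := by
      intro x hx hxk
      have hN : NP P (K ⊓ Subgroup.centralizer (K : Set Q)) := by
        have h2 := hKn.inf hKn.centralizer
        have h3 : K ⊓ (P ⊓ Subgroup.centralizer (K : Set Q))
            = K ⊓ Subgroup.centralizer (K : Set Q) := by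
          rw [← inf_assoc, inf_eq_left.2 hKP]
        rwa [h3] at h2
      have h2 := hKab _ hN (fun u hu v hv => (Subgroup.mem_centralizer_iff.1 hv.2) u hu.1)
      have h3 : x ∈ K ⊓ Subgroup.centralizer (K : Set Q) := by
        refine ⟨hx, ?_⟩
        change x ∈ Subgroup.centralizer (K : Set Q)
        rw [Subgroup.mem_centralizer_iff]
        intro u hu
        exact (hxk u hu).symm
      rwa [h2, Subgroup.mem_bot] at h3
    have hyc : ∀ g ∈ P, y * ph s g = ph s g * y := by
      intro g hg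
      have h2 : (ph s g)⁻¹ * y⁻¹ * ph s g * y ∈ K :=
        K.mul_mem (K.mul_mem (K.mul_mem (K.inv_mem (hphK g hg)) (K.inv_mem hyK)) (hphK g hg)) hyK
      have h3 := hZ _ h2 (hmc g hg)
      have h4 : ph s g * y = y * ph s g * ((ph s g)⁻¹ * y⁻¹ * ph s g * y) := by group
      rw [h4, h3, mul_one]
    have hyk : ∀ k ∈ K, y * k = k * y := by
      intro k hk
      induction hk using Subgroup.closure_induction with
      | mem x hx =>
        obtain ⟨g, hg, rfl⟩ := hx
        exact hyc g hg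
      | one => rw [mul_one, one_mul]
      | mul u v _ _ hu hv => rw [← mul_assoc, hu, mul_assoc, hv, mul_assoc]
      | inv u _ hu =>
        have h2 : Commute y u := hu
        exact h2.inv_right.eq
    have hy1 := hZ y hyK hyk
    rw [hyy, mul_inv_eq_one] at hy1
    calc h * (s * s) = (s * s) * ((s * s)⁻¹ * h * (s * s)) := by group
      _ = (s * s) * h := by rw [hy1]
  -- `s` is an involution
  have hsi : s⁻¹ = s := by
    rw [inv_eq_iff_mul_eq_one]
    exact hs2
  set E : Q → Q → ℝ := fun a z => D a (s * z) with hE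
  have hsk : ∀ g, s * (ph s g)⁻¹ = ph s g * s := by
    intro g
    simp only [ph, hsi]
    have : s * (s * g * s * g⁻¹)⁻¹ = s * g * s⁻¹ * g⁻¹ * s⁻¹ := by group
    rw [this, hsi]
  have hEK : ∀ h ∈ K, ∀ a z, E a (h * z * h⁻¹) = E a z := by
    intro h hh
    induction hh using Subgroup.closure_induction with
    | mem x hx =>
      obtain ⟨g, hg, rfl⟩ := hx
      intro a z
      -- `E a (k⁻¹ w k) = E a w` with `w = k z k⁻¹`
      have h2 : ∀ w, E a ((ph s g)⁻¹ * w * ph s g) = E a w := by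
        intro w
        simp only [hE]
        have h3 := hk2 g hg a (s * w)
        rw [← h3]
        congr 1
        calc s * ((ph s g)⁻¹ * w * ph s g) = (s * (ph s g)⁻¹) * w * ph s g := by group
          _ = (ph s g * s) * w * ph s g := by rw [hsk]
          _ = ph s g * (s * w) * ph s g := by group
      have h3 := h2 (ph s g * z * (ph s g)⁻¹)
      rw [← h3]
      congr 1
      group
    | one =>
      intro a z
      congr 1
      group
    | mul x y _ _ hx hy =>
      intro a z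
      have e : x * y * z * (x * y)⁻¹ = x * (y * z * y⁻¹) * x⁻¹ := by group
      rw [e, hx, hy]
    | inv x _ hx =>
      intro a z
      have h2 := hx a (x⁻¹ * z * x⁻¹⁻¹)
      rw [← h2]
      congr 1
      group
  have hEc : ∀ a z, E a z ≠ 0 → Commute a z := by
    intro a z h2
    have h3 := hc a (s * z) h2
    rwa [← mul_assoc, hs2, one_mul] at h3
  have hEg : ∀ g ∈ P, ∀ a z, E (g * a * g⁻¹) (g * z * g⁻¹) = E a z := by
    intro g hg a z
    simp only [hE]
    have h2 := G1 g hg a (s * z)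
    rw [← h2]
    congr 1
    rw [hsi]
    have : s * g * s * (s * z) * g⁻¹ = s * g * (s * s) * z * g⁻¹ := by group
    rw [this, hs2]
    group
  have hEK2 : ∀ h ∈ K, ∀ a z, E (h * a * h⁻¹) z = E a z := by
    intro h hh a z
    have h2 := hEg h (hKP hh) a (h⁻¹ * z * h)
    have h3 := hEK h⁻¹ (K.inv_mem hh) a z
    rw [inv_inv] at h3
    rw [h3] at h2
    rw [← h2]
    congr 1
    group
  obtain ⟨T, hTK, hTn, hTC, hTna, hTinv, hTcj⟩ := exists_min hP hmin hC hKn hK1
  have hclaim : ∀ a z, E a z ≠ 0 → a ∈ Subgroup.centralizer (T : Set Q) ∨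
      z ∈ Subgroup.centralizer (T : Set Q) := by
    intro a z h2
    refine mem_or_mem hTC hTna hTinv hTcj fun h hh => ?_
    have h3 : Commute a z := hEc a z h2
    have h4 : Commute (h * a * h⁻¹) z := by
      apply hEc
      rw [hEK2 h (hTK hh)]
      exact h2
    have h5 : Commute (h * a * h⁻¹ * a⁻¹) z := h4.mul_left h3.inv_left
    exact h5.eq.symm
  -- the second marginal
  have hq3 : ∀ z, ∑ a, E a z = q (s * z) := fun z => (hq2 (s * z)).symm
  have hsK : ∀ k ∈ K, s * k * s⁻¹ ∈ K := by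
    intro k hk
    induction hk using Subgroup.closure_induction with
    | mem x hx =>
      obtain ⟨g, hg, rfl⟩ := hx
      have e : s * ph s g * s⁻¹ = ph s (s * g * s⁻¹) := by
        simp only [ph]
        group
      rw [e]
      exact hphK _ (hconj hg s)
    | one =>
      have : s * 1 * s⁻¹ = 1 := by group
      rw [this]
      exact K.one_mem
    | mul x y _ _ hx hy =>
      have : s * (x * y) * s⁻¹ = (s * x * s⁻¹) * (s * y * s⁻¹) := by group
      rw [this]
      exact K.mul_mem hx hy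
    | inv x _ hx =>
      have : s * x⁻¹ * s⁻¹ = (s * x * s⁻¹)⁻¹ := by group
      rw [this]
      exact K.inv_mem hx
  have hA := sum_le_inv hTC q hq0 h1 (fun t ht a => hqK t (hTK ht) a)
  have hB := sum_le_inv hTC (fun z => q (s * z)) (fun z => hq0 _)
    (by rw [← h1]; exact Equiv.sum_comp (Equiv.mulLeft s) q)
    (fun t ht z => by
      have h2 := hqK _ (hsK t (hTK ht)) (s * z)
      rw [← h2]
      congr 1
      group)
  have htot : (1 : ℝ) ≤
      ∑ a ∈ Finset.univ.filter (· ∈ Subgroup.centralizer (T : Set Q)), q a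
      + ∑ z ∈ Finset.univ.filter (· ∈ Subgroup.centralizer (T : Set Q)), q (s * z) := by
    have e1 : (1 : ℝ) = ∑ a, ∑ z, E a z := by
      rw [← h1]
      refine Finset.sum_congr rfl fun a _ => ?_
      exact (Equiv.sum_comp (Equiv.mulLeft s) (D a)).symm
    have e2 : ∑ a ∈ Finset.univ.filter (· ∈ Subgroup.centralizer (T : Set Q)), q a
        = ∑ a, ∑ z, if a ∈ Subgroup.centralizer (T : Set Q) then E a z else 0 := by
      rw [Finset.sum_filter]
      refine Finset.sum_congr rfl fun a _ => ?_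
      split_ifs with h2
      · exact (Equiv.sum_comp (Equiv.mulLeft s) (D a)).symm
      · simp
    have e3 : ∑ z ∈ Finset.univ.filter (· ∈ Subgroup.centralizer (T : Set Q)), q (s * z)
        = ∑ a, ∑ z, if z ∈ Subgroup.centralizer (T : Set Q) then E a z else 0 := by
      conv_rhs => rw [Finset.sum_comm]
      rw [Finset.sum_filter]
      refine Finset.sum_congr rfl fun z _ => ?_
      split_ifs with h2
      · exact (hq3 z).symm
      · simp
    rw [e2, e3, e1, ← Finset.sum_add_distrib]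
    refine Finset.sum_le_sum fun a _ => ?_
    rw [← Finset.sum_add_distrib]
    refine Finset.sum_le_sum fun z _ => ?_
    have hEn : 0 ≤ E a z := h0 _ _
    by_cases h2 : E a z = 0
    · rw [h2]
      split_ifs <;> simp
    · rcases hclaim a z h2 with h3 | h3
      · rw [if_pos h3]
        split_ifs <;> linarith
      · rw [if_pos h3]
        split_ifs <;> linarith
  -- `|T| ≤ 2`
  have hT2 : (Nat.card T : ℝ) ≤ 2 := by
    have h2 : (0 : ℝ) ≤ Nat.card T := Nat.cast_nonneg _
    nlinarith [mul_le_mul_of_nonneg_left htot h2]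
  apply hTna
  intro x hx
  rw [Subgroup.mem_centralizer_iff]
  intro y hy
  by_contra hxy
  have hx1 : x ≠ 1 := by
    rintro rfl
    exact hxy (by rw [mul_one, one_mul])
  have hy1 : y ≠ 1 := by
    rintro rfl
    exact hxy (by rw [mul_one, one_mul])
  have hxy1 : x ≠ y := by
    rintro rfl
    exact hxy rfl
  have h3 : 3 ≤ Nat.card T := by
    rw [Nat.card_eq_fintype_card]
    have : ({1, ⟨x, hx⟩, ⟨y, hy⟩} : Finset T).card = 3 := by
      rw [Finset.card_eq_three]
      refine ⟨1, ⟨x, hx⟩, ⟨y, hy⟩, ?_, ?_, ?_, rfl⟩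
      · intro h
        exact hx1 (congrArg Subtype.val h).symm
      · intro h
        exact hy1 (congrArg Subtype.val h).symm
      · intro h
        exact hxy1 (congrArg Subtype.val h)
    rw [← this]
    exact Finset.card_le_univ _
  have h4 : (3 : ℝ) ≤ Nat.card T := by exact_mod_cast h3
  linarith

/-- **P2**: the finite group lemma. -/
theorem pairLaw_iff {P : Subgroup Q} (hP : P.Normal)
    (hmin : ∀ N : Subgroup Q, N.Normal → N ≤ P → N = ⊥ ∨ N = P)
    (hC : Subgroup.centralizer (P : Set Q) = ⊥) (r s : Q) (D : Q → Q → ℝ)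
    (h : PairLaw P r s D) : r = 1 ↔ s = 1 := by
  constructor
  · rintro rfl
    refine eq_one_of_left hP hmin hC h.nonneg h.sum_eq h.marg (fun g hg a a' => ?_)
      (fun g hg a a' => ?_) (fun a a' h2 => ?_)
    · simpa using h.inv1 g hg a a'
    · simpa using h.inv2 g hg a a'
    · simpa using h.comm a a' h2
  · rintro rfl
    refine eq_one_of_left hP hmin hC (D := fun a a' => D a' a) (fun a a' => h.nonneg a' a) ?_
      (fun a => (h.marg a).symm) (fun g hg a a' => ?_)
      (fun g hg a a' => ?_) (fun a a' h2 => ?_)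
    · rw [Finset.sum_comm]
      exact h.sum_eq
    · simpa using h.inv1 g hg a' a
    · simpa using h.inv2 g hg a' a
    · have := h.comm a' a h2
      simpa using this.symm

end Vale.Agent.P011.H73.Grp
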