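import Vale.Agent.P011.H73.Sp1
import Vale.Agent.P011.H63.FBase

/-!
# Norms of local norms are local norms, over a function field
-/

open Module

set_option linter.unusedSectionVars false
set_option linter.style.haveILetI false

namespace Vale.Agent.P011.H73.Sp

open Vale.Agent.P011.H738 Vale.Agent.P011.H271 Vale.Agent.P011.H63.FB
open Vale.Agent.P011.H271.S3 (Ab)
open Vale.Agent.P011.Arith (NF)
open Vale.Agent.P011.Even (LN)

section algebra

variable {F E : Type} [Field F] [Field E] [Algebra F E]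

theorem incF_val (x : Fˣ) : ((incF F E x : Eˣ) : E) = algebraMap F E (x : F) := rfl

theorem nrmF_val (x : Eˣ) : ((nrmF F E x : Fˣ) : F) = Algebra.norm F (x : E) := rfl

/-- The norm of a global norm from `E(√b)` is a norm from `F(√b)`. -/
theorem nrm_mem_NF [FiniteDimensional F E] {b : Fˣ} {z : Eˣ} (hz : z ∈ NF (incF F E b)) :
    nrmF F E z ∈ NF b := by
  classical
  obtain ⟨X, Y, hXY⟩ := hz
  let L := QuadraticAlgebra F (b : F) 0
  let θ : L := ⟨0, 1⟩
  have hθ : θ * θ = algebraMap F L b := by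
    ext <;> simp [θ, L]
  have hsθ : star θ = -θ := by
    ext <;> simp [θ, L]
  let c := Module.finBasis F E
  let f := algebraMap F L
  have hsf : ∀ r : F, star (f r) = f r := by
    intro r
    ext <;> simp [f, L]
  let MX : Matrix _ _ L := f.mapMatrix (Algebra.leftMulMatrix c X)
  let MY : Matrix _ _ L := f.mapMatrix (Algebra.leftMulMatrix c Y)
  have hcomm : MX * MY = MY * MX := by
    simp only [MX, MY]
    rw [← map_mul, ← map_mul, ← map_mul, ← map_mul, mul_comm X Y]
  have h1 : (MX + θ • MY).det * (MX - θ • MY).det = f (Algebra.norm F (z : E)) := by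
    rw [← Matrix.det_mul, Algebra.norm_eq_matrix_det c, RingHom.map_det]
    congr 1
    have e1 : (z : E) = X * X - algebraMap F E (b : F) * (Y * Y) := by
      rw [hXY, incF_val]; ring
    rw [e1, map_sub, map_sub, ← Algebra.smul_def, map_smul, map_mul, map_mul, map_mul]
    have e2 : f.mapMatrix ((b : F) • (Algebra.leftMulMatrix c Y * Algebra.leftMulMatrix c Y)) =
        (θ * θ) • (MY * MY) := by
      refine Matrix.ext fun i j => ?_
      simp only [RingHom.mapMatrix_apply, Matrix.map_apply, Matrix.smul_apply, smul_eq_mul,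
        map_mul]
      rw [hθ]
      have e4 : (f.mapMatrix (Algebra.leftMulMatrix c Y * Algebra.leftMulMatrix c Y)) i j =
        (MY * MY) i j := by rw [map_mul]
      rw [← e4]
      rfl
    rw [e2, add_mul, mul_sub, mul_sub, smul_mul_smul_comm, Matrix.smul_mul, Matrix.mul_smul,
      hcomm]
    abel
  have h3 : starRingEnd L ((MX + θ • MY).det) = (MX - θ • MY).det := by
    rw [RingHom.map_det]
    congr 1
    refine Matrix.ext fun i j => ?_
    simp only [RingHom.mapMatrix_apply, Matrix.map_apply, Matrix.add_apply, Matrix.sub_apply,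
      Matrix.smul_apply, smul_eq_mul, map_add, map_mul, MX, MY]
    have e6 : ∀ r : F, starRingEnd L (f r) = f r := fun r => hsf r
    have e7 : starRingEnd L θ = -θ := hsθ
    rw [e6, e6, e7, neg_mul, ← sub_eq_add_neg]
  rw [← h3] at h1
  generalize (MX + θ • MY).det = δ at h1
  have h4 : f (QuadraticAlgebra.norm δ) = f (Algebra.norm F (z : E)) := by
    rw [← h1]
    exact QuadraticAlgebra.algebraMap_norm_eq_mul_star δ
  have h5 : QuadraticAlgebra.norm δ = Algebra.norm F (z : E) := by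
    have h6 := congrArg QuadraticAlgebra.re h4
    simpa [f, L] using h6
  refine ⟨δ.re, δ.im, ?_⟩
  rw [nrmF_val, ← h5, QuadraticAlgebra.norm_def]
  ring

end algebra

section cont

variable {F E : Type} [Field F] [Field E] [Algebra F E] [GFF F] [GFF E]
  [FiniteDimensional F E] [Algebra.IsSeparable F E]

/-- A small element. -/
theorem exists_small' (v : Place F) {γ : ℝ} (hγ : 0 < γ) : ∃ t : Fˣ, v.abv (t : F) < γ := by
  obtain ⟨π, hπ⟩ := exists_lt_one v
  obtain ⟨n, hn⟩ := exists_pow_lt_of_lt_one hγ hπ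
  exact ⟨π ^ n, by rwa [Units.val_pow_eq_pow_val, map_pow]⟩

/-- The coordinates of a small element are small. -/
theorem coord_small {ι : Type} [Fintype ι] (c : Basis ι F E) (v : Place F) {γ : ℝ}
    (hγ : 0 < γ) : ∃ η : Fˣ, ∀ x : E, (∀ w : Place E, Ab w v →
      w.abv x < w.abv (algebraMap F E η)) → ∀ i, v.abv (c.repr x i) < γ := by
  classical
  obtain ⟨π, hπ⟩ := exists_lt_one v
  obtain ⟨t, ht⟩ := exists_small' v hγ
  have h1 : ∀ (w : Place E) (i : ι), ∃ N : ℕ, Ab w v →
      (w.abv (algebraMap F E (π : F))) ^ N * w.abv (c.traceDual i) ≤ 1 := by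
    intro w i
    by_cases hw : Ab w v
    · obtain ⟨N, hN⟩ := exists_pow_mul_le ((val_lt_one_iff hw _).2 hπ) (w.abv (c.traceDual i))
      exact ⟨N, fun _ => hN⟩
    · exact ⟨0, fun h => absurd h hw⟩
  choose N hN using h1
  have hfin := above_finite (E := E) v
  let M : ℕ := ∑ w ∈ hfin.toFinset, ∑ i, N w i
  refine ⟨t * π ^ M, fun x hx i => ?_⟩
  have h2 : c.repr x i = Algebra.trace F E (x * c.traceDual i) := by
    have h3 := c.traceDual.traceDual_repr_apply x i
    rw [Module.Basis.traceDual_traceDual, Algebra.traceForm_apply] at h3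
    exact h3
  have ht0 : (t : F) ≠ 0 := t.ne_zero
  have hπ0 : (π : F) ≠ 0 := π.ne_zero
  have h3 : v.abv (Algebra.trace F E
      ((algebraMap F E (t : F))⁻¹ * (x * c.traceDual i))) ≤ 1 := by
    refine val_trace_le v _ fun w hw => ?_
    have h4 := hx w hw
    have hle : N w i ≤ M := by
      refine (Finset.single_le_sum (f := fun i => N w i) (fun _ _ => Nat.zero_le _)
        (Finset.mem_univ i)).trans ?_
      exact Finset.single_le_sum (f := fun w => ∑ i, N w i) (fun _ _ => Nat.zero_le _)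
        (hfin.mem_toFinset.2 hw)
    have h5 : (w.abv (algebraMap F E (π : F))) ^ M * w.abv (c.traceDual i) ≤ 1 := by
      refine le_trans (mul_le_mul_of_nonneg_right ?_ (w.abv.nonneg _)) (hN w i hw)
      exact pow_le_pow_of_le_one (w.abv.nonneg _) ((val_lt_one_iff hw _).2 hπ).le hle
    rw [Units.val_mul, Units.val_pow_eq_pow_val, map_mul, map_pow, map_mul, map_pow] at h4
    have htw : 0 < w.abv (algebraMap F E (t : F)) := w.abv.pos ((map_ne_zero _).2 ht0)
    rw [map_mul, map_mul, map_inv₀]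
    calc (w.abv (algebraMap F E (t : F)))⁻¹ * (w.abv x * w.abv (c.traceDual i)) ≤
        (w.abv (algebraMap F E (t : F)))⁻¹ * ((w.abv (algebraMap F E (t : F)) *
          w.abv (algebraMap F E (π : F)) ^ M) * w.abv (c.traceDual i)) := by
          refine mul_le_mul_of_nonneg_left ?_ (inv_nonneg.2 htw.le)
          exact mul_le_mul_of_nonneg_right h4.le (w.abv.nonneg _)
      _ = (w.abv (algebraMap F E (π : F))) ^ M * w.abv (c.traceDual i) := by
          field_simp
      _ ≤ 1 := h5
  rw [← map_inv₀, ← Algebra.smul_def, map_smul, smul_eq_mul, ← h2, map_mul, map_inv₀] at h3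
  have htv : 0 < v.abv (t : F) := v.abv.pos ht0
  have h6 : v.abv (c.repr x i) ≤ v.abv (t : F) := by
    rw [inv_mul_le_iff₀ htv, mul_one] at h3
    exact h3
  exact h6.trans_lt ht

/-- Continuity of the norm at `1`. -/
theorem norm_near_one (v : Place F) {γ : ℝ} (hγ0 : 0 < γ) (hγ : γ ≤ 1) :
    ∃ η : Fˣ, ∀ x : E, (∀ w : Place E, Ab w v →
      w.abv (x - 1) < w.abv (algebraMap F E η)) → v.abv (Algebra.norm F x - 1) < γ := by
  classical
  let c := Module.finBasis F E
  let C : ℝ := 1 + ∑ l, ∑ i, ∑ j, v.abv (Algebra.leftMulMatrix c (c l) i j)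
  have hC : ∀ l i j, v.abv (Algebra.leftMulMatrix c (c l) i j) ≤ C := by
    intro l i j
    have h1 : v.abv (Algebra.leftMulMatrix c (c l) i j) ≤
        ∑ l, ∑ i, ∑ j, v.abv (Algebra.leftMulMatrix c (c l) i j) := by
      refine (Finset.single_le_sum (f := fun j => v.abv (Algebra.leftMulMatrix c (c l) i j))
        (fun _ _ => v.abv.nonneg _) (Finset.mem_univ j)).trans ?_
      refine (Finset.single_le_sum (f := fun i => ∑ j, v.abv (Algebra.leftMulMatrix c (c l) i j))
        (fun _ _ => Finset.sum_nonneg fun _ _ => v.abv.nonneg _) (Finset.mem_univ i)).trans ?_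
      exact Finset.single_le_sum
        (f := fun l => ∑ i, ∑ j, v.abv (Algebra.leftMulMatrix c (c l) i j))
        (fun _ _ => Finset.sum_nonneg fun _ _ => Finset.sum_nonneg fun _ _ => v.abv.nonneg _)
        (Finset.mem_univ l)
    exact h1.trans (by simp only [C]; linarith)
  have hC0 : 0 < C := by
    have : 0 ≤ ∑ l, ∑ i, ∑ j, v.abv (Algebra.leftMulMatrix c (c l) i j) :=
      Finset.sum_nonneg fun _ _ => Finset.sum_nonneg fun _ _ => Finset.sum_nonneg fun _ _ =>
        v.abv.nonneg _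
    simp only [C]
    linarith
  obtain ⟨η, hη⟩ := coord_small c v (div_pos hγ0 hC0)
  refine ⟨η, fun x hx => ?_⟩
  rw [Algebra.norm_eq_matrix_det c]
  refine det_near_one v _ hγ hγ0 ?_
  intro i j
  have h1 : Algebra.leftMulMatrix c x - 1 =
      ∑ l, c.repr (x - 1) l • Algebra.leftMulMatrix c (c l) := by
    rw [← map_one (Algebra.leftMulMatrix c), ← map_sub]
    conv_lhs => rw [← c.sum_repr (x - 1)]
    rw [map_sum]
    exact Finset.sum_congr rfl fun l _ => map_smul _ _ _
  rw [h1, Matrix.sum_apply]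
  refine sum_lt v _ _ hγ0 fun l _ => ?_
  rw [Matrix.smul_apply, smul_eq_mul, map_mul]
  have h2 := hη (x - 1) hx l
  have h3 := hC l i j
  calc v.abv (c.repr (x - 1) l) * v.abv (Algebra.leftMulMatrix c (c l) i j) ≤
      v.abv (c.repr (x - 1) l) * C := mul_le_mul_of_nonneg_left h3 (v.abv.nonneg _)
    _ < γ := by rwa [lt_div_iff₀ hC0] at h2

end cont

section near

variable {F : Type} [Field F] [GFF F]

/-- An element that is a local norm at finitely many places is close to a norm. -/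
theorem near_norm (h2 : (2 : F) ≠ 0) {S : Set (Place F)} (hS : S.Finite) (a c : Fˣ)
    (h : ∀ v ∈ S, c ∈ NF a ⊔ LSF v) (ε : Place F → ℝ) (hε : ∀ v, 0 < ε v) :
    ∃ z ∈ NF a, ∀ v ∈ S, v.abv (((c / z : Fˣ) : F) - 1) < ε v := by
  classical
  rcases S.eq_empty_or_nonempty with rfl | ⟨v₀, hv₀⟩
  · exact ⟨1, Subgroup.one_mem _, by simp⟩
  have hc0 : ∀ v : Place F, 0 < v.abv (c : F) := fun v => v.abv.pos c.ne_zero
  -- local data
  have hloc : ∀ v : Place F, ∃ (x y : F) (δ : ℝ), 0 < δ ∧ (v ∈ S → ∀ X Y : F,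
      v.abv (X - x) < δ → v.abv (Y - y) < δ →
      v.abv (X ^ 2 - a * Y ^ 2 - c) < min 1 (ε v) * v.abv (c : F)) := by
    intro v
    by_cases hv : v ∈ S
    · obtain ⟨X0, Y0, hXY⟩ := (mem_LN_iff v h2 a c).2 (h v hv)
      set ι := algebraMap F v.comp with hι
      have hcont : Continuous fun p : v.comp × v.comp => p.1 ^ 2 - ι (a : F) * p.2 ^ 2 := by
        fun_prop
      have hpos : 0 < min 1 (ε v) * v.abv (c : F) :=
        mul_pos (lt_min one_pos (hε v)) (hc0 v)
      obtain ⟨δ, hδ, hd⟩ := Metric.continuousAt_iff.1 (hcont.continuousAt (x := (X0, Y0))) _ hpos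
      obtain ⟨x, hx⟩ := dense_alg v X0 (half_pos hδ)
      obtain ⟨y, hy⟩ := dense_alg v Y0 (half_pos hδ)
      refine ⟨x, y, δ / 2, half_pos hδ, fun _ X Y hX hY => ?_⟩
      have key : ∀ (Z z : F) (Z0 : v.comp), ‖Z0 - ι z‖ < δ / 2 → v.abv (Z - z) < δ / 2 →
          dist (ι Z) Z0 < δ := by
        intro Z z Z0 h1 h3
        rw [dist_eq_norm]
        have e : ι Z - Z0 = ι (Z - z) - (Z0 - ι z) := by rw [map_sub]; ring
        rw [e]
        refine (norm_sub_le _ _).trans_lt ?_
        rw [hι, norm_alg]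
        linarith
      have h3 := @hd (ι X, ι Y) (by
        rw [Prod.dist_eq]
        exact max_lt (key X x X0 hx hX) (key Y y Y0 hy hY))
      have e1 : ι X ^ 2 - ι (a : F) * ι Y ^ 2 - (X0 ^ 2 - ι (a : F) * Y0 ^ 2) =
          ι (X ^ 2 - a * Y ^ 2 - c) := by
        have h4 : ι (c : F) = X0 ^ 2 - ι (a : F) * Y0 ^ 2 := hXY
        rw [← h4]
        simp only [map_sub, map_mul, map_pow]
      rw [dist_eq_norm, e1, hι, norm_alg] at h3
      exact h3
    · exact ⟨0, 0, 1, one_pos, fun h => absurd h hv⟩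
  choose x y δ hδ hloc using hloc
  obtain ⟨X, hX⟩ := approx_set hS x δ hδ
  obtain ⟨Y, hY⟩ := approx_set hS y δ hδ
  have hz : ∀ v ∈ S, v.abv (X ^ 2 - a * Y ^ 2 - c) < min 1 (ε v) * v.abv (c : F) := fun v hv =>
    hloc v hv X Y (hX v hv) (hY v hv)
  have hz1 : ∀ v ∈ S, v.abv (X ^ 2 - a * Y ^ 2 - c) < v.abv (c : F) := fun v hv =>
    (hz v hv).trans_le (by
      calc _ ≤ 1 * v.abv (c : F) := mul_le_mul_of_nonneg_right (min_le_left _ _) (hc0 v).le
        _ = _ := one_mul _)
  have hval : ∀ v ∈ S, v.abv (X ^ 2 - a * Y ^ 2) = v.abv (c : F) := fun v hv =>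
    abv_eq_of_close (hz1 v hv)
  have hz0 : X ^ 2 - a * Y ^ 2 ≠ 0 := by
    intro h0
    have h1 := hval v₀ hv₀
    rw [h0, map_zero] at h1
    exact (hc0 v₀).ne h1
  refine ⟨Units.mk0 _ hz0, ⟨X, Y, rfl⟩, fun v hv => ?_⟩
  have e : ((c / Units.mk0 _ hz0 : Fˣ) : F) - 1 =
      -((X ^ 2 - a * Y ^ 2 - c) / (X ^ 2 - a * Y ^ 2)) := by
    rw [Units.val_div_eq_div_val, Units.val_mk0]
    field_simp
    ring
  rw [e, v.abv.map_neg, map_div₀, hval v hv, div_lt_iff₀ (hc0 v)]
  exact (hz v hv).trans_le (mul_le_mul_of_nonneg_right (min_le_right _ _) (hc0 v).le)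

end near

section main

variable {F E : Type} [Field F] [Field E] [Algebra F E] [GFF F] [GFF E]
  [FiniteDimensional F E] [Algebra.IsSeparable F E]

/-- The norm of an element that is a norm from `E(√b)` at all places above `v` is a norm from
`F(√b)` at `v`. -/
theorem nrm_localF (h2 : (2 : F) ≠ 0) (v : Place F) (b : Fˣ) (c : Eˣ)
    (h : ∀ w : Place E, Ab w v → c ∈ NF (incF F E b) ⊔ LSF w) :
    nrmF F E c ∈ NF b ⊔ LSF v := by
  have h2E : (2 : E) ≠ 0 := by
    rw [← map_ofNat (algebraMap F E) 2]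
    exact (_root_.map_ne_zero _).mpr h2
  obtain ⟨η, hη⟩ := norm_near_one (E := E) v one_pos le_rfl
  obtain ⟨z, hz, hc⟩ := near_norm h2E (above_finite (E := E) v) (incF F E b) c
    (fun w hw => h w hw) (fun w => w.abv (algebraMap F E (η : F)))
    (fun w => w.abv.pos ((_root_.map_ne_zero _).mpr η.ne_zero))
  have h1 := hη ((c / z : Eˣ) : E) (fun w hw => hc w hw)
  rw [← nrmF_val] at h1
  have h3 : nrmF F E (c / z) ∈ LSF v := LSF_of_near_one v h2 h1
  have h4 : nrmF F E c = nrmF F E z * nrmF F E (c / z) := by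
    rw [← map_mul, mul_div_cancel]
  rw [h4]
  exact Subgroup.mul_mem_sup (nrm_mem_NF hz) h3

end main

end Vale.Agent.P011.H73.Sp
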