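import Vale.Agent.P011.H271.PmF

/-!
# Places above a place of a function field: integrality, continuity of the norm
-/

open Module
open scoped NNReal

set_option linter.unusedSectionVars false
set_option linter.style.haveILetI false

namespace Vale.Agent.P011.H73.Sp

open Vale.Agent.P011.H738 Vale.Agent.P011.H271 Vale.Agent.P011.H271.ConF
open Vale.Agent.P011.H271.S3 (Ab)

section places

variable {k : Type} [Field k]

theorem place_eq_of_isEquiv {v w : Place k} (h : v.abv.IsEquiv w.abv) : v = w := by
  refine toPl_injective (Subtype.ext ?_)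
  ext x
  change plV v x ≤ 1 ↔ plV w x ≤ 1
  rw [plV_le_one, plV_le_one]
  have := h x 1
  rwa [map_one, map_one] at this

theorem place_nontrivial (v : Place k) : v.abv.IsNontrivial := by
  obtain ⟨x, hx⟩ := v.normalized.2.1
  have hx' : v.abv x = qq v := hx
  refine ⟨x, ?_, ?_⟩
  · rintro rfl
    rw [map_zero] at hx'
    exact (qq_pos v).ne hx'
  · rw [hx']
    exact (one_lt_qq' v).ne'

/-- A small element. -/
theorem exists_lt_one (v : Place k) : ∃ π : kˣ, v.abv (π : k) < 1 := by
  obtain ⟨x, hx⟩ := v.normalized.2.1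
  have hx' : v.abv x = qq v := hx
  have h0 : x ≠ 0 := by
    rintro rfl
    rw [map_zero] at hx'
    exact (qq_pos v).ne hx'
  refine ⟨(Units.mk0 x h0)⁻¹, ?_⟩
  rw [Units.val_inv_eq_inv_val, Units.val_mk0, map_inv₀, hx']
  exact inv_lt_one_of_one_lt₀ (one_lt_qq' v)

/-- Weak approximation at a family of distinct places. -/
theorem approx_fam {ι : Type} [Fintype ι] {w : ι → Place k} (hw : Function.Injective w)
    (x : ι → k) (g : ι → ℝ) (hg : ∀ i, 0 < g i) :
    ∃ y : k, ∀ i, (w i).abv (y - x i) < g i := by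
  classical
  rcases isEmpty_or_nonempty ι with hι | hι
  · exact ⟨0, fun i => (hι.false i).elim⟩
  obtain ⟨i₀, hi₀⟩ := Finite.exists_min g
  have hd := AbsoluteValue.denseRange_algebraMap_pi (F := k) (v := fun i => (w i).abv)
    (fun i => place_nontrivial (w i)) (fun i j hij h => hij (hw (place_eq_of_isEquiv h)))
  obtain ⟨a, ha⟩ := hd.exists_dist_lt (fun i => WithAbs.toAbs (w i).abv (x i)) (hg i₀)
  refine ⟨a, fun i => ?_⟩
  have h1 : dist (WithAbs.toAbs (w i).abv (x i)) (WithAbs.toAbs (w i).abv a) < g i₀ :=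
    (dist_le_pi_dist (fun i => WithAbs.toAbs (w i).abv (x i)) _ i).trans_lt ha
  rw [dist_comm, dist_eq_norm] at h1
  exact (lt_of_eq_of_lt rfl h1).trans_le (hi₀ i)

/-- Weak approximation at a finite set of places. -/
theorem approx_set {S : Set (Place k)} (hS : S.Finite) (x : Place k → k) (g : Place k → ℝ)
    (hg : ∀ i, 0 < g i) : ∃ y : k, ∀ v ∈ S, v.abv (y - x v) < g v := by
  classical
  haveI := hS.fintype
  obtain ⟨y, hy⟩ := approx_fam (w := fun v : S => (v : Place k)) Subtype.val_injective
    (fun v => x v) (fun v => g v) (fun v => hg v)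
  exact ⟨y, fun v hv => hy ⟨v, hv⟩⟩

/-- The nonarchimedean inequality for sums. -/
theorem sum_lt (v : Place k) {ι : Type} (s : Finset ι) (f : ι → k) {ε : ℝ} (hε : 0 < ε)
    (h : ∀ i ∈ s, v.abv (f i) < ε) : v.abv (∑ i ∈ s, f i) < ε := by
  classical
  induction s using Finset.induction_on with
  | empty => rwa [Finset.sum_empty, map_zero]
  | insert a s ha ih =>
    rw [Finset.sum_insert ha]
    refine (v.nonarch _ _).trans_lt (max_lt (h a (Finset.mem_insert_self a s)) (ih fun i hi => ?_))
    exact h i (Finset.mem_insert_of_mem hi)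

theorem sum_le (v : Place k) {ι : Type} (s : Finset ι) (f : ι → k) {C : ℝ} (hC : 0 ≤ C)
    (h : ∀ i ∈ s, v.abv (f i) ≤ C) : v.abv (∑ i ∈ s, f i) ≤ C := by
  classical
  induction s using Finset.induction_on with
  | empty => rwa [Finset.sum_empty, map_zero]
  | insert a s ha ih =>
    rw [Finset.sum_insert ha]
    refine (v.nonarch _ _).trans (max_le (h a (Finset.mem_insert_self a s)) (ih fun i hi => ?_))
    exact h i (Finset.mem_insert_of_mem hi)

theorem sub_lt (v : Place k) {x y : k} {ε : ℝ} (hx : v.abv x < ε) (hy : v.abv y < ε) :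
    v.abv (x - y) < ε := by
  rw [sub_eq_add_neg]
  refine (v.nonarch _ _).trans_lt (max_lt hx ?_)
  rwa [v.abv.map_neg]

theorem sub_le (v : Place k) {x y : k} {ε : ℝ} (hx : v.abv x ≤ ε) (hy : v.abv y ≤ ε) :
    v.abv (x - y) ≤ ε := by
  rw [sub_eq_add_neg]
  refine (v.nonarch _ _).trans (max_le hx ?_)
  rwa [v.abv.map_neg]

/-- A small perturbation does not change the absolute value. -/
theorem add_eq_left (v : Place k) {x y : k} (h : v.abv y < v.abv x) : v.abv (x + y) = v.abv x := by
  refine le_antisymm ((v.nonarch _ _).trans (max_le le_rfl h.le)) ?_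
  by_contra hcon
  rw [not_le] at hcon
  have h1 : v.abv ((x + y) - y) < v.abv x := sub_lt v hcon h
  rw [add_sub_cancel_right] at h1
  exact lt_irrefl _ h1

theorem eq_one_of_near (v : Place k) {x : k} (h : v.abv (x - 1) < 1) : v.abv x = 1 := by
  have h1 := add_eq_left v (x := 1) (y := x - 1) (by rwa [map_one])
  rwa [add_sub_cancel, map_one] at h1

/-- Powers of a small element beat a large one. -/
theorem exists_pow_mul_le {a : ℝ} (ha : a < 1) (b : ℝ) : ∃ N : ℕ, a ^ N * b ≤ 1 := by
  rcases le_or_gt b 0 with hb | hb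
  · exact ⟨0, by rw [pow_zero, one_mul]; linarith⟩
  · obtain ⟨N, hN⟩ := exists_pow_lt_of_lt_one (inv_pos.2 hb) ha
    refine ⟨N, ?_⟩
    calc a ^ N * b ≤ b⁻¹ * b := mul_le_mul_of_nonneg_right hN.le hb.le
      _ = 1 := inv_mul_cancel₀ hb.ne'

/-- The determinant of a matrix close to the identity. -/
theorem det_near_one (v : Place k) {ι : Type} [Fintype ι] [DecidableEq ι] (M : Matrix ι ι k)
    {γ : ℝ} (hγ : γ ≤ 1) (hγ0 : 0 < γ) (hM : ∀ i j, v.abv ((M - 1) i j) < γ) :
    v.abv (M.det - 1) < γ := by
  let A : Subring k := integers v.abv v.nonarch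
  let I : Ideal A :=
    { carrier := {x | v.abv (x : k) < γ}
      add_mem' := fun {x y} hx hy => (v.nonarch _ _).trans_lt (max_lt hx hy)
      zero_mem' := by
        change v.abv ((0 : A) : k) < γ
        rw [ZeroMemClass.coe_zero, map_zero]
        exact hγ0
      smul_mem' := fun c x hx => by
        change v.abv ((c • x : A) : k) < γ
        have h1 : v.abv (c : k) ≤ 1 := c.2
        have h2 : v.abv (x : k) < γ := hx
        rw [smul_eq_mul, Subring.coe_mul, map_mul]
        calc _ ≤ 1 * v.abv (x : k) := mul_le_mul_of_nonneg_right h1 (v.abv.nonneg _)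
          _ < γ := by rwa [one_mul] }
  have hint : ∀ i j, v.abv ((M - 1) i j) ≤ 1 := fun i j => (hM i j).le.trans hγ
  let N : Matrix ι ι A := Matrix.of fun i j => ⟨(M - 1) i j, hint i j⟩
  have hN : (A.subtype).mapMatrix (1 + N) = M := by
    rw [map_add, map_one]
    ext i j
    simp [N]
  have h1 : Ideal.Quotient.mk I ((1 + N).det) = 1 := by
    rw [RingHom.map_det, map_add, map_one]
    have : (Ideal.Quotient.mk I).mapMatrix N = 0 := by
      ext i j
      simp only [RingHom.mapMatrix_apply, Matrix.map_apply, Matrix.zero_apply]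
      exact Ideal.Quotient.eq_zero_iff_mem.mpr (hM i j)
    rw [this, add_zero, Matrix.det_one]
  have h2 : (1 + N).det - 1 ∈ I := by
    rw [← Ideal.Quotient.eq_zero_iff_mem, map_sub, h1, map_one, sub_self]
  have h3 : (((1 + N).det - 1 : A) : k) = M.det - 1 := by
    rw [← hN, ← RingHom.map_det]
    simp
  have h4 : v.abv ((((1 + N).det - 1 : A)) : k) < γ := h2
  rwa [h3] at h4

end places

section above

variable {F E : Type} [Field F] [Field E] [Algebra F E]

theorem val_le_val_iff {w : Place E} {v : Place F} (h : Ab w v) (x y : F) :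
    w.abv (algebraMap F E x) ≤ w.abv (algebraMap F E y) ↔ v.abv x ≤ v.abv y := by
  obtain ⟨c, hc, h⟩ := h
  rw [h, h, Real.rpow_le_rpow_iff (v.abv.nonneg _) (v.abv.nonneg _) hc]

theorem val_lt_val_iff {w : Place E} {v : Place F} (h : Ab w v) (x y : F) :
    w.abv (algebraMap F E x) < w.abv (algebraMap F E y) ↔ v.abv x < v.abv y := by
  rw [← not_le, ← not_le, val_le_val_iff h]

theorem val_le_one_iff {w : Place E} {v : Place F} (h : Ab w v) (x : F) :
    w.abv (algebraMap F E x) ≤ 1 ↔ v.abv x ≤ 1 := by
  have := val_le_val_iff h x 1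
  rwa [map_one, map_one, map_one] at this

theorem val_lt_one_iff {w : Place E} {v : Place F} (h : Ab w v) (x : F) :
    w.abv (algebraMap F E x) < 1 ↔ v.abv x < 1 := by
  have := val_lt_val_iff h x 1
  rwa [map_one, map_one, map_one] at this

/-- A place is determined by an inclusion of valuation rings. -/
theorem eq_of_le {v v' : Place F} (h : ∀ x, v.abv x ≤ 1 → v'.abv x ≤ 1) : v = v' := by
  refine (place_eq_of_isEquiv (AbsoluteValue.isEquiv_of_lt_one_imp (place_nontrivial v')
    fun x hx => ?_)).symm
  by_contra hcon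
  rw [not_lt] at hcon
  have h1 : v.abv x⁻¹ ≤ 1 := by
    rw [map_inv₀]
    exact inv_le_one_of_one_le₀ hcon
  have h2 := h _ h1
  rw [map_inv₀] at h2
  have hx0 : 0 < v'.abv x := v'.abv.pos (by
    rintro rfl
    rw [map_zero] at hcon
    linarith)
  exact absurd hx (not_lt.2 ((inv_le_one₀ hx0).1 h2))

/-- The places above `v` are finite in number. -/
theorem above_finite [GFF E] (v : Place F) : {w : Place E | Ab w v}.Finite := by
  obtain ⟨π, hπ⟩ := exists_lt_one v
  refine (place_finite (k := E) (x := algebraMap F E (π : F)) ((map_ne_zero _).2 π.ne_zero)).subset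
    fun w hw => ?_
  exact ne_of_lt ((val_lt_one_iff hw _).2 hπ)

variable [GFF F] [GFF E] [Algebra.IsAlgebraic F E]

theorem exists_below (w : Place E) : ∃ v : Place F, Ab w v := Hey.H63.exists_below w

/-- An element which is integral at all places above `v` is integral over the valuation ring. -/
theorem isIntegral_of_above (v : Place F) (x : E) (hx : ∀ w : Place E, Ab w v → w.abv x ≤ 1) :
    IsIntegral (toPl v).1.toSubring x := by
  let A : Subring F := (toPl v).1.toSubring
  let f : F →+* E := algebraMap F E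
  have hA : ∀ a : F, a ∈ A ↔ v.abv a ≤ 1 := fun a => by
    rw [← toPl_le_one v a, ← (toPl v).mem_iff]
    rfl
  have h1 : x ∈ (integralClosure (Subring.closure (A.map f : Set E)) E).toSubring := by
    rw [← iInf_valuationSubring_superset, Subring.mem_iInf]
    rintro ⟨V, hV⟩
    by_cases hT : V = ⊤
    · change x ∈ V
      rw [hT]; trivial
    obtain ⟨w, hw⟩ := toPl_surjective (k := E) ⟨V, hT⟩
    obtain ⟨v', hv'⟩ := exists_below (F := F) w
    have hmem : ∀ y : E, y ∈ V ↔ w.abv y ≤ 1 := fun y => by
      rw [← toPl_le_one w y, ← (toPl w).mem_iff, hw]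
    have hvv : v = v' := eq_of_le fun a ha => by
      rw [← val_le_one_iff hv', ← hmem]
      exact hV ⟨a, (hA a).2 ha, rfl⟩
    subst hvv
    exact (hmem x).2 (hx w hv')
  have h2 : Subring.closure (A.map f : Set E) = A.map f := Subring.closure_eq _
  obtain ⟨p, hp, hpx⟩ := (h1 : IsIntegral (Subring.closure (A.map f : Set E)) x)
  let e := A.equivMapOfInjective f f.injective
  let g : Subring.closure (A.map f : Set E) →+* A :=
    (e.symm : A.map f →+* A).comp (Subring.inclusion h2.le)
  refine ⟨p.map g, hp.map g, ?_⟩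
  rw [Polynomial.eval₂_map, ← hpx]
  congr 1
  ext y
  have h3 : ((e (e.symm (Subring.inclusion h2.le y)) : A.map f) : E) = f (e.symm (Subring.inclusion h2.le y) : A) :=
    Subring.coe_equivMapOfInjective_apply _ _ _ _
  rw [RingEquiv.apply_symm_apply] at h3
  exact h3.symm

/-- Integral elements of the base field. -/
theorem le_one_of_isIntegral (v : Place F) {x : F} (hx : IsIntegral (toPl v).1.toSubring x) :
    v.abv x ≤ 1 := by
  have h1 : IsIntegral (toPl v).1 x := hx
  obtain ⟨y, hy⟩ := IsIntegrallyClosed.isIntegral_iff.mp h1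
  rw [← toPl_le_one v x, ← (toPl v).mem_iff, ← hy]
  exact y.2

/-- Places above exist. -/
theorem exists_above (v : Place F) : ∃ w : Place E, Ab w v := by
  by_contra hcon
  push Not at hcon
  obtain ⟨π, hπ⟩ := exists_lt_one v
  have h1 := isIntegral_of_above v (algebraMap F E ((π⁻¹ : Fˣ) : F)) fun w hw => absurd hw (hcon w)
  have h2 : IsIntegral (toPl v).1.toSubring ((π⁻¹ : Fˣ) : F) :=
    (isIntegral_algebraMap_iff (algebraMap F E).injective).1 h1
  have h3 := le_one_of_isIntegral v h2
  rw [Units.val_inv_eq_inv_val, map_inv₀] at h3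
  exact absurd h3 (not_le.2 ((one_lt_inv₀ (v.abv.pos π.ne_zero)).2 hπ))

variable [FiniteDimensional F E]

/-- The norm of an element which is integral at the places above `v`. -/
theorem val_norm_le (v : Place F) (x : E) (hx : ∀ w : Place E, Ab w v → w.abv x ≤ 1) :
    v.abv (Algebra.norm F x) ≤ 1 :=
  le_one_of_isIntegral v (Algebra.isIntegral_norm F (isIntegral_of_above v x hx))

/-- The trace of an element which is integral at the places above `v`. -/
theorem val_trace_le (v : Place F) (x : E) (hx : ∀ w : Place E, Ab w v → w.abv x ≤ 1) :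
    v.abv (Algebra.trace F E x) ≤ 1 :=
  le_one_of_isIntegral v (Algebra.isIntegral_trace (isIntegral_of_above v x hx))

end above

end Vale.Agent.P011.H73.Sp
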