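import Vale.Agent.P011.H73.SplitLoc
import Vale.Agent.P011.H738.Inv4

/-!
# Function fields: splitting algebras of prime degree over extensions of degree at most two of the
completions, away from the places of division type
-/

open Module Matrix
open scoped TensorProduct

namespace Vale.Agent.P011.H73

open Vale.Agent.P011.H738 Vale.Agent.P011.H271 Vale.Agent.P011.H268

/-- The local theorem. -/
theorem loc2_holds : Loc2 := by
  intro F L Δ _ _ _ _ _ _ _ _ _ _ _ _ hst hne hfix hFL hfin t h1 h2 h3 h4
  have : FiniteDimensional F L := FiniteDimensional.of_finrank_pos (by omega)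
  exact loc2 hne hfix hFL t h1 h2 h3 h4

/-- A central simple algebra of prime degree which is not a division algebra over `E` splits over
`E`. -/
theorem exists_split_prime {K A E : Type} [Field K] [Ring A] [Algebra K A] [Field E] [Algebra K E]
    [FiniteDimensional K A] [Algebra.IsCentral K A] [IsSimpleRing A] {p : ℕ} (hp : p.Prime)
    (hA : finrank K A = p ^ 2) (h : ¬ ∀ x : E ⊗[K] A, x ≠ 0 → IsUnit x) :
    Nonempty (A →ₐ[K] Matrix (Fin p) (Fin p) E) := by
  have : IsSimpleRing (E ⊗[K] A) := isSimpleRing_baseChange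
  have : Algebra.IsCentral E (E ⊗[K] A) := isCentral_baseChange
  have : IsArtinianRing (E ⊗[K] A) := IsArtinianRing.of_finite E _
  obtain ⟨m, hm, Δ, i1, i2, i3, ⟨ψ⟩⟩ :=
    IsSimpleRing.exists_algEquiv_matrix_divisionRing_finite E (E ⊗[K] A)
  have h1 := ψ.toLinearEquiv.finrank_eq
  rw [Module.finrank_baseChange, hA, Module.finrank_matrix, Fintype.card_fin, ← pow_two] at h1
  have hmp : m ∣ p := (Nat.pow_dvd_pow_iff two_ne_zero).mp ⟨finrank E Δ, h1⟩
  rcases (Nat.dvd_prime hp).mp hmp with rfl | rfl
  · exfalso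
    apply h
    intro x hx
    have hy : ψ x ≠ 0 := fun h0 => hx (by rw [← ψ.symm_apply_apply x, h0, map_zero])
    have hy0 : ψ x 0 0 ≠ 0 := by
      intro h0
      apply hy
      ext i j
      rw [Subsingleton.elim i 0, Subsingleton.elim j 0, h0]
      rfl
    have hu : IsUnit (ψ x) := by
      refine ⟨⟨ψ x, Matrix.of fun _ _ => (ψ x 0 0)⁻¹, ?_, ?_⟩, rfl⟩
      · ext i j
        rw [Subsingleton.elim i 0, Subsingleton.elim j 0, Matrix.mul_apply]
        simp [hy0]
      · ext i j
        rw [Subsingleton.elim i 0, Subsingleton.elim j 0, Matrix.mul_apply]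
        simp [hy0]
    have := hu.map ψ.symm
    rwa [AlgEquiv.symm_apply_apply] at this
  · have h3 : finrank E Δ = 1 := by
      have h4 : 0 < m ^ 2 := pow_pos hp.pos 2
      exact (Nat.mul_eq_left h4.ne').mp h1.symm
    have hsurj : Function.Surjective (algebraMap E Δ) := by
      intro x
      obtain ⟨c, hc⟩ := (finrank_eq_one_iff_of_nonzero' (1 : Δ) one_ne_zero).mp h3 x
      exact ⟨c, by rw [Algebra.algebraMap_eq_smul_one, hc]⟩
    let e : E ≃ₐ[E] Δ := AlgEquiv.ofBijective (Algebra.ofId E Δ)
      ⟨(algebraMap E Δ).injective, hsurj⟩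
    exact ⟨((e.symm.toAlgHom.mapMatrix.comp (ψ : E ⊗[K] A →ₐ[E] _)).restrictScalars K).comp
      Algebra.TensorProduct.includeRight⟩

/-- **Splitting over an extension of degree at most two of the completion.** -/
theorem exists_omega {k K A : Type} [Field k] [GFF k] [Field K] [StarRing K]
    [Ring A] [StarRing A] [Algebra k K] [Algebra k A] [Algebra K A] [IsScalarTower k K A]
    [StarModule K A] {p : ℕ} (hp : p.Prime) (hA : Anis k K A p) (v : Place k)
    (hv : v ∉ Adiv k K A) :
    ∃ (Ω : Type) (_ : Field Ω) (_ : Algebra v.comp Ω) (_ : Algebra k Ω)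
      (_ : IsScalarTower k v.comp Ω) (_ : Algebra K Ω) (_ : IsScalarTower k K Ω),
      (Function.Bijective (algebraMap v.comp Ω) ∨ finrank v.comp Ω = 2) ∧
      Nonempty (A →ₐ[K] Matrix (Fin p) (Fin p) Ω) := by
  have := hA.central
  have := hA.simple
  have : FiniteDimensional K A := FiniteDimensional.of_finrank_pos (by
    rw [hA.finrank_eq]
    exact pow_pos hp.pos 2)
  rcases isEmpty_or_nonempty (K →ₐ[k] v.comp) with hns | ⟨⟨φ⟩⟩
  · obtain ⟨L, _, _, _, _, _, φ, hst, hφs, hd, hφk, hLn, hL⟩ :=
      exists_quad_field hA.fixed hA.star_ne v hns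
    obtain ⟨g, hg⟩ := split_of_loc2 loc2_holds hA hp.ne_zero v L φ hst hφs hφk hLn hL
    let _ : Algebra k L := ((algebraMap v.comp L).comp (algebraMap k v.comp)).toAlgebra
    have ht : IsScalarTower k v.comp L := IsScalarTower.of_algebraMap_eq fun _ => rfl
    let _ : Algebra K L := φ.toAlgebra
    have ht' : IsScalarTower k K L := IsScalarTower.of_algebraMap_eq fun c => (hφk c).symm
    refine ⟨L, inferInstance, inferInstance, inferInstance, ht, inferInstance, ht', Or.inr hL,
      ⟨{ (g : A →+* Matrix (Fin p) (Fin p) L) with commutes' := fun c => ?_ }⟩⟩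
    change g (algebraMap K A c) = algebraMap K (Matrix (Fin p) (Fin p) L) c
    rw [hg]
    rfl
  · let _ : Algebra K v.comp := (φ : K →+* v.comp).toAlgebra
    have ht' : IsScalarTower k K v.comp := IsScalarTower.of_algebraMap_eq fun c =>
      (φ.commutes c).symm
    refine ⟨v.comp, inferInstance, inferInstance, inferInstance, inferInstance, inferInstance, ht',
      Or.inl Function.bijective_id, exists_split_prime hp hA.finrank_eq fun h => hv ⟨φ, h⟩⟩

end Vale.Agent.P011.H73
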