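import Vale.Agent.P011.H775.CubEx
import Mathlib.Algebra.Polynomial.Roots
import Mathlib.LinearAlgebra.Dual.Lemmas
import Mathlib.RingTheory.Finiteness.Basic

/-!
Two line steps suffice: the cubic map `R P Q ξ = T(Q ξ^#) T(P ξ) - T(P ξ^#) T(Q ξ)` on the
symmetric elements vanishes identically only if `Q` is a multiple of `P`.
-/

open Module Polynomial

set_option linter.unusedSectionVars false

namespace Vale.Agent.P011.H73.ND

open Vale.Agent.P011.H775

section alg

variable {K D : Type} [Field K] [DivisionRing D] [Algebra K D] (C : Cub K D)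

/-- The obstruction to reach a target by one line step. -/
def R (P Q ξ : D) : K := C.T (Q * C.adj ξ) * C.T (P * ξ) - C.T (P * C.adj ξ) * C.T (Q * ξ)

theorem R_self (P ξ : D) : R C P P ξ = 0 := by
  rw [R, sub_self]

theorem R_add (P Q Q' ξ : D) : R C P (Q + Q') ξ = R C P Q ξ + R C P Q' ξ := by
  rw [R, R, R, add_mul, add_mul, map_add, map_add]
  ring

theorem R_smul (P Q ξ : D) (c : K) : R C P (c • Q) ξ = c * R C P Q ξ := by
  rw [R, R, smul_mul_assoc, smul_mul_assoc, map_smul, map_smul, smul_eq_mul, smul_eq_mul]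
  ring

/-- `R` as a linear map in the target. -/
def RL (P ξ : D) : D →ₗ[K] K where
  toFun Q := R C P Q ξ
  map_add' _ _ := R_add C _ _ _ _
  map_smul' _ _ := by rw [R_smul, RingHom.id_apply, smul_eq_mul]

@[simp]
theorem RL_apply (P Q ξ : D) : RL C P ξ Q = R C P Q ξ := rfl

theorem R_mul_right (P Q η : D) : R C P Q (η * P) =
    C.T (Q * C.adj P * C.adj η) * C.T (P * P * η) - C.N P * C.S η * C.T (P * Q * η) := by
  rw [R, C.adj_mul_distrib, ← mul_assoc, ← mul_assoc P (C.adj P), C.mul_adj, smul_mul_assoc,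
    one_mul, map_smul, smul_eq_mul, C.T_comm P (η * P), mul_assoc η P P, C.T_comm η (P * P),
    ← mul_assoc Q η P, C.T_comm (Q * η) P, ← mul_assoc P Q η]
  rfl

/-- a linear form vanishing on the kernel of another one is a multiple of it -/
theorem exists_smul_of_ker {V : Type*} [AddCommGroup V] [Module K V] (f g : V →ₗ[K] K)
    (h : ∀ x, f x = 0 → g x = 0) : ∃ c : K, g = c • f := by
  by_cases hf : f = 0
  · refine ⟨0, ?_⟩
    rw [zero_smul]
    ext x
    exact h x (by rw [hf, LinearMap.zero_apply])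
  · obtain ⟨x₀, hx₀⟩ : ∃ x, f x ≠ 0 := by
      by_contra h1
      push Not at h1
      exact hf (LinearMap.ext h1)
    refine ⟨g x₀ / f x₀, LinearMap.ext fun x => ?_⟩
    have h2 := h (x - (f x / f x₀) • x₀) (by
      rw [map_sub, map_smul, smul_eq_mul, div_mul_cancel₀ _ hx₀, sub_self])
    rw [map_sub, map_smul, smul_eq_mul, sub_eq_zero] at h2
    rw [h2, LinearMap.smul_apply, smul_eq_mul]
    field_simp

/-- The reduced trace is not zero (every characteristic). -/
theorem exists_T_ne (hnc : ∃ x y : D, x * y ≠ y * x) : ∃ x, C.T x ≠ 0 := by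
  by_contra hT
  push Not at hT
  have h3 : (3 : K) = 0 := by
    rw [← C.T_one]
    exact hT 1
  have hS : ∀ x, C.S x = 0 := fun x => hT _
  have hcub : ∀ x : D, x * x * x = algebraMap K D (C.N x) := by
    intro x
    have h := C.cayley x
    rw [hT, hS, zero_smul, zero_smul, sub_zero, add_zero, sub_eq_zero] at h
    rw [h, Algebra.algebraMap_eq_smul_one]
  have hN : ∀ x y, C.N (x + y) = C.N x + C.N y := by
    intro x y
    rw [C.N_add, hT, hT]
    ring
  have h3D : (3 : D) = 0 := by
    rw [← map_ofNat (algebraMap K D) 3, h3, map_zero]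
  have hadd : ∀ x y : D, (x + y) * (x + y) * (x + y) = x * x * x + y * y * y := by
    intro x y
    rw [hcub, hcub, hcub, hN, map_add]
  have h2D : (2 : D) ≠ 0 := by
    intro h
    have : (1 : D) = 3 - 2 := by norm_num
    rw [h3D, h, sub_zero] at this
    exact one_ne_zero this
  have hlin : ∀ x y : D, x * x * y + x * y * x + y * x * x = 0 := by
    intro x y
    have h1 := hadd x y
    have h2 := hadd x (-y)
    have h4 : (2 : D) * (x * x * y + x * y * x + y * x * x) = 0 := by
      have e : (2 : D) * (x * x * y + x * y * x + y * x * x) =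
          ((x + y) * (x + y) * (x + y) - (x * x * x + y * y * y)) -
          ((x + -y) * (x + -y) * (x + -y) - (x * x * x + (-y) * (-y) * (-y))) -
          0 := by
        rw [two_mul]
        noncomm_ring
      rw [e, h1, h2]
      simp
    exact (mul_eq_zero.mp h4).resolve_left h2D
  obtain ⟨x, y, hxy⟩ := hnc
  apply hxy
  -- the double commutator vanishes
  have hcc : ∀ y : D, x * (x * y - y * x) = (x * y - y * x) * x := by
    intro y
    rw [← sub_eq_zero]
    have e : x * (x * y - y * x) - (x * y - y * x) * x =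
        (x * x * y + x * y * x + y * x * x) - 3 * (x * y * x) := by noncomm_ring
    rw [e, hlin, h3D, zero_mul, sub_zero]
  have h5 := hcc (y * y)
  have h6 := hcc y
  obtain ⟨z, hz⟩ : ∃ z, z = x * y - y * x := ⟨_, rfl⟩
  rw [← hz] at h6
  have h7 : x * (y * y) - y * y * x = z * y + y * z := by
    rw [hz]
    noncomm_ring
  rw [h7] at h5
  have h8 : (2 : D) * (z * z) = 0 := by
    have e : (2 : D) * (z * z) = (x * (z * y + y * z) - (z * y + y * z) * x) -
        ((x * z - z * x) * y + y * (x * z - z * x)) + (z * (z - (x * y - y * x)) +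
          (z - (x * y - y * x)) * z) := by
      rw [two_mul]
      noncomm_ring
    rw [e, h5, h6, ← hz]
    simp
  have h9 := (mul_eq_zero.mp h8).resolve_left h2D
  have h10 : z = 0 := mul_self_eq_zero.mp h9
  rw [h10, eq_comm, sub_eq_zero] at hz
  exact hz

/-- the trace form is nondegenerate -/
theorem eq_zero_of_T (hT : ∃ x, C.T x ≠ 0) {x : D} (h : ∀ y, C.T (x * y) = 0) : x = 0 := by
  by_contra hx
  obtain ⟨z, hz⟩ := hT
  apply hz
  have h1 := h (x⁻¹ * z)
  rwa [← mul_assoc, mul_inv_cancel₀ hx, one_mul] at h1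

theorem S_add (x y : D) : C.S (x + y) = C.S x + C.S y + (C.T x * C.T y - C.T (x * y)) := by
  rw [Cub.S, C.adj_add, map_add, map_add, C.T_cr]
  rfl

/-- The quadratic form `S` does not vanish on a hyperplane. -/
theorem exists_S_ne [FiniteDimensional K D] (h9 : 4 ≤ finrank K D) (hT : ∃ x, C.T x ≠ 0)
    (A : D) : ∃ η, C.T (A * η) = 0 ∧ C.S η ≠ 0 := by
  by_contra h
  push Not at h
  have h1 : ∀ x y, C.T (A * x) = 0 → C.T (A * y) = 0 → C.T x * C.T y = C.T (x * y) := by
    intro x y hx hy
    have h2 := h (x + y) (by rw [mul_add, map_add, hx, hy, add_zero])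
    rw [S_add, h x hx, h y hy, add_zero, zero_add, sub_eq_zero] at h2
    exact h2
  set f : D →ₗ[K] K := C.T ∘ₗ LinearMap.mulLeft K A with hf
  have hfa : ∀ x, f x = C.T (A * x) := fun x => rfl
  have h3 : LinearMap.ker (f.prod C.T) ≤ Submodule.span K {A} := by
    intro x hx
    have hx : C.T (A * x) = 0 ∧ C.T x = 0 := Prod.mk_eq_zero.mp (LinearMap.mem_ker.mp hx)
    obtain ⟨c, hc⟩ := exists_smul_of_ker f (C.T ∘ₗ LinearMap.mulLeft K x) (fun y hy => by
      rw [LinearMap.comp_apply, LinearMap.mulLeft_apply, ← h1 x y hx.1 hy, hx.2, zero_mul])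
    have h4 : x - c • A = 0 := by
      apply eq_zero_of_T C hT
      intro y
      have h5 := LinearMap.congr_fun hc y
      rw [LinearMap.comp_apply, LinearMap.mulLeft_apply, LinearMap.smul_apply, hfa,
        smul_eq_mul] at h5
      rw [sub_mul, map_sub, h5, smul_mul_assoc, map_smul, smul_eq_mul, sub_self]
    rw [sub_eq_zero] at h4
    rw [h4]
    exact Submodule.smul_mem _ _ (Submodule.mem_span_singleton_self A)
  have h6 := Submodule.finrank_mono h3
  have h7 : finrank K (Submodule.span K {A}) ≤ 1 := by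
    refine (finrank_span_le_card _).trans ?_
    simp
  have h8 := LinearMap.finrank_range_add_finrank_ker (f.prod C.T)
  have h10 : finrank K (LinearMap.range (f.prod C.T)) ≤ 2 := by
    refine (Submodule.finrank_le _).trans ?_
    rw [Module.finrank_prod, Module.finrank_self]
  omega

/-- `R P Q` vanishes identically only if `Q` is a multiple of `P`. -/
theorem eq_smul_of_R_all [Infinite K] [FiniteDimensional K D] (h9 : 4 ≤ finrank K D)
    (hT : ∃ x, C.T x ≠ 0) {P Q : D} (hP : P ≠ 0) (h : ∀ ξ, R C P Q ξ = 0) :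
    ∃ e : K, Q = e • P := by
  have hN : C.N P ≠ 0 := C.N_ne_zero hP
  by_contra hne
  push Not at hne
  -- a vector on which the second form does not vanish
  obtain ⟨η₀, h1, h2⟩ : ∃ η₀, C.T (P * P * η₀) = 0 ∧ C.T (P * Q * η₀) ≠ 0 := by
    by_contra h3
    push Not at h3
    obtain ⟨c, hc⟩ := exists_smul_of_ker (C.T ∘ₗ LinearMap.mulLeft K (P * P))
      (C.T ∘ₗ LinearMap.mulLeft K (P * Q)) h3
    apply hne c
    have h4 : P * Q - c • (P * P) = 0 := by
      apply eq_zero_of_T C hT
      intro y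
      have h5 := LinearMap.congr_fun hc y
      rw [LinearMap.comp_apply, LinearMap.mulLeft_apply, LinearMap.smul_apply,
        LinearMap.comp_apply, LinearMap.mulLeft_apply, smul_eq_mul] at h5
      rw [sub_mul, map_sub, h5, smul_mul_assoc, map_smul, smul_eq_mul, sub_self]
    rw [← mul_smul_comm, ← mul_sub] at h4
    exact sub_eq_zero.mp ((mul_eq_zero.mp h4).resolve_left hP)
  obtain ⟨η, h3, h4⟩ := exists_S_ne C h9 hT (P * P)
  apply h4
  -- the polynomial
  have key : ∀ c : K, (C.S η₀ + c * (C.T η₀ * C.T η - C.T (η₀ * η)) + c ^ 2 * C.S η) *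
      (C.T (P * Q * η₀) + c * C.T (P * Q * η)) = 0 := by
    intro c
    have h5 := h ((η₀ + c • η) * P)
    have h6 : C.T (P * P * (η₀ + c • η)) = 0 := by
      rw [mul_add, map_add, h1, mul_smul_comm, map_smul, h3, smul_zero, add_zero]
    rw [R_mul_right, h6, mul_zero, zero_sub, neg_eq_zero, mul_assoc] at h5
    have h7 := (mul_eq_zero.mp h5).resolve_left hN
    simp only [S_add, C.S_smul, map_smul, mul_smul_comm, mul_add, map_add, smul_eq_mul] at h7
    linear_combination h7
  set p : K[X] := Polynomial.C (C.S η₀) + X * Polynomial.C (C.T η₀ * C.T η - C.T (η₀ * η)) +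
    X ^ 2 * Polynomial.C (C.S η) with hp
  set q : K[X] := Polynomial.C (C.T (P * Q * η₀)) + X * Polynomial.C (C.T (P * Q * η)) with hq
  have h5 : p * q = 0 := by
    apply Polynomial.funext
    intro c
    rw [eval_mul, eval_zero, ← key c, hp, hq]
    simp only [eval_add, eval_mul, eval_C, eval_X, eval_pow]
  have hq0 : q ≠ 0 := by
    intro h6
    apply h2
    have h7 := congrArg (eval 0) h6
    rw [hq] at h7
    simpa using h7
  have hp0 : p = 0 := (mul_eq_zero.mp h5).resolve_right hq0
  have h6 := congrArg (coeff · 2) hp0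
  rw [hp] at h6
  simpa [coeff_X, coeff_C] using h6

end alg

section sym

variable {k K D : Type} [Field k] [Field K] [DivisionRing D] [StarRing D]
  [Algebra k K] [Algebra k D] [Algebra K D] [IsScalarTower k K D] (C : Cub K D) {s : K}

/-- It is enough to consider the symmetric elements. -/
theorem R_all_of_sym [Infinite k] (hst : ∀ (c : k) (x : D), star (c • x) = c • star x)
    (hsp : ∀ x : D, ∃ y z : D, star y = y ∧ star z = z ∧ x = y + s • z) {P Q : D}
    (h : ∀ ξ, star ξ = ξ → R C P Q ξ = 0) (ξ : D) : R C P Q ξ = 0 := by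
  obtain ⟨y, z, hy, hz, rfl⟩ := hsp ξ
  have key : ∀ (A : D) (c : K), C.T (A * C.adj (y + c • z)) =
      C.T (A * C.adj y) + c * C.T (A * C.cr y z) + c ^ 2 * C.T (A * C.adj z) := by
    intro A c
    rw [C.adj_add, C.adj_smul, C.cr_smul_right, mul_add, mul_add, mul_smul_comm, mul_smul_comm,
      map_add, map_add, map_smul, map_smul, smul_eq_mul, smul_eq_mul]
    ring
  have key2 : ∀ (A : D) (c : K), C.T (A * (y + c • z)) = C.T (A * y) + c * C.T (A * z) := by
    intro A c
    rw [mul_add, mul_smul_comm, map_add, map_smul, smul_eq_mul]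
  set p : K[X] := (Polynomial.C (C.T (Q * C.adj y)) + X * Polynomial.C (C.T (Q * C.cr y z)) +
      X ^ 2 * Polynomial.C (C.T (Q * C.adj z))) *
      (Polynomial.C (C.T (P * y)) + X * Polynomial.C (C.T (P * z))) -
      (Polynomial.C (C.T (P * C.adj y)) + X * Polynomial.C (C.T (P * C.cr y z)) +
      X ^ 2 * Polynomial.C (C.T (P * C.adj z))) *
      (Polynomial.C (C.T (Q * y)) + X * Polynomial.C (C.T (Q * z))) with hp
  have hev : ∀ c : K, p.eval c = R C P Q (y + c • z) := by
    intro c
    rw [R, key, key, key2, key2, hp]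
    simp only [eval_add, eval_mul, eval_C, eval_X, eval_pow, eval_sub]
  have hp0 : p = 0 := by
    apply Polynomial.eq_zero_of_infinite_isRoot
    refine (Set.infinite_range_of_injective (algebraMap k K).injective).mono ?_
    rintro _ ⟨c, rfl⟩
    show p.IsRoot _
    rw [IsRoot, hev]
    apply h
    rw [star_add, hy, algebraMap_smul, hst, hz]
  rw [← hev, hp0, eval_zero]

/-- **ND, algebraic form.** -/
theorem eq_smul_of_R [Infinite k] (hst : ∀ (c : k) (x : D), star (c • x) = c • star x)
    (hsp : ∀ x : D, ∃ y z : D, star y = y ∧ star z = z ∧ x = y + s • z)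
    [FiniteDimensional K D] (h9 : 4 ≤ finrank K D) (hT : ∃ x, C.T x ≠ 0) {P Q : D} (hP : P ≠ 0)
    (h : ∀ ξ, star ξ = ξ → R C P Q ξ = 0) : ∃ e : K, Q = e • P := by
  have : Infinite K := Infinite.of_injective _ (algebraMap k K).injective
  exact eq_smul_of_R_all C h9 hT hP (R_all_of_sym C hst hsp h)

/-- **ND, linear form**: finitely many symmetric elements and a linear left inverse. -/
theorem exists_left_inv [Infinite k] (hst : ∀ (c : k) (x : D), star (c • x) = c • star x)
    (hsp : ∀ x : D, ∃ y z : D, star y = y ∧ star z = z ∧ x = y + s • z)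
    [FiniteDimensional K D] (h9 : 4 ≤ finrank K D) (hT : ∃ x, C.T x ≠ 0) {P : D} (hP : P ≠ 0) :
    ∃ (m : ℕ) (ξ η : Fin m → D), (∀ i, star (ξ i) = ξ i) ∧
      ∀ Q : D, ∃ e : K, Q = e • P + ∑ i, R C P Q (ξ i) • η i := by
  set S : Set (Dual K D) := (RL C P) '' {ξ | star ξ = ξ} with hS
  have hfg : (Submodule.span K S).FG := IsNoetherian.noetherian _
  obtain ⟨t, ht, hspan⟩ := (Submodule.fg_span_iff_fg_span_finset_subset S).mp hfg
  classical
  have h1 : ∀ φ ∈ t, ∃ ξ, star ξ = ξ ∧ RL C P ξ = φ := by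
    intro φ hφ
    obtain ⟨ξ, h2, h3⟩ := ht hφ
    exact ⟨ξ, h2, h3⟩
  choose! ξ hξ hξ2 using h1
  -- the map to K^t
  let F : D →ₗ[K] (t → K) := LinearMap.pi fun φ => RL C P (ξ φ)
  have hF : ∀ Q, F Q = 0 → ∃ e : K, Q = e • P := by
    intro Q hQ
    apply eq_smul_of_R C hst hsp h9 hT hP
    intro ζ hζ
    have h2 : RL C P ζ ∈ Submodule.span K S := Submodule.subset_span ⟨ζ, hζ, rfl⟩
    rw [hspan] at h2
    have h3 : (t : Set (Dual K D)) ⊆ LinearMap.ker (Dual.eval K D Q) := by
      intro φ hφ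
      rw [SetLike.mem_coe, LinearMap.mem_ker, Dual.eval_apply]
      have h4 := congrFun hQ ⟨φ, hφ⟩
      rw [← hξ2 φ hφ]
      exact h4
    have h5 := Submodule.span_le.mpr h3 h2
    rw [LinearMap.mem_ker, Dual.eval_apply] at h5
    exact h5
  -- a generalized inverse
  obtain ⟨G, hG⟩ : ∃ G : (t → K) →ₗ[K] D, ∀ Q, F (G (F Q)) = F Q := by
    obtain ⟨g, hg⟩ := (LinearMap.rangeRestrict F).exists_rightInverse_of_surjective
      (LinearMap.range_rangeRestrict F)
    obtain ⟨π, hπ⟩ := LinearMap.exists_leftInverse_of_injective (LinearMap.range F).subtype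
      (Submodule.ker_subtype _)
    refine ⟨g ∘ₗ π, fun Q => ?_⟩
    have h2 : π (F Q) = ⟨F Q, LinearMap.mem_range_self F Q⟩ := by
      exact LinearMap.congr_fun hπ ⟨F Q, LinearMap.mem_range_self F Q⟩
    have h3 := LinearMap.congr_fun hg ⟨F Q, LinearMap.mem_range_self F Q⟩
    rw [LinearMap.comp_apply, h2]
    exact congrArg Subtype.val h3
  let e := t.equivFin
  refine ⟨t.card, fun i => ξ (e.symm i), fun i => G (Pi.single (e.symm i) 1),
    fun i => hξ _ (e.symm i).2, fun Q => ?_⟩
  obtain ⟨c, hc⟩ := hF (Q - G (F Q)) (by rw [map_sub, hG, sub_self])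
  refine ⟨c, ?_⟩
  rw [← hc]
  have h2 : G (F Q) = ∑ φ : t, R C P Q (ξ φ) • G (Pi.single φ 1) := by
    conv_lhs => rw [← LinearMap.sum_single_apply (φ := fun _ : t => K) (F Q)]
    rw [map_sum]
    refine Finset.sum_congr rfl fun φ _ => ?_
    rw [← map_smul]
    congr 1
    ext ψ
    simp only [Pi.smul_apply, smul_eq_mul]
    by_cases hψ : ψ = φ
    · subst hψ
      simp [F]
    · simp [hψ]
  rw [h2, ← Equiv.sum_comp e.symm]
  abel

/-- **ND** in the form of the final glue: `s` is a skew element of `K`, characteristic `≠ 2`. -/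
theorem nd [Infinite k] [StarRing K] (hs : star s = -s) (hs0 : s ≠ 0) (h2 : (2 : K) ≠ 0)
    (hfix : ∀ c : k, star (algebraMap k K c) = algebraMap k K c)
    (hsm : ∀ (x : K) (y : D), star (x • y) = star x • star y) (hdeg : finrank K D = 3 ^ 2)
    (hcen : Algebra.IsCentral K D) {P : D} (hP : P ≠ 0) :
    ∃ (m : ℕ) (ξ t : Fin m → D), (∀ i, star (ξ i) = ξ i) ∧ ∀ Q : D, ∃ e : K,
      Q = e • P + ∑ i, (C.T (Q * C.adj (ξ i)) * C.T (P * ξ i) -
        C.T (P * C.adj (ξ i)) * C.T (Q * ξ i)) • t i := by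
  have hfd : FiniteDimensional K D := FiniteDimensional.of_finrank_pos (by rw [hdeg]; norm_num)
  have hnc : ∃ x y : D, x * y ≠ y * x := by
    by_contra h
    push Not at h
    have h1 : ∀ x : D, x ∈ Set.range (algebraMap K D) := by
      intro x
      have h3 : x ∈ Subalgebra.center K D :=
        Subalgebra.mem_center_iff.mpr fun y => h y x
      have h4 := hcen.out h3
      exact Algebra.mem_bot.mp h4
    have h5 : finrank K D ≤ 1 := by
      refine finrank_le_one (1 : D) fun x => ?_
      obtain ⟨c, hc⟩ := h1 x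
      exact ⟨c, by rw [← hc, Algebra.algebraMap_eq_smul_one]⟩
    omega
  refine exists_left_inv (k := k) C (s := s) (fun c x => ?_) (fun x => ?_) (by omega)
    (exists_T_ne C hnc) hP
  · rw [← algebraMap_smul K c x, hsm, hfix, algebraMap_smul]
  · refine ⟨(2 : K)⁻¹ • (x + star x), (2 * s)⁻¹ • (x - star x), ?_, ?_, ?_⟩
    · rw [hsm, star_add, star_star, star_inv₀, star_ofNat, add_comm]
    · rw [hsm, star_sub, star_star, star_inv₀, star_mul', star_ofNat, hs, mul_neg, inv_neg,
        neg_smul, ← smul_neg, neg_sub]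
    · rw [smul_smul, mul_inv, mul_left_comm, mul_inv_cancel₀ hs0, mul_one, ← smul_add,
        add_add_sub_cancel, ← two_smul K x, smul_smul, inv_mul_cancel₀ h2, one_smul]

end sym

end Vale.Agent.P011.H73.ND
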