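import Mathlib

/-!
# Quadratic descent for the cubic surfaces `N(f) + Tr(A f) + G = 0`

`F / k` cubic, `E` a field over `k` such that `F` does not embed into `E`, `Ω / E` quadratic: a point
over `Ω` gives a point over `E`, the third point of a line.
-/

open Module Polynomial
open scoped TensorProduct

namespace Vale.Agent.P011.H73.Desc

section ring

variable {k F : Type*} [Field k] [Field F] [Algebra k F] {ι : Type*} [Fintype ι] [DecidableEq ι]
  (b : Basis ι k F)

/-- The matrix of the multiplication by `∑ x i b i`. -/
noncomputable def mat (R : Type*) [CommRing R] [Algebra k R] (x : ι → R) : Matrix ι ι R :=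
  ∑ i, x i • (Algebra.leftMulMatrix b (b i)).map (algebraMap k R)

theorem leftMul_eq (R : Type*) [CommRing R] [Algebra k R] (x : ι → R) :
    Algebra.leftMulMatrix (b.baseChange R) (∑ i, x i • b.baseChange R i) = mat b R x := by
  rw [map_sum, mat]
  refine Finset.sum_congr rfl fun i _ => ?_
  rw [map_smul]
  congr 1
  ext p q
  rw [Algebra.leftMulMatrix_eq_repr_mul, Matrix.map_apply, Algebra.leftMulMatrix_eq_repr_mul,
    Basis.baseChange_apply, Basis.baseChange_apply, Algebra.TensorProduct.tmul_mul_tmul, one_mul,
    Basis.baseChange_repr_tmul, Algebra.smul_def, mul_one]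

theorem norm_eq (R : Type*) [CommRing R] [Algebra k R] (x : ι → R) :
    Algebra.norm R (∑ i, x i • b.baseChange R i) = (mat b R x).det := by
  rw [Algebra.norm_eq_matrix_det (b.baseChange R), leftMul_eq]

theorem trace_eq (R : Type*) [CommRing R] [Algebra k R] (x : ι → R) (A : F) :
    Algebra.trace R (R ⊗[k] F) ((1 ⊗ₜ[k] A) * ∑ i, x i • b.baseChange R i) =
      ∑ i, x i * algebraMap k R (Algebra.trace k F (A * b i)) := by
  rw [Finset.mul_sum, map_sum]
  refine Finset.sum_congr rfl fun i _ => ?_
  rw [mul_smul_comm, map_smul, smul_eq_mul, Basis.baseChange_apply,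
    Algebra.TensorProduct.tmul_mul_tmul, one_mul, Algebra.trace_eq_matrix_trace (b.baseChange R),
    Algebra.trace_eq_matrix_trace b]
  congr 1
  have h : Algebra.leftMulMatrix (b.baseChange R) (1 ⊗ₜ[k] (A * b i)) =
      (Algebra.leftMulMatrix b (A * b i)).map (algebraMap k R) := by
    ext p q
    rw [Algebra.leftMulMatrix_eq_repr_mul, Matrix.map_apply, Algebra.leftMulMatrix_eq_repr_mul,
      Basis.baseChange_apply, Algebra.TensorProduct.tmul_mul_tmul, one_mul,
      Basis.baseChange_repr_tmul, Algebra.smul_def, mul_one]
  rw [h, Matrix.trace, Matrix.trace, map_sum]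
  rfl

/-- The cubic polynomial in coordinates. -/
noncomputable def pol (A : F) (G : k) (R : Type*) [CommRing R] [Algebra k R] (x : ι → R) : R :=
  (mat b R x).det + ∑ i, x i * algebraMap k R (Algebra.trace k F (A * b i)) + algebraMap k R G

theorem pol_map (A : F) (G : k) {R S : Type*} [CommRing R] [Algebra k R] [CommRing S] [Algebra k S]
    (φ : R →ₐ[k] S) (x : ι → R) : φ (pol b A G R x) = pol b A G S fun i => φ (x i) := by
  rw [pol, pol, map_add, map_add, AlgHom.commutes, map_sum]
  congr 2
  · rw [show φ (mat b R x).det = (φ : R →+* S) (mat b R x).det from rfl, RingHom.map_det]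
    congr 1
    rw [mat, mat, map_sum]
    refine Finset.sum_congr rfl fun i _ => ?_
    ext p q
    simp
  · refine Finset.sum_congr rfl fun i _ => ?_
    rw [map_mul, AlgHom.commutes]

theorem exists_iff (A : F) (G : k) (R : Type*) [CommRing R] [Algebra k R] :
    (∃ f : R ⊗[k] F, Algebra.norm R f + Algebra.trace R (R ⊗[k] F) ((1 ⊗ₜ[k] A) * f) +
      algebraMap k R G = 0) ↔ ∃ x : ι → R, pol b A G R x = 0 := by
  constructor
  · rintro ⟨f, hf⟩
    refine ⟨(b.baseChange R).repr f, ?_⟩
    rw [pol, ← norm_eq, ← trace_eq, Basis.sum_repr]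
    exact hf
  · rintro ⟨x, hx⟩
    refine ⟨∑ i, x i • b.baseChange R i, ?_⟩
    rw [norm_eq, trace_eq]
    exact hx

end ring

section field

variable {k F : Type*} [Field k] [Field F] [Algebra k F] {E : Type*} [Field E] [Algebra k E]

/-- A nonzero element of norm zero of `E ⊗ F` gives an embedding of the cubic field `F`. -/
theorem norm_ne_zero (hF : finrank k F = 3) (hE : IsEmpty (F →ₐ[k] E)) {y : E ⊗[k] F}
    (hy : y ≠ 0) : Algebra.norm E y ≠ 0 := by
  intro h0
  have : FiniteDimensional k F := FiniteDimensional.of_finrank_pos (by omega)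
  have h3 : finrank E (E ⊗[k] F) = 3 := by rw [Module.finrank_baseChange, hF]
  have key : ∀ I : Ideal (E ⊗[k] F), finrank E (I.restrictScalars E) = 2 → False := by
    intro I hI
    have h1 := Submodule.finrank_quotient_add_finrank (I.restrictScalars E)
    rw [hI, h3] at h1
    have h2 : finrank E ((E ⊗[k] F) ⧸ I) = 1 := by
      have h4 : finrank E ((E ⊗[k] F) ⧸ I.restrictScalars E) = 1 := by omega
      rw [← h4]
      exact (Submodule.Quotient.restrictScalarsEquiv E I).finrank_eq.symm
    have hnt : Nontrivial ((E ⊗[k] F) ⧸ I) := Module.nontrivial_of_finrank_pos (R := E) (by omega)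
    have hsurj : Function.Surjective (algebraMap E ((E ⊗[k] F) ⧸ I)) := by
      intro x
      obtain ⟨c, hc⟩ := (finrank_eq_one_iff_of_nonzero' (1 : (E ⊗[k] F) ⧸ I) one_ne_zero).mp h2 x
      exact ⟨c, by rw [Algebra.algebraMap_eq_smul_one, hc]⟩
    let e : E ≃ₐ[E] ((E ⊗[k] F) ⧸ I) := AlgEquiv.ofBijective (Algebra.ofId E _)
      ⟨(algebraMap E _).injective, hsurj⟩
    let ψ : (E ⊗[k] F) →ₐ[E] E := (e.symm : _ →ₐ[E] E).comp (Ideal.Quotient.mkₐ E I)
    exact hE.false ((ψ.restrictScalars k).comp Algebra.TensorProduct.includeRight)
  -- the kernel and the range of the multiplication by `y`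
  set m : (E ⊗[k] F) →ₗ[E] (E ⊗[k] F) := LinearMap.mulLeft E y with hm
  have hdet : LinearMap.det m = 0 := h0
  have hker : m.ker ≠ ⊥ := by
    intro h
    exact (LinearMap.isUnit_det m (LinearMap.isUnit_iff_ker_eq_bot m |>.mpr h)).ne_zero hdet
  have hran : m.range ≠ ⊥ := by
    intro h
    apply hy
    have h1 : m 1 ∈ m.range := ⟨1, rfl⟩
    rw [h, Submodule.mem_bot] at h1
    simpa [hm] using h1
  have hsum := LinearMap.finrank_range_add_finrank_ker m
  rw [h3] at hsum
  have h1 : 1 ≤ finrank E m.ker := Submodule.one_le_finrank_iff.mpr hker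
  have h2 : 1 ≤ finrank E m.range := Submodule.one_le_finrank_iff.mpr hran
  have h4 : finrank E m.ker = 2 ∨ finrank E m.range = 2 := by omega
  rcases h4 with h4 | h4
  · let I : Ideal (E ⊗[k] F) :=
      { m.ker with
        smul_mem' := fun c x hx => by
          change m (c * x) = 0
          have hx' : m x = 0 := hx
          rw [hm, LinearMap.mulLeft_apply] at hx' ⊢
          rw [mul_left_comm, hx', mul_zero] }
    refine key I ?_
    have : I.restrictScalars E = m.ker := by
      ext x
      rfl
    rw [this, h4]
  · let I : Ideal (E ⊗[k] F) :=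
      { m.range with
        smul_mem' := fun c x hx => by
          obtain ⟨z, rfl⟩ := hx
          refine ⟨c * z, ?_⟩
          change m (c * z) = c * m z
          rw [hm, LinearMap.mulLeft_apply, LinearMap.mulLeft_apply, mul_left_comm] }
    refine key I ?_
    have : I.restrictScalars E = m.range := by
      ext x
      rfl
    rw [this, h4]

/-- **Quadratic descent.** -/
theorem descent (hF : finrank k F = 3) (hE : IsEmpty (F →ₐ[k] E)) {Ω : Type*} [Field Ω]
    [Algebra E Ω] [Algebra k Ω] [IsScalarTower k E Ω]
    (hΩ : Function.Bijective (algebraMap E Ω) ∨ finrank E Ω = 2) (A : F) (G : k)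
    (h : ∃ f : Ω ⊗[k] F, Algebra.norm Ω f + Algebra.trace Ω (Ω ⊗[k] F) ((1 ⊗ₜ[k] A) * f) +
      algebraMap k Ω G = 0) :
    ∃ f : E ⊗[k] F, Algebra.norm E f + Algebra.trace E (E ⊗[k] F) ((1 ⊗ₜ[k] A) * f) +
      algebraMap k E G = 0 := by
  classical
  have : FiniteDimensional k F := FiniteDimensional.of_finrank_pos (by omega)
  set b := finBasis k F with hb
  rw [exists_iff b] at h ⊢
  obtain ⟨x, hx⟩ := h
  have hinj : Function.Injective (IsScalarTower.toAlgHom k E Ω) := (algebraMap E Ω).injective
  rcases hΩ with hΩ | hΩ
  · choose y hy using fun i => hΩ.2 (x i)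
    refine ⟨y, hinj ?_⟩
    rw [pol_map, map_zero, ← hx]
    congr 1
    ext i
    exact hy i
  · -- a generator of `Ω`
    obtain ⟨ω, hω⟩ : ∃ ω : Ω, ω ∉ Set.range (algebraMap E Ω) := by
      by_contra hcon
      push Not at hcon
      have h1 : finrank E Ω = 1 := by
        have e : E ≃ₐ[E] Ω := AlgEquiv.ofBijective (Algebra.ofId E Ω)
          ⟨(algebraMap E Ω).injective, fun x => hcon x⟩
        rw [← e.toLinearEquiv.finrank_eq, finrank_self]
      omega
    have : FiniteDimensional E Ω := FiniteDimensional.of_finrank_pos (by omega)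
    have hli : LinearIndependent E ![(1 : Ω), ω] := by
      rw [LinearIndependent.pair_iff]
      intro p q hpq
      have hq : q = 0 := by
        by_contra hq
        apply hω
        refine ⟨-(q⁻¹ * p), ?_⟩
        rw [Algebra.smul_def, Algebra.smul_def, mul_one] at hpq
        have hq' : algebraMap E Ω q ≠ 0 := by
          rwa [ne_eq, FaithfulSMul.algebraMap_eq_zero_iff]
        rw [map_neg, map_mul, map_inv₀]
        field_simp
        linear_combination -hpq
      rw [hq, zero_smul, add_zero] at hpq
      exact ⟨by simpa using hpq, hq⟩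
    have hspan : Submodule.span E (Set.range ![(1 : Ω), ω]) = ⊤ :=
      hli.span_eq_top_of_card_eq_finrank (by rw [hΩ]; rfl)
    have hdec : ∀ z : Ω, ∃ p q : E, z = algebraMap E Ω p + algebraMap E Ω q * ω := by
      intro z
      have hz : z ∈ Submodule.span E (Set.range ![(1 : Ω), ω]) := by rw [hspan]; trivial
      rw [Matrix.range_cons, Matrix.range_cons, Matrix.range_empty, Set.union_empty,
        Set.singleton_union] at hz
      obtain ⟨p, q, rfl⟩ := Submodule.mem_span_pair.1 hz
      exact ⟨p, q, by rw [Algebra.smul_def, Algebra.smul_def, mul_one]⟩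
    choose p q hpq using fun i => hdec (x i)
    by_cases hq0 : q = 0
    · refine ⟨p, hinj ?_⟩
      rw [pol_map, map_zero, ← hx]
      congr 1
      ext i
      rw [hpq i, hq0]
      simp
    · -- the polynomial on the line
      set P : E[X] := pol b A G E[X] fun i => C (p i) + C (q i) * X with hP
      have hPω : aeval ω P = 0 := by
        have h1 := pol_map b A G ((aeval ω : E[X] →ₐ[E] Ω).restrictScalars k)
          fun i => C (p i) + C (q i) * X
        change aeval ω P = _ at h1
        rw [h1, ← hx]
        congr 1
        ext i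
        rw [hpq i]
        change aeval ω (C (p i) + C (q i) * X) = _
        rw [map_add, map_mul, aeval_C, aeval_C, aeval_X]
      have hmat : mat b E[X] (fun i => C (p i) + C (q i) * X) =
          (X : E[X]) • (mat b E q).map C + (mat b E p).map C := by
        rw [mat, mat, mat]
        ext u w : 1
        simp only [Matrix.sum_apply, Matrix.smul_apply, Matrix.map_apply, smul_eq_mul,
          Matrix.add_apply, map_sum, map_mul, Finset.mul_sum]
        rw [← Finset.sum_add_distrib]
        refine Finset.sum_congr rfl fun i _ => ?_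
        have : algebraMap k E[X] (Algebra.leftMulMatrix b (b i) u w) =
            C (algebraMap k E (Algebra.leftMulMatrix b (b i) u w)) := rfl
        rw [this]
        ring
      have hlin : (∑ i, (C (p i) + C (q i) * X) *
          algebraMap k E[X] (Algebra.trace k F (A * b i))) + algebraMap k E[X] G =
          C (∑ i, p i * algebraMap k E (Algebra.trace k F (A * b i)) + algebraMap k E G) +
          C (∑ i, q i * algebraMap k E (Algebra.trace k F (A * b i))) * X := by
        have h1 : ∀ c : k, algebraMap k E[X] c = C (algebraMap k E c) := fun c => rfl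
        simp only [h1, map_add, map_sum, map_mul, Finset.sum_mul, add_mul]
        rw [Finset.sum_add_distrib]
        have h2 : ∀ i, C (q i) * X * C ((algebraMap k E) ((Algebra.trace k F) (A * b i))) =
            C (q i) * C ((algebraMap k E) ((Algebra.trace k F) (A * b i))) * X := fun i => by ring
        simp only [h2]
        ring
      have hcard : Fintype.card (Fin (finrank k F)) = 3 := by rw [Fintype.card_fin, hF]
      have hP2 : P = ((X : E[X]) • (mat b E q).map C + (mat b E p).map C).det +
          (C (∑ i, p i * algebraMap k E (Algebra.trace k F (A * b i)) + algebraMap k E G) +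
          C (∑ i, q i * algebraMap k E (Algebra.trace k F (A * b i))) * X) := by
        rw [hP, pol, hmat, add_assoc, hlin]
      have hN : (mat b E q).det ≠ 0 := by
        rw [← norm_eq]
        refine norm_ne_zero hF hE ?_
        intro h0
        apply hq0
        ext i
        have h1 := congrArg (fun z => (b.baseChange E).repr z i) h0
        simp only [map_zero, Finsupp.coe_zero, Pi.zero_apply] at h1
        rw [Basis.repr_sum_self] at h1
        exact h1
      have hdeg : P.natDegree ≤ 3 := by
        rw [hP2]
        refine natDegree_add_le_of_degree_le ?_ ?_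
        · refine (natDegree_det_X_add_C_le _ _).trans (le_of_eq hcard)
        · refine natDegree_add_le_of_degree_le ?_ ?_
          · rw [natDegree_C]
            omega
          · exact (natDegree_C_mul_le _ _).trans (by rw [natDegree_X]; omega)
      have hco : P.coeff 3 = (mat b E q).det := by
        rw [hP2, coeff_add, coeff_add, coeff_C_mul_X, coeff_C]
        have h1 := coeff_det_X_add_C_card (mat b E q) (mat b E p)
        rw [hcard] at h1
        rw [h1]
        simp
      have hPn : P.natDegree = 3 := le_antisymm hdeg (le_natDegree_of_ne_zero (by rwa [hco]))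
      have hP0 : P ≠ 0 := by
        intro h0
        rw [h0, natDegree_zero] at hPn
        omega
      -- divide by the minimal polynomial
      have hint : IsIntegral E ω := IsIntegral.of_finite E ω
      have hm2 : (minpoly E ω).natDegree = 2 := by
        have h1 : (minpoly E ω).natDegree ≤ 2 := hΩ ▸ minpoly.natDegree_le ω
        have h2 : 0 < (minpoly E ω).natDegree := minpoly.natDegree_pos hint
        have h4 : (minpoly E ω).natDegree ≠ 1 := by
          intro h4
          exact hω (minpoly.natDegree_eq_one_iff.mp h4)
        omega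
      obtain ⟨Q, hQ⟩ := minpoly.dvd E ω hPω
      have hQ0 : Q ≠ 0 := by
        rintro rfl
        rw [mul_zero] at hQ
        exact hP0 hQ
      have hQ1 : Q.natDegree = 1 := by
        have h1 := congrArg natDegree hQ
        rw [natDegree_mul (minpoly.ne_zero hint) hQ0, hPn, hm2] at h1
        omega
      obtain ⟨s, hs⟩ := exists_root_of_degree_eq_one (p := Q) (by
        rw [degree_eq_natDegree hQ0, hQ1]
        rfl)
      have hPs : eval s P = 0 := by
        rw [hQ, eval_mul, IsRoot.def.mp hs, mul_zero]
      refine ⟨fun i => p i + q i * s, ?_⟩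
      have h1 := pol_map b A G ((aeval s : E[X] →ₐ[E] E).restrictScalars k)
        fun i => C (p i) + C (q i) * X
      change aeval s P = _ at h1
      rw [coe_aeval_eq_eval, hPs] at h1
      rw [h1]
      congr 1
      ext i
      change _ = aeval s (C (p i) + C (q i) * X)
      rw [map_add, map_mul, aeval_C, aeval_C, aeval_X]
      rfl

end field

end Vale.Agent.P011.H73.Desc
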