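import Vale.Agent.P011.H73.Sp2
import Vale.Agent.P011.H279.R2Base

/-!
# Norms at totally split places of a function field
-/

open Module

set_option linter.unusedSectionVars false
set_option linter.style.haveILetI false

namespace Vale.Agent.P011.H73.Sp

open Vale.Agent.P011.H738 Vale.Agent.P011.H271 Vale.Agent.P011.H63.FB
open Vale.Agent.P011.H271.S3 (Ab)
open Vale.Agent.P011.Arith (NF)
open Vale.Agent.P011.Even (LN)
open Vale.Agent.P011.H279.RB (index_two sup_eq_top LSF_map two_ne_ext)

variable {F E : Type} [Field F] [Field E] [Algebra F E]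

section coord

variable {v : Place F} {ι : Type} [Fintype ι] [DecidableEq ι]
    {w : ι → Place E} (hw : ∀ i, Ab (w i) v) {ε : ι → E}
    (hε : ∀ i j, (w j).abv (ε i - if i = j then 1 else 0) < 1)

include hw hε

/-- The coordinates of a small element with respect to an almost orthogonal family are small. -/
theorem coord_lt (a : ι → F) (γ : Fˣ)
    (h : ∀ l, (w l).abv (∑ i, algebraMap F E (a i) * ε i) <
      (w l).abv (algebraMap F E (γ : F))) (i : ι) :
    v.abv (a i) < v.abv (γ : F) := by
  classical
  have : Nonempty ι := ⟨i⟩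
  obtain ⟨l, hl⟩ := Finite.exists_max (fun i => v.abv (a i))
  refine (hl i).trans_lt ?_
  by_contra hcon
  rw [not_lt] at hcon
  have hal : a l ≠ 0 := by
    intro h0
    rw [h0, map_zero] at hcon
    exact absurd hcon (not_le.2 (v.abv.pos γ.ne_zero))
  have hwl : 0 < (w l).abv (algebraMap F E (a l)) :=
    (w l).abv.pos ((_root_.map_ne_zero _).mpr hal)
  have e : ∑ i, algebraMap F E (a i) * ε i = algebraMap F E (a l) +
      ∑ i, algebraMap F E (a i) * (ε i - if i = l then 1 else 0) := by
    have e1 : ∀ i, algebraMap F E (a i) * (ε i - if i = l then 1 else 0) =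
        algebraMap F E (a i) * ε i - if i = l then algebraMap F E (a i) else 0 := by
      intro i
      split_ifs <;> ring
    rw [Finset.sum_congr rfl fun i _ => e1 i, Finset.sum_sub_distrib, Finset.sum_ite_eq']
    simp
  have h1 : (w l).abv (∑ i, algebraMap F E (a i) * (ε i - if i = l then 1 else 0)) <
      (w l).abv (algebraMap F E (a l)) := by
    refine sum_lt _ _ _ hwl fun i _ => ?_
    rw [map_mul]
    have h2 : (w l).abv (algebraMap F E (a i)) ≤ (w l).abv (algebraMap F E (a l)) :=
      (val_le_val_iff (hw l) _ _).mpr (hl i)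
    calc _ ≤ (w l).abv (algebraMap F E (a l)) *
          (w l).abv (ε i - if i = l then 1 else 0) :=
            mul_le_mul_of_nonneg_right h2 ((w l).abv.nonneg _)
      _ < (w l).abv (algebraMap F E (a l)) * 1 := mul_lt_mul_of_pos_left (hε i l) hwl
      _ = _ := mul_one _
  have h3 := h l
  rw [e, add_eq_left _ h1, val_lt_val_iff (hw l)] at h3
  exact absurd h3 (not_lt.mpr hcon)

theorem linInd : LinearIndependent F ε := by
  rw [Fintype.linearIndependent_iff]
  intro a ha i
  by_contra h0
  have h1 := coord_lt hw hε a (Units.mk0 (a i) h0) (fun l => by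
    have e : ∑ i, algebraMap F E (a i) * ε i = 0 := by
      rw [← ha]
      exact Finset.sum_congr rfl fun i _ => (Algebra.smul_def _ _).symm
    rw [e, map_zero]
    exact (w l).abv.pos ((_root_.map_ne_zero _).mpr h0)) i
  exact lt_irrefl _ h1

end coord

section fin

variable [FiniteDimensional F E]

/-- Distinct places above `v` are at most as many as the degree. -/
theorem card_le_finrank {v : Place F} {ι : Type} [Fintype ι]
    {w : ι → Place E} (hinj : Function.Injective w) (hw : ∀ i, Ab (w i) v) :
    Fintype.card ι ≤ finrank F E := by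
  classical
  choose ε hε using fun i => approx_fam hinj (fun j => if i = j then (1 : E) else 0)
    (fun _ => (1 : ℝ)) (fun _ => one_pos)
  exact (linInd hw hε).fintype_card_le_finrank

/-- The places above a totally split place. -/
theorem exhaust {v : Place F}
    {w : Fin (finrank F E) → Place E} (hinj : Function.Injective w)
    (hw : ∀ i, Ab (w i) v) {w' : Place E} (hw' : Ab w' v) : ∃ i, w i = w' := by
  by_contra hcon
  push Not at hcon
  have h1 : Function.Injective (fun o : Option (Fin (finrank F E)) => o.elim w' w) := by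
    rintro (_ | i) (_ | j) h
    · rfl
    · exact absurd h.symm (hcon j)
    · exact absurd h (hcon i)
    · exact congrArg some (hinj h)
  have h2 := card_le_finrank (v := v) h1 (by rintro (_ | i); exacts [hw', hw i])
  simp at h2

/-- An extension with a totally split place is separable. -/
theorem isSeparable_of_totSplit {v : Place F} [GFF F] [GFF E] (hv : TotSplitF E v) :
    Algebra.IsSeparable F E := by
  obtain ⟨w, hinj, hw⟩ := hv
  let S := separableClosure F E
  haveI : GFF S := Hey.H63.gff_of_finite (k := F)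
  haveI : IsPurelyInseparable S E := separableClosure.isPurelyInseparable F E
  choose u hu using fun i => exists_below (F := S) (w i)
  have hu1 : ∀ i, Ab (u i) v := by
    intro i
    obtain ⟨v', hv'⟩ := exists_below (F := F) (u i)
    have h1 : Ab (w i) v' := by
      obtain ⟨c, hc, h⟩ := hu i
      obtain ⟨c', hc', h'⟩ := hv'
      refine ⟨c' * c, mul_pos hc' hc, fun x => ?_⟩
      rw [IsScalarTower.algebraMap_apply F S E, h, h', Real.rpow_mul (v'.abv.nonneg _)]
    have h2 : v = v' := eq_of_le fun x hx => by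
      rw [← val_le_one_iff h1, val_le_one_iff (hw i)]
      exact hx
    rw [h2]
    exact hv'
  have hu2 : Function.Injective u := by
    intro i j hij
    refine hinj (eq_of_le fun x hx => ?_)
    obtain ⟨n, y, hy⟩ := IsPurelyInseparable.pow_mem S (ringExpChar S) x
    have hq : 0 < ringExpChar S ^ n := pow_pos (expChar_pos S _) n
    have key : ∀ l, (w l).abv x ≤ 1 ↔ (u l).abv y ≤ 1 := by
      intro l
      rw [← val_le_one_iff (hu l), hy, map_pow]
      exact (pow_le_one_iff_of_nonneg ((w l).abv.nonneg _) hq.ne').symm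
    rw [key j, ← hij, ← key i]
    exact hx
  have h3 := card_le_finrank hu2 hu1
  rw [Fintype.card_fin] at h3
  have h4 : S = ⊤ := IntermediateField.eq_of_le_of_finrank_le le_top (by
    rw [IntermediateField.finrank_top']
    exact h3)
  exact (separableClosure.eq_top_iff F E).1 h4

/-- The norm of an element close to elements `m i` of the base field at the places above a
totally split place. -/
theorem norm_near_prod {v : Place F}
    {w : Fin (finrank F E) → Place E} (hinj : Function.Injective w)
    (hw : ∀ i, Ab (w i) v) (m : Fin (finrank F E) → Fˣ) (γ : Fˣ)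
    (hγ : v.abv (γ : F) ≤ 1) :
    ∃ η : Fˣ, ∀ c : E, (∀ i, (w i).abv (c - algebraMap F E (m i : F)) <
      (w i).abv (algebraMap F E η)) →
      v.abv (Algebra.norm F c / (∏ i, m i : Fˣ) - 1) < v.abv (γ : F) := by
  classical
  have : Nonempty (Fin (finrank F E)) := ⟨⟨0, finrank_pos⟩⟩
  have hv0 : ∀ x : Fˣ, 0 < v.abv (x : F) := fun x => v.abv.pos x.ne_zero
  have hw0 : ∀ (l) (x : Fˣ), 0 < (w l).abv (algebraMap F E (x : F)) := fun l x =>
    (w l).abv.pos ((_root_.map_ne_zero _).mpr x.ne_zero)
  obtain ⟨i₀, hi₀⟩ := Finite.exists_max (fun i => v.abv (m i : F))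
  obtain ⟨j₀, hj₀⟩ := Finite.exists_min (fun i => v.abv (m i : F))
  choose ε hε using fun i => approx_fam hinj (fun j => if i = j then (1 : E) else 0)
    (fun l => (w l).abv (algebraMap F E ((m j₀ * γ / m i₀ : Fˣ) : F)))
    (fun l => hw0 l _)
  have hρ : v.abv ((m j₀ * γ / m i₀ : Fˣ) : F) ≤ 1 := by
    rw [Units.val_div_eq_div_val, Units.val_mul, map_div₀, map_mul, div_le_one₀ (hv0 _)]
    calc _ ≤ v.abv (m i₀ : F) * 1 := mul_le_mul (hi₀ j₀) hγ (v.abv.nonneg _) (v.abv.nonneg _)
      _ = _ := mul_one _
  have hρw : ∀ l, (w l).abv (algebraMap F E ((m j₀ * γ / m i₀ : Fˣ) : F)) ≤ 1 :=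
    fun l => (val_le_one_iff (hw l) _).mpr hρ
  have hε1 : ∀ i j, (w j).abv (ε i - if i = j then 1 else 0) < 1 := fun i j =>
    (hε i j).trans_le (hρw j)
  have hli := linInd hw hε1
  let c₀ : Basis (Fin (finrank F E)) F E := basisOfLinearIndependentOfCardEqFinrank hli (by simp)
  have hc₀ : ∀ i, c₀ i = ε i := fun i => by
    simp [c₀]
  refine ⟨m j₀ * γ, fun c hc => ?_⟩
  -- the matrix of multiplication by `c`
  have hM : ∀ i j, v.abv ((Algebra.leftMulMatrix c₀ c *
      Matrix.diagonal (fun i => ((m i : F))⁻¹) - 1) i j) < v.abv (γ : F) := by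
    intro i j
    have hmj : (m j : F) ≠ 0 := (m j).ne_zero
    have h1 : (Algebra.leftMulMatrix c₀ c * Matrix.diagonal (fun i => ((m i : F))⁻¹) - 1) i j =
        (c₀.repr ((c - algebraMap F E (m j : F)) * ε j) i) * (m j : F)⁻¹ := by
      rw [Matrix.sub_apply, Matrix.mul_diagonal, Algebra.leftMulMatrix_eq_repr_mul, sub_mul,
        map_sub, Finsupp.sub_apply, hc₀, sub_mul, ← Algebra.smul_def, map_smul,
        Finsupp.smul_apply, ← hc₀ j, c₀.repr_self, Finsupp.single_apply, Matrix.one_apply,
        smul_eq_mul]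
      congr 1
      by_cases hij : i = j
      · rw [if_pos hij, if_pos hij.symm, mul_one, mul_inv_cancel₀ hmj]
      · rw [if_neg hij, if_neg (Ne.symm hij), mul_zero, zero_mul]
    rw [h1, map_mul, map_inv₀, mul_inv_lt_iff₀ (hv0 _), ← map_mul, ← Units.val_mul]
    have h2 : ∑ i, algebraMap F E (c₀.repr ((c - algebraMap F E (m j : F)) * ε j) i) * ε i =
        (c - algebraMap F E (m j : F)) * ε j := by
      conv_rhs => rw [← c₀.sum_repr ((c - algebraMap F E (m j : F)) * ε j)]
      exact Finset.sum_congr rfl fun i _ => by rw [Algebra.smul_def, hc₀]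
    refine coord_lt hw hε1 (fun i => c₀.repr ((c - algebraMap F E (m j : F)) * ε j) i) (γ * m j)
      (fun l => ?_) i
    rw [h2, map_mul]
    by_cases hl : j = l
    · subst hl
      have h3 : (w j).abv (ε j) = 1 := by
        have h4 := hε1 j j
        rw [if_pos rfl] at h4
        exact eq_one_of_near _ h4
      rw [h3, mul_one]
      refine (hc j).trans_le ?_
      rw [val_le_val_iff (hw j), Units.val_mul, Units.val_mul, map_mul, map_mul, mul_comm]
      exact mul_le_mul_of_nonneg_left (hj₀ j) (v.abv.nonneg _)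
    · have h3 : (w l).abv (ε j) <
          (w l).abv (algebraMap F E ((m j₀ * γ / m i₀ : Fˣ) : F)) := by
        have h4 := hε j l
        rwa [if_neg hl, sub_zero] at h4
      have h4 : (w l).abv (c - algebraMap F E (m j : F)) ≤
          (w l).abv (algebraMap F E (m i₀ : F)) := by
        have e : c - algebraMap F E (m j : F) = (c - algebraMap F E (m l : F)) +
            algebraMap F E ((m l : F) - m j) := by rw [map_sub]; ring
        rw [e]
        refine ((w l).nonarch _ _).trans (max_le ?_ ?_)
        · refine (hc l).le.trans ?_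
          rw [val_le_val_iff (hw l), Units.val_mul, map_mul]
          calc _ ≤ v.abv (m i₀ : F) * 1 :=
                mul_le_mul (hi₀ j₀) hγ (v.abv.nonneg _) (v.abv.nonneg _)
            _ = _ := mul_one _
        · rw [val_le_val_iff (hw l)]
          exact sub_le _ (hi₀ l) (hi₀ j)
      calc _ ≤ (w l).abv (algebraMap F E (m i₀ : F)) * (w l).abv (ε j) :=
            mul_le_mul_of_nonneg_right h4 ((w l).abv.nonneg _)
        _ < (w l).abv (algebraMap F E (m i₀ : F)) *
            (w l).abv (algebraMap F E ((m j₀ * γ / m i₀ : Fˣ) : F)) :=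
            mul_lt_mul_of_pos_left h3 (hw0 l _)
        _ = (w l).abv (algebraMap F E ((m j₀ * γ : Fˣ) : F)) := by
            rw [← map_mul, ← map_mul, ← Units.val_mul, mul_div_cancel]
        _ ≤ (w l).abv (algebraMap F E ((γ * m j : Fˣ) : F)) := by
            rw [val_le_val_iff (hw l), Units.val_mul, Units.val_mul, map_mul, map_mul, mul_comm]
            exact mul_le_mul_of_nonneg_left (hj₀ j) (v.abv.nonneg _)
  have h5 := det_near_one v _ hγ (hv0 γ) hM
  rw [Matrix.det_mul, Matrix.det_diagonal, ← Algebra.norm_eq_matrix_det c₀, Finset.prod_inv_distrib,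
    ← div_eq_mul_inv] at h5
  rwa [Units.coe_prod]

variable [GFF F] [GFF E]

/-- Elements concentrated at one of the places above a totally split place. -/
theorem exists_single (h2 : (2 : F) ≠ 0) {v : Place F}
    {w : Fin (finrank F E) → Place E} (hinj : Function.Injective w)
    (hw : ∀ i, Ab (w i) v) (m : Fˣ) (i : Fin (finrank F E)) :
    ∃ c : Eˣ, nrmF F E c / m ∈ LSF v ∧ ∀ j, j ≠ i → c ∈ LSF (w j) := by
  classical
  have h2E : (2 : E) ≠ 0 := two_ne_ext (F := F) h2
  obtain ⟨η, hη⟩ := norm_near_prod hinj hw (fun j => if j = i then m else 1)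
    (1 : Fˣ) (by rw [Units.val_one, map_one])
  have hm0 : ∀ j, 0 < ((w j).abv (algebraMap F E (m : F))) := fun j =>
    (w j).abv.pos ((_root_.map_ne_zero _).mpr m.ne_zero)
  have hη0 : ∀ j, 0 < ((w j).abv (algebraMap F E (η : F))) := fun j =>
    (w j).abv.pos ((_root_.map_ne_zero _).mpr η.ne_zero)
  obtain ⟨y, hy⟩ := approx_fam hinj
    (fun j => algebraMap F E (((if j = i then m else 1 : Fˣ)) : F))
    (fun j => min ((w j).abv (algebraMap F E (η : F)))
      (min 1 ((w j).abv (algebraMap F E (m : F)))))
    (fun j => lt_min (hη0 j) (lt_min one_pos (hm0 j)))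
  have hy0 : y ≠ 0 := by
    rintro rfl
    have h1 := hy i
    rw [if_pos rfl, zero_sub, (w i).abv.map_neg, lt_min_iff, lt_min_iff] at h1
    exact lt_irrefl _ h1.2.2
  refine ⟨Units.mk0 y hy0, ?_, ?_⟩
  · have h1 := hη y fun j => (hy j).trans_le (min_le_left _ _)
    have h3 : (∏ j, if j = i then m else (1 : Fˣ)) = m := by
      rw [Finset.prod_ite_eq']
      simp
    rw [h3, Units.val_one, map_one] at h1
    refine LSF_of_near_one v h2 ?_
    rw [Units.val_div_eq_div_val, nrmF_val, Units.val_mk0]
    exact h1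
  · intro j hj
    refine LSF_of_near_one _ h2E ?_
    have h1 := hy j
    rw [if_neg hj, Units.val_one, map_one] at h1
    exact h1.trans_le ((min_le_right _ _).trans (min_le_left _ _))

/-- The norm at a totally split place. -/
theorem parity_splitF (h2 : (2 : F) ≠ 0) {v : Place F} (hv : TotSplitF E v) (b : Fˣ) (c : Eˣ) :
    nrmF F E c ∈ NF b ⊔ LSF v ↔
      Even {w : Place E | Ab w v ∧ c ∉ NF (incF F E b) ⊔ LSF w}.ncard := by
  classical
  haveI := isSeparable_of_totSplit hv
  have h2E : (2 : E) ≠ 0 := two_ne_ext (F := F) h2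
  obtain ⟨w, hinj, hw⟩ := hv
  have himg : ∀ c : Eˣ, {w : Place E | Ab w v ∧ c ∉ NF (incF F E b) ⊔ LSF w} =
      w '' {i | c ∉ NF (incF F E b) ⊔ LSF (w i)} := by
    intro c
    ext w'
    constructor
    · rintro ⟨h1, h2⟩
      obtain ⟨i, rfl⟩ := exhaust hinj hw h1
      exact ⟨i, h2, rfl⟩
    · rintro ⟨i, h1, rfl⟩
      exact ⟨hw i, h1⟩
  by_cases hb : b ∈ LSF v
  · have h1 : NF b ⊔ LSF v = ⊤ := sup_eq_top h2 hb
    have h3 : ∀ i, NF (incF F E b) ⊔ LSF (w i) = ⊤ := fun i =>
      sup_eq_top h2E (LSF_map h2 (hw i) hb)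
    rw [himg, h1]
    have h4 : {i | c ∉ NF (incF F E b) ⊔ LSF (w i)} = ∅ := by
      ext i
      simp [h3 i]
    rw [h4]
    simp
  · have hidx : (NF b ⊔ LSF v).index = 2 := index_two h2 hb
    obtain ⟨m, hm⟩ : ∃ m : Fˣ, m ∉ NF b ⊔ LSF v := by
      by_contra hcon
      push Not at hcon
      have : NF b ⊔ LSF v = ⊤ := eq_top_iff.mpr fun x _ => hcon x
      rw [this, Subgroup.index_top] at hidx
      norm_num at hidx
    -- elements which are non-norms at one place only
    have hci : ∀ i, ∃ ci : Eˣ, nrmF F E ci ∉ NF b ⊔ LSF v ∧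
        ∀ j, j ≠ i → ci ∈ NF (incF F E b) ⊔ LSF (w j) := by
      intro i
      obtain ⟨c, h3, h4⟩ := exists_single h2 hinj hw m i
      refine ⟨c, fun h5 => ?_, fun j hj => Subgroup.mem_sup_right (h4 j hj)⟩
      have h6 := Subgroup.div_mem _ h5 (Subgroup.mem_sup_right (S := NF b) h3)
      rw [div_div_cancel] at h6
      exact hm h6
    choose ci hci1 hci2 using hci
    have hci3 : ∀ i, ci i ∉ NF (incF F E b) ⊔ LSF (w i) := by
      intro i h
      refine hci1 i (nrm_localF h2 v b (ci i) fun w' hw' => ?_)
      obtain ⟨j, rfl⟩ := exhaust hinj hw hw'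
      by_cases hj : j = i
      · rw [hj]; exact h
      · exact hci2 i j hj
    have hidx' : ∀ i, (NF (incF F E b) ⊔ LSF (w i)).index = 2 := by
      intro i
      refine index_two h2E fun h => hci3 i ?_
      rw [sup_eq_top h2E h]
      exact Subgroup.mem_top _
    have key : ∀ (B : Finset (Fin (finrank F E))) (c : Eˣ),
        (∀ i, c ∉ NF (incF F E b) ⊔ LSF (w i) ↔ i ∈ B) →
        (nrmF F E c ∈ NF b ⊔ LSF v ↔ Even B.card) := by
      intro B
      induction B using Finset.induction_on with
      | empty =>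
        intro c hc
        refine iff_of_true (nrm_localF h2 v b c fun w' hw' => ?_) (by simp)
        obtain ⟨j, rfl⟩ := exhaust hinj hw hw'
        by_contra h
        exact absurd ((hc j).mp h) (Finset.notMem_empty j)
      | insert i B hi ih =>
        intro c hc
        have h1 := ih (c * ci i) fun j => by
          rw [Subgroup.mul_mem_iff_of_index_two (hidx' j)]
          have h2 := hc j
          rw [Finset.mem_insert] at h2
          by_cases hj : j = i
          · subst hj
            have h3 := hci3 j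
            have h4 : c ∉ NF (incF F E b) ⊔ LSF (w j) := h2.mpr (Or.inl rfl)
            simp [h3, h4, hi]
          · have h3 := hci2 i j hj
            simp only [h3, iff_true]
            rw [h2]
            simp [hj]
        rw [map_mul, Subgroup.mul_mem_iff_of_index_two hidx] at h1
        have h3 := hci1 i
        simp only [h3, iff_false] at h1
        rw [Finset.card_insert_of_notMem hi, Nat.even_add_one, ← h1, not_not]
    rw [himg, Set.ncard_image_of_injective _ hinj, Set.ncard_eq_toFinset_card']
    exact key _ c fun i => by simp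

/-- A nonsquare stays a nonsquare above a totally split place. -/
theorem notMem_LSF_above (h2 : (2 : F) ≠ 0) {v : Place F} (hv : TotSplitF E v) {b : Fˣ}
    (hb : b ∉ LSF v) {w' : Place E} (hw' : Ab w' v) : incF F E b ∉ LSF w' := by
  haveI := isSeparable_of_totSplit hv
  have h2E : (2 : E) ≠ 0 := two_ne_ext (F := F) h2
  obtain ⟨w, hinj, hw⟩ := hv
  obtain ⟨i, rfl⟩ := exhaust hinj hw hw'
  intro h
  have hidx : (NF b ⊔ LSF v).index = 2 := index_two h2 hb
  obtain ⟨m, hm⟩ : ∃ m : Fˣ, m ∉ NF b ⊔ LSF v := by
    by_contra hcon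
    push Not at hcon
    have : NF b ⊔ LSF v = ⊤ := eq_top_iff.mpr fun x _ => hcon x
    rw [this, Subgroup.index_top] at hidx
    norm_num at hidx
  obtain ⟨c, h3, h4⟩ := exists_single h2 hinj hw m i
  have h5 : nrmF F E c ∈ NF b ⊔ LSF v := by
    refine nrm_localF h2 v b c fun w' hw' => ?_
    obtain ⟨j, rfl⟩ := exhaust hinj hw hw'
    by_cases hj : j = i
    · rw [sup_eq_top (v := w j) h2E (by rw [hj]; exact h)]
      exact Subgroup.mem_top _
    · exact Subgroup.mem_sup_right (h4 j hj)
  have h6 := Subgroup.div_mem _ h5 (Subgroup.mem_sup_right (S := NF b) h3)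
  rw [div_div_cancel] at h6
  exact hm h6

end fin

end Vale.Agent.P011.H73.Sp
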