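import Vale.Agent.P011.H73.AdjA
import Vale.Agent.P011.H929.Class2

/-!
Explicit Hilbert 90 near a finite set of split places: number fields.
-/

open Module NumberField IsDedekindDomain

set_option linter.unusedSectionVars false

namespace Vale.Agent.P011.H73.AdjA

open Vale.Agent.P011.Arith Vale.Agent.P011.Even Vale.Agent.P011.H182

/-- Elements of the commutant of a noncentral element commute, in prime degree. -/
theorem commute_of {K D : Type} [Field K] [DivisionRing D] [Algebra K D] [FiniteDimensional K D]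
    [Algebra.IsCentral K D] {p : ℕ} (hp : p.Prime) (h : finrank K D = p ^ 2) {w : D}
    (hw : w ∉ Set.range (algebraMap K D)) {x y : D} (hx : x * w = w * x) (hy : y * w = w * y) :
    x * y = y * x := by
  by_cases hxr : x ∈ Set.range (algebraMap K D)
  · obtain ⟨c, rfl⟩ := hxr
    exact Algebra.commutes c y
  · have h1 := H929.centralizer_eq_adjoin hp h hw hxr hx hy
    have h2 : Algebra.adjoin K {x} ≤ Subalgebra.centralizer K {x} := by
      refine Algebra.adjoin_le ?_
      rintro _ rfl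
      rw [SetLike.mem_coe, Subalgebra.mem_centralizer_iff]
      rintro _ rfl
      rfl
    have h3 := h2 h1
    rw [Subalgebra.mem_centralizer_iff] at h3
    exact h3 x rfl

/-- From a good square root to a nearby one. -/
theorem near_sq {k : Type} [Field k] (A : AbsoluteValue k ℝ) {d c0 : k} (hd : d ≠ 0) {η : ℝ}
    (hη : 0 < η) (h0 : A (c0 ^ 2 * d - 1) < η / 2) :
    ∃ δ : ℝ, 0 < δ ∧ ∀ c : k, A (c - c0) < δ → A (c ^ 2 * d - 1) < η := by
  have hAd : 0 < A d := A.pos hd
  have hA0 := AbsoluteValue.nonneg A c0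
  refine ⟨min 1 (η / (2 * ((1 + 2 * A c0) * A d))), by positivity, fun c hc => ?_⟩
  have h1 : A (c - c0) < 1 := hc.trans_le (min_le_left _ _)
  have h2 : A (c - c0) < η / (2 * ((1 + 2 * A c0) * A d)) := hc.trans_le (min_le_right _ _)
  rw [lt_div_iff₀ (by positivity)] at h2
  have e : c ^ 2 * d - 1 = (c0 ^ 2 * d - 1) + (c - c0) * ((c - c0) + (c0 + c0)) * d := by ring
  rw [e]
  refine (A.add_le _ _).trans_lt ?_
  rw [map_mul, map_mul]
  have h3 : A ((c - c0) + (c0 + c0)) ≤ 1 + 2 * A c0 := by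
    have g1 := A.add_le (c - c0) (c0 + c0)
    have g2 := A.add_le c0 c0
    linarith
  have h4 : A (c - c0) * A ((c - c0) + (c0 + c0)) * A d ≤
      A (c - c0) * (1 + 2 * A c0) * A d := by
    refine mul_le_mul_of_nonneg_right ?_ hAd.le
    exact mul_le_mul_of_nonneg_left h3 (AbsoluteValue.nonneg _ _)
  nlinarith

section nf

variable {k : Type} [Field k] [NumberField k]

theorem exists_small_el (v : HeightOneSpectrum (𝓞 k)) {η : ℝ} (hη : 0 < η) :
    ∃ z : k, z ≠ 0 ∧ plAbv (Sum.inl v) z < η := by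
  obtain ⟨π, hπ⟩ := v.valuation_exists_uniformizer k
  have h1 : v.valuation k π < 1 := by
    rw [hπ, ← WithZero.exp_zero, WithZero.exp_lt_exp]
    norm_num
  have hπ0 : π ≠ 0 := by
    rintro rfl
    rw [map_zero] at hπ
    exact WithZero.exp_ne_zero hπ.symm
  obtain ⟨m, hm⟩ := exists_pow_lt_of_lt_one hη ((plAbv_lt_one v π).mpr h1)
  exact ⟨π ^ m, pow_ne_zero _ hπ0, by rwa [map_pow]⟩

/-- A simultaneous approximate square root. -/
theorem sq_approx {F : Set (HeightOneSpectrum (𝓞 k))} (hF : F.Finite) {d : kˣ}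
    (hd : ∀ v ∈ F, d ∈ LS (v.valuation k)) {η : ℝ} (hη : 0 < η) :
    ∃ c : k, ∀ v ∈ F, plAbv (Sum.inl v) (c ^ 2 * d - 1) < η := by
  have h1 : ∀ v : HeightOneSpectrum (𝓞 k), ∃ c : k, v ∈ F →
      plAbv (Sum.inl v) (c ^ 2 * d - 1) < η / 2 := by
    intro v
    by_cases hv : v ∈ F
    · obtain ⟨z, hz0, hz⟩ := exists_small_el v (half_pos hη)
      obtain ⟨y, hy⟩ := LS_newton' (hd v hv) (γ := v.valuation k z)
        ((Valuation.ne_zero_iff _).mpr hz0)
      refine ⟨(y : k)⁻¹, fun _ => ?_⟩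
      rw [← plAbv_lt] at hy
      have e : ((y : k)⁻¹) ^ 2 * d - 1 = (d : k) / (y : k) ^ 2 - 1 := by
        rw [inv_pow, div_eq_inv_mul]
      rw [e]
      exact hy.trans hz
    · exact ⟨0, fun h => absurd h hv⟩
  choose c hc using h1
  have h2 : ∀ p : Pl k, ∃ δ : ℝ, 0 < δ ∧ ∀ v ∈ F, p = Sum.inl v → ∀ c' : k,
      plAbv (Sum.inl v) (c' - c v) < δ → plAbv (Sum.inl v) (c' ^ 2 * d - 1) < η := by
    intro p
    rcases p with v | φ
    · by_cases hv : v ∈ F
      · obtain ⟨δ, hδ, h⟩ := near_sq (plAbv (Sum.inl v)) d.ne_zero hη (hc v hv)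
        refine ⟨δ, hδ, fun v' _ hv' c' hc' => ?_⟩
        have e := Sum.inl_injective hv'
        subst e
        exact h c' hc'
      · exact ⟨1, one_pos, fun v' hv' e => absurd (Sum.inl_injective e ▸ hv') hv⟩
    · exact ⟨1, one_pos, fun v' hv' e => by cases e⟩
  choose δ hδ hδ2 using h2
  obtain ⟨c', hc'⟩ := approx (Sum.inl '' F) (hF.image _)
    (fun p => match p with | .inl v => c v | .inr _ => 0) δ hδ
  exact ⟨c', fun v hv => hδ2 (Sum.inl v) v hv rfl c' (hc' (Sum.inl v) ⟨v, hv, rfl⟩)⟩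

variable {K D : Type} [Field K] [StarRing K] [DivisionRing D] [StarRing D] [Algebra k K]
  [Algebra k D] [Algebra K D] [IsScalarTower k K D] {d : kˣ} {s : K}

/-- **Explicit Hilbert 90 near the places of the finite set `F`.** -/
theorem adjA (hS : Setting k K D d s) (h9 : finrank K D = 3 ^ 2) {N : ℕ}
    (B : Basis (Fin N) k D) {F : Set (HeightOneSpectrum (𝓞 k))} (hF : F.Finite)
    (hd : ∀ v ∈ F, d ∈ LS (v.valuation k)) {g0 : D} (hg0 : g0 * star g0 = 1) {ε : ℝ}
    (hε : 0 < ε) : ∃ δ : ℝ, 0 < δ ∧ ∀ w w' u h : D, w * star w = 1 → w' * star w' = 1 →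
      w ∉ Set.range (algebraMap K D) → u * star u = 1 → w' * u = u * w → h ≠ 0 →
      w' * h = h * w → (∀ v ∈ F, na B (plAbv (Sum.inl v)) (h - g0) < δ) →
      ∃ u' : D, u' * star u' = 1 ∧ w' * u' = u' * w ∧
        ∀ v ∈ F, na B (plAbv (Sum.inl v)) (u' - g0) < ε := by
  have hfd : FiniteDimensional K D := hS.fin
  have hcen : Algebra.IsCentral K D := hS.cen
  have _ : Finite F := hF
  obtain ⟨δ, hδ, h⟩ := adjA_abs B (σ := algebraMap K D s) (d := (d : k))
    (fun v : F => plAbv (Sum.inl (v : HeightOneSpectrum (𝓞 k)))) (H929.star_k hS)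
    (fun x => Algebra.commutes s x) (H929.star_delta hS) d.ne_zero
    (by rw [← map_mul, ← sq, hS.sq, ← IsScalarTower.algebraMap_apply]) two_ne_zero
    (fun η hη => (sq_approx hF hd hη).imp fun c hc v => hc v v.2) hg0 hε
  refine ⟨δ, hδ, fun w w' u g hw _ hwK hu hwu hg hwg hn => ?_⟩
  obtain ⟨u', h1, h2, h3⟩ := h w w' u g hw
    (fun x y hx hy => commute_of Nat.prime_three h9 hwK hx hy) hu hwu hg hwg
    (fun v => hn v v.2)
  exact ⟨u', h1, h2, fun v hv => h3 ⟨v, hv⟩⟩

end nf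

end Vale.Agent.P011.H73.AdjA
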