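import Vale.Agent.P011.H73.ND
import Vale.Agent.P011.Even.Defs

/-!
ND in the letters of the number field module list.
-/

open Module NumberField

namespace Vale.Agent.P011.H73.ND

open Vale.Agent.P011.H775 Vale.Agent.P011.Even

/-- **ND** in the letters of `Even.Setting`. -/
theorem nd_setting {k K D : Type} [Field k] [CharZero k] [Field K] [StarRing K]
    [DivisionRing D] [StarRing D] [Algebra k K] [Algebra k D] [Algebra K D] [IsScalarTower k K D]
    {d : kˣ} {s : K} (hS : Setting k K D d s) (C : Cub K D) (hdeg : finrank K D = 3 ^ 2) {P : D}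
    (hP : P ≠ 0) :
    ∃ (m : ℕ) (ξ t : Fin m → D), (∀ i, star (ξ i) = ξ i) ∧ ∀ Q : D, ∃ e : K,
      Q = e • P + ∑ i, (C.T (Q * C.adj (ξ i)) * C.T (P * ξ i) -
        C.T (P * C.adj (ξ i)) * C.T (Q * ξ i)) • t i := by
  have hs0 : s ≠ 0 := by
    rintro rfl
    have h1 := hS.sq
    rw [zero_pow two_ne_zero, eq_comm, map_eq_zero] at h1
    exact d.ne_zero h1
  have hK : CharZero K := charZero_of_injective_algebraMap (algebraMap k K).injective
  exact nd C hS.star_s hs0 two_ne_zero (fun c => (hS.fix _).mpr ⟨c, rfl⟩) hS.star_smul hdeg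
    hS.cen hP

end Vale.Agent.P011.H73.ND
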