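import Vale.Agent.P011.H73.AdjA2
import Vale.Agent.P011.H929.FFa
import Vale.Agent.P011.H698.DensFF
import Vale.Agent.P011.H271.KSF

/-!
Explicit Hilbert 90 near a finite set of split places: global function fields.
-/

open Module

set_option linter.unusedSectionVars false

namespace Vale.Agent.P011.H73.AdjA

open Vale.Agent.P011.H305 Vale.Agent.P011.H738 Vale.Agent.P011.H271 Vale.Agent.P011.H182
  Vale.Agent.P011.H698

variable {k : Type} [Field k] [GFF k]

/-- Continuity of the square at one place. -/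
theorem cont_sq (v : Place k) {α : v.comp} {d : k} (h : α ^ 2 * algebraMap k v.comp d = 1)
    {η : ℝ} (hη : 0 < η) : ∃ δ : ℝ, 0 < δ ∧ ∀ c : k, ‖algebraMap k v.comp c - α‖ < δ →
      v.abv (c ^ 2 * d - 1) < η := by
  set b : v.comp := algebraMap k v.comp d with hb
  refine ⟨min 1 (η / ((1 + 2 * ‖α‖) * (‖b‖ + 1))), by positivity, fun c hc => ?_⟩
  have h1 : ‖algebraMap k v.comp c - α‖ < 1 := hc.trans_le (min_le_left _ _)
  have h2 : ‖algebraMap k v.comp c - α‖ < η / ((1 + 2 * ‖α‖) * (‖b‖ + 1)) :=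
    hc.trans_le (min_le_right _ _)
  rw [lt_div_iff₀ (by positivity)] at h2
  have e : algebraMap k v.comp (c ^ 2 * d - 1) =
      (algebraMap k v.comp c - α) * ((algebraMap k v.comp c - α) + (α + α)) * b := by
    rw [map_sub, map_mul, map_pow, map_one, ← h, ← hb]
    ring
  rw [← H271.norm_alg v, e, norm_mul, norm_mul]
  have h3 : ‖(algebraMap k v.comp c - α) + (α + α)‖ ≤ 1 + 2 * ‖α‖ := by
    have g1 := norm_add_le (algebraMap k v.comp c - α) (α + α)
    have g2 := norm_add_le α α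
    linarith
  have h4 : ‖algebraMap k v.comp c - α‖ * ‖(algebraMap k v.comp c - α) + (α + α)‖ * ‖b‖ ≤
      ‖algebraMap k v.comp c - α‖ * (1 + 2 * ‖α‖) * (‖b‖ + 1) := by
    refine mul_le_mul (mul_le_mul_of_nonneg_left h3 (norm_nonneg _)) (by linarith)
      (norm_nonneg _) (by positivity)
  nlinarith

/-- A simultaneous approximate square root. -/
theorem sq_approx_ff {F : Set (Place k)} (hF : F.Finite) {d : kˣ}
    (hd : ∀ v ∈ F, ∃ α : v.comp, α ^ 2 = algebraMap k v.comp (d : k)) {η : ℝ} (hη : 0 < η) :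
    ∃ c : k, ∀ v ∈ F, v.abv (c ^ 2 * d - 1) < η := by
  have h1 : ∀ v : Place k, ∃ α : v.comp, v ∈ F → α ^ 2 * algebraMap k v.comp (d : k) = 1 := by
    intro v
    by_cases hv : v ∈ F
    · obtain ⟨α, hα⟩ := hd v hv
      have hd0 : algebraMap k v.comp (d : k) ≠ 0 := (map_ne_zero _).mpr d.ne_zero
      refine ⟨α⁻¹, fun _ => ?_⟩
      rw [inv_pow, hα, inv_mul_cancel₀ hd0]
    · exact ⟨0, fun h => absurd h hv⟩
  choose α hα using h1
  have h3 : ∀ v : Place k, ∃ δ : ℝ, 0 < δ ∧ (v ∈ F → ∀ c : k,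
      ‖algebraMap k v.comp c - α v‖ < δ → v.abv (c ^ 2 * d - 1) < η) := by
    intro v
    by_cases hv : v ∈ F
    · obtain ⟨δ, hδ, h⟩ := cont_sq v (hα v hv) hη
      exact ⟨δ, hδ, fun _ => h⟩
    · exact ⟨1, one_pos, fun h => absurd h hv⟩
  choose δ hδ hδ2 using h3
  rcases F.eq_empty_or_nonempty with hFe | hFne
  · exact ⟨0, fun v hv => by rw [hFe] at hv; exact hv.elim⟩
  obtain ⟨v0, hv0, hmin⟩ := Set.exists_min_image F δ hF hFne
  obtain ⟨c, hc⟩ := place_weak hF.toFinset (fun v => α (v : Place k)) (hδ v0)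
  refine ⟨c, fun v hv => hδ2 v hv c ?_⟩
  exact (hc ⟨v, hF.mem_toFinset.mpr hv⟩).trans_le (hmin v hv)

variable {K D : Type} [Field K] [StarRing K] [DivisionRing D] [StarRing D] [Algebra k K]
  [Algebra k D] [Algebra K D] [IsScalarTower k K D] {d : kˣ} {s : K}

/-- **Explicit Hilbert 90 near the places of the finite set `F`**, function fields, any prime
degree. -/
theorem adjA_ff (hS : SetF k K D d s) {p : ℕ} (hp : p.Prime) (h9 : finrank K D = p ^ 2) {N : ℕ}
    (B : Basis (Fin N) k D) {F : Set (Place k)} (hF : F.Finite)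
    (hd : ∀ v ∈ F, ∃ α : v.comp, α ^ 2 = algebraMap k v.comp (d : k)) {g0 : D}
    (hg0 : g0 * star g0 = 1) {ε : ℝ} (hε : 0 < ε) :
    ∃ δ : ℝ, 0 < δ ∧ ∀ w w' u h : D, w * star w = 1 → w' * star w' = 1 →
      w ∉ Set.range (algebraMap K D) → u * star u = 1 → w' * u = u * w → h ≠ 0 →
      w' * h = h * w → (∀ v ∈ F, na B v.abv (h - g0) < δ) →
      ∃ u' : D, u' * star u' = 1 ∧ w' * u' = u' * w ∧ ∀ v ∈ F, na B v.abv (u' - g0) < ε := by
  have hfd : FiniteDimensional K D := hS.fin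
  have hcen : Algebra.IsCentral K D := hS.cen
  have _ : Finite F := hF
  obtain ⟨δ, hδ, h⟩ := adjA_abs B (σ := algebraMap K D s) (d := (d : k))
    (fun v : F => (v : Place k).abv) (H929.FF.star_k hS)
    (fun x => Algebra.commutes s x) (H929.FF.star_delta hS) d.ne_zero
    (by rw [← map_mul, ← sq, hS.sq, ← IsScalarTower.algebraMap_apply]) hS.two_ne
    (fun η hη => (sq_approx_ff hF hd hη).imp fun c hc v => hc v v.2) hg0 hε
  refine ⟨δ, hδ, fun w w' u g hw _ hwK hu hwu hg hwg hn => ?_⟩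
  obtain ⟨u', h1, h2, h3⟩ := h w w' u g hw
    (fun x y hx hy => commute_of hp h9 hwK hx hy) hu hwu hg hwg
    (fun v => hn v v.2)
  exact ⟨u', h1, h2, fun v hv => h3 ⟨v, hv⟩⟩

end Vale.Agent.P011.H73.AdjA
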