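import Vale.Agent.P011.H305.SetF
import Vale.Agent.P011.H268.LangC2Cor

/-!
Hermitian forms of rank two over a division algebra with an involution of the second kind over a
global function field are universal.
-/

open Module

set_option linter.unusedSectionVars false

namespace Vale.Agent.P011.H73

open Vale.Agent.P011.H305 Vale.Agent.P011.H738 Vale.Agent.P011.H271

section general

variable {k D : Type} [Field k] [DivisionRing D] [StarRing D] [Algebra k D]

/-- The symmetric elements. -/
def symS (hst : ∀ (c : k) (x : D), star (c • x) = c • star x) : Submodule k D where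
  carrier := {x | star x = x}
  add_mem' {x y} hx hy := by
    show star (x + y) = x + y
    rw [star_add, show star x = x from hx, show star y = y from hy]
  zero_mem' := star_zero D
  smul_mem' c x hx := by
    show star (c • x) = c • x
    rw [hst, show star x = x from hx]

theorem mem_symS (hst : ∀ (c : k) (x : D), star (c • x) = c • star x) {x : D} :
    x ∈ symS hst ↔ star x = x := Iff.rfl

/-- The dimension of the space of symmetric elements. -/
theorem two_mul_finrank_symS [FiniteDimensional k D]
    (hst : ∀ (c : k) (x : D), star (c • x) = c • star x) (h2 : (2 : k) ≠ 0) {σ : D} (hσ0 : σ ≠ 0)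
    (hσs : star σ = -σ) (hσ : ∀ x, σ * x = x * σ) :
    2 * finrank k (symS hst) = finrank k D := by
  have h2D : ∀ x : D, (2 : k)⁻¹ • (x + x) = x := by
    intro x
    rw [← two_smul k x, smul_smul, inv_mul_cancel₀ h2, one_smul]
  let f : (symS hst) × (symS hst) →ₗ[k] D :=
    { toFun := fun p => (p.1 : D) + σ * (p.2 : D)
      map_add' := fun p q => by
        simp only [Prod.fst_add, Prod.snd_add, Submodule.coe_add, mul_add]
        abel
      map_smul' := fun c p => by
        simp only [Prod.smul_fst, Prod.smul_snd, Submodule.coe_smul, mul_smul_comm, smul_add,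
          RingHom.id_apply] }
  have hf : ∀ p, f p = (p.1 : D) + σ * (p.2 : D) := fun p => rfl
  have hinj : Function.Injective f := by
    rw [← LinearMap.ker_eq_bot, LinearMap.ker_eq_bot']
    rintro ⟨⟨x, hx⟩, ⟨y, hy⟩⟩ h
    rw [mem_symS] at hx hy
    rw [hf] at h
    have h1 : x + σ * y = 0 := h
    have h3 := congrArg star h1
    rw [star_add, star_mul, hx, hy, hσs, mul_neg, ← hσ, star_zero] at h3
    have h4 : x = 0 := by
      rw [← h2D x]
      have : x + x = (x + σ * y) + (x + -(σ * y)) := by abel
      rw [this, h1, h3, add_zero, smul_zero]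
    rw [h4, zero_add] at h1
    have h5 : y = 0 := (mul_eq_zero.mp h1).resolve_left hσ0
    subst h4 h5
    rfl
  have hsurj : Function.Surjective f := by
    intro z
    have hσi : ∀ x, σ⁻¹ * x = x * σ⁻¹ := by
      intro x
      apply mul_left_cancel₀ hσ0
      rw [← mul_assoc, mul_inv_cancel₀ hσ0, one_mul, ← mul_assoc, hσ, mul_assoc,
        mul_inv_cancel₀ hσ0, mul_one]
    refine ⟨(⟨(2 : k)⁻¹ • (z + star z), ?_⟩, ⟨(2 : k)⁻¹ • (σ⁻¹ * (z - star z)), ?_⟩), ?_⟩
    · rw [mem_symS, hst, star_add, star_star, add_comm]
    · rw [mem_symS, hst, star_mul, star_sub, star_star, star_inv₀, hσs, inv_neg, mul_neg,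
        ← neg_mul, neg_sub, hσi]
    · rw [hf]
      show (2 : k)⁻¹ • (z + star z) + σ * ((2 : k)⁻¹ • (σ⁻¹ * (z - star z))) = z
      rw [mul_smul_comm, ← mul_assoc, mul_inv_cancel₀ hσ0, one_mul, ← smul_add,
        add_add_sub_cancel, h2D]
  have e := LinearEquiv.ofBijective f ⟨hinj, hsurj⟩
  rw [← e.finrank_eq, Module.finrank_prod]
  ring

/-- An isotropic hermitian plane is universal. -/
theorem rep_of_isotropic (hst : ∀ (c : k) (x : D), star (c • x) = c • star x) (h2 : (2 : k) ≠ 0)
    {b g c : D} (hb : star b = b) (hg : star g = g) (hc : star c = c) (hb0 : b ≠ 0)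
    {x y : D} (hx : x ≠ 0) (h : x * b * star x + y * g * star y = 0) :
    ∃ x' y' : D, x' * b * star x' + y' * g * star y' = c := by
  have h2D : ∀ x : D, (2 : k)⁻¹ • (x + x) = x := by
    intro x
    rw [← two_smul k x, smul_smul, inv_mul_cancel₀ h2, one_smul]
  obtain ⟨z, hz⟩ : ∃ z : D, x * b * star z = 1 := by
    refine ⟨star (x * b)⁻¹, ?_⟩
    rw [star_star, mul_inv_cancel₀ (mul_ne_zero hx hb0)]
  have hz' : z * b * star x = 1 := by
    have h1 := congrArg star hz
    rwa [star_mul, star_mul, star_star, hb, star_one, ← mul_assoc] at h1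
  obtain ⟨r, hr⟩ : ∃ r, r = (2 : k)⁻¹ • (c - z * b * star z) := ⟨_, rfl⟩
  have hrs : star r = r := by
    rw [hr, hst, star_sub, hc, star_mul, star_mul, star_star, hb, ← mul_assoc]
  refine ⟨r * x + z, r * y, ?_⟩
  have e : (r * x + z) * b * star (r * x + z) + r * y * g * star (r * y) =
      r * (x * b * star x + y * g * star y) * star r + r * (x * b * star z) +
        (z * b * star x) * star r + z * b * star z := by
    rw [star_add, star_mul, star_mul]
    noncomm_ring
  rw [e, h, hz, hz', hrs, mul_zero, zero_mul, zero_add, mul_one, one_mul]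
  have h3 : r + r = c - z * b * star z := by
    rw [hr, ← smul_add, h2D]
  rw [h3, sub_add_cancel]

end general

variable {k K D : Type} [Field k] [Field K] [StarRing K] [DivisionRing D] [StarRing D]
  [Algebra k K] [Algebra k D] [Algebra K D] [IsScalarTower k K D] {d : kˣ} {s : K}

/-- **Hermitian forms of rank two are universal** over a global function field of characteristic
different from two. -/
theorem repF (hk : IsGlobalFunctionField k) (hS : SetF k K D d s) {b g c : D} (hb : star b = b)
    (hg : star g = g) (hc : star c = c) (hb0 : b ≠ 0) (hg0 : g ≠ 0) :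
    ∃ x y : D, x * b * star x + y * g * star y = c := by
  have hst : ∀ (c : k) (x : D), star (c • x) = c • star x := hS.star_smulk
  have h2 := hS.two_ne
  have _ : FiniteDimensional K D := hS.fin
  have _ : FiniteDimensional k K := FiniteDimensional.of_finrank_pos (by rw [hS.rank]; norm_num)
  have _ : FiniteDimensional k D := Module.Finite.trans K D
  obtain ⟨σ, hσ⟩ : ∃ σ : D, σ = algebraMap K D s := ⟨_, rfl⟩
  have hσ0 : σ ≠ 0 := by
    rw [hσ]
    exact (map_ne_zero _).mpr hS.s_ne
  have hσs : star σ = -σ := by
    rw [hσ, Algebra.algebraMap_eq_smul_one, hS.star_smul, star_one, hS.star_s, neg_smul]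
  have hσc : ∀ x, σ * x = x * σ := by
    rw [hσ]
    exact Algebra.commutes s
  have hdim := two_mul_finrank_symS hst h2 hσ0 hσs hσc
  -- the retraction to the symmetric elements
  obtain ⟨π, hπ⟩ := LinearMap.exists_leftInverse_of_injective (symS hst).subtype
    (Submodule.ker_subtype _)
  have hπs : ∀ x (hx : star x = x), ((π x : symS hst) : D) = x := by
    intro x hx
    have := LinearMap.congr_fun hπ ⟨x, hx⟩
    exact congrArg Subtype.val this
  obtain ⟨F, _, _, _, hF⟩ := hk
  let B0 : (D × D × k) →ₗ[k] (D × D × k) →ₗ[k] D :=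
    LinearMap.mk₂ k (fun p q => p.1 * b * star q.1 + p.2.1 * g * star q.2.1 -
        (p.2.2 * q.2.2) • c)
      (fun p p' q => by
        simp only [Prod.fst_add, Prod.snd_add, add_mul, add_smul]
        abel)
      (fun a p q => by
        simp only [Prod.smul_fst, Prod.smul_snd, smul_mul_assoc, smul_sub, smul_add, smul_eq_mul,
          mul_assoc, mul_smul])
      (fun p q q' => by
        simp only [Prod.fst_add, Prod.snd_add, star_add, mul_add, add_smul]
        abel)
      (fun a p q => by
        simp only [Prod.smul_fst, Prod.smul_snd, hst, mul_smul_comm, smul_sub, smul_add,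
          smul_eq_mul, mul_left_comm p.2.2 a, mul_smul])
  have hB0 : ∀ p : D × D × k, B0 p p = p.1 * b * star p.1 + p.2.1 * g * star p.2.1 -
      (p.2.2 * p.2.2) • c := fun p => rfl
  let B : (D × D × k) →ₗ[k] (D × D × k) →ₗ[k] (symS hst) := B0.compr₂ π
  have hB : ∀ p, B p p = π (B0 p p) := fun p => rfl
  obtain ⟨⟨x, y, t⟩, hv, hQ⟩ := H268.exists_isotropic_quadraticMap F (RatFunc F)
    (LinearMap.BilinMap.toQuadraticMap B) (by
      rw [finrank_prod, finrank_prod, finrank_self]
      omega)
  rw [LinearMap.BilinMap.toQuadraticMap_apply, hB, hB0] at hQ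
  have hsym : star (x * b * star x + y * g * star y - (t * t) • c) =
      x * b * star x + y * g * star y - (t * t) • c := by
    rw [star_sub, star_add, hst, hc, star_mul, star_mul, star_mul, star_mul, star_star,
      star_star, hb, hg, mul_assoc, mul_assoc]
  have h0 : x * b * star x + y * g * star y = (t * t) • c := by
    have h1 := hπs _ hsym
    rw [hQ] at h1
    rw [← sub_eq_zero, ← h1]
    rfl
  by_cases ht : t = 0
  · rw [ht, mul_zero, zero_smul] at h0
    by_cases hx : x = 0
    · have hy : y ≠ 0 := by
        rintro rfl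
        exact hv (by rw [hx, ht]; rfl)
      exfalso
      rw [hx, star_zero, mul_zero, zero_add] at h0
      exact mul_ne_zero (mul_ne_zero hy hg0) (star_ne_zero.mpr hy) h0
    · exact rep_of_isotropic hst h2 hb hg hc hb0 hx h0
  · refine ⟨t⁻¹ • x, t⁻¹ • y, ?_⟩
    rw [hst, hst, smul_mul_assoc, smul_mul_assoc, mul_smul_comm, smul_mul_assoc, smul_mul_assoc,
      mul_smul_comm, smul_smul, smul_smul, ← smul_add, h0, smul_smul, ← mul_inv,
      inv_mul_cancel₀ (mul_ne_zero ht ht), one_smul]

end Vale.Agent.P011.H73
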