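import Mathlib

/-!
# P011, linking block: definitions and the exact statement of the Weyl / linking bound

`cube N X` is the standard cube `[0,X)^N` in `ℤ^N`; `shift j h x = x + c_j + h A_j + h^2 B_j`.
`LinkL2 B` is the `L²` form of the linking bound for the family `B` of quadratic directions.
-/

namespace Vale.Agent.P011.H73

open Finset

/-- The standard cube `[0,X)^N` in `ℤ^N`. -/
noncomputable def cube (N X : ℕ) : Finset (Fin N → ℤ) :=
  Fintype.piFinset (fun _ => Finset.Ico (0 : ℤ) (X : ℤ))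

/-- Average of `b` over the subcell `x + Q [0,Y)^N`. -/
noncomputable def cellAvg {N : ℕ} (Q Y : ℕ) (b : (Fin N → ℤ) → ℝ) (x : Fin N → ℤ) : ℝ :=
  (∑ y ∈ cube N Y, b (x + (Q : ℤ) • y)) / (Y : ℝ) ^ N

/-- The `L²` form of the linking bound: for every `δ > 0` there are a modulus `Q`, a constant
`κ > 0` and `I₀` such that for `I ≥ I₀`, `1 ≤ Y ≤ κ I²`, all linear terms `A` and all finitely
supported `b` the mean over `j` of the squared `L²` norm of the average of `b - K b` over the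
translates by `i A_j + i² B_j` is at most `(4 (N-1)/J + δ) ‖b‖²`. -/
def LinkL2 {N J : ℕ} (B : Fin J → Fin N → ℤ) : Prop :=
  ∀ δ : ℝ, 0 < δ → ∃ Q : ℕ, 0 < Q ∧ ∃ κ : ℝ, 0 < κ ∧ ∃ I₀ : ℕ, ∀ I : ℕ, I₀ ≤ I →
    ∀ Y : ℕ, 1 ≤ Y → (Y : ℝ) ≤ κ * (I : ℝ) ^ 2 → ∀ A : Fin J → Fin N → ℤ,
      ∀ b : (Fin N → ℤ) → ℝ, ∀ Sb : Finset (Fin N → ℤ), (∀ x, x ∉ Sb → b x = 0) →
        ∀ S : Finset (Fin N → ℤ),
          ∑ j : Fin J, ∑ x ∈ S,
            (∑ i ∈ Finset.range I, (b (x + (i : ℤ) • A j + ((i : ℤ) ^ 2) • B j)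
              - cellAvg Q Y b (x + (i : ℤ) • A j + ((i : ℤ) ^ 2) • B j))) ^ 2
          ≤ (4 * ((N : ℝ) - 1) + δ * J) * (I : ℝ) ^ 2 * ∑ x ∈ Sb, b x ^ 2

end Vale.Agent.P011.H73
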