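import Vale.Agent.P011.H182.Nma

/-!
Explicit Hilbert 90 near a finite set of split places: a unitary intertwiner can be moved close to
a given approximate one.
-/

open Module

set_option linter.unusedSectionVars false

namespace Vale.Agent.P011.H73.AdjA

open Vale.Agent.P011.H182

section one

variable {k D : Type} [Field k] [DivisionRing D] [Algebra k D] {N : ℕ}
  (B : Basis (Fin N) k D) (A : AbsoluteValue k ℝ)

theorem inv_bound {C : ℝ} (hm : ∀ x y, na B A (x * y) ≤ C * na B A x * na B A y) {x : D}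
    (hx : C * na B A (x - 1) ≤ 1 / 2) : x ≠ 0 ∧ na B A x⁻¹ ≤ 2 * na B A 1 := by
  have h1 : 0 < na B A (1 : D) := na_pos B A one_ne_zero
  have h2 : 1 ≤ C * na B A (1 : D) := by
    have h3 := hm 1 1
    rw [mul_one] at h3
    by_contra h4
    push Not at h4
    have h5 := mul_lt_mul_of_pos_right h4 h1
    linarith
  have hx0 : x ≠ 0 := by
    rintro rfl
    rw [zero_sub, na_neg] at hx
    linarith
  refine ⟨hx0, ?_⟩
  have e : x⁻¹ = 1 - (x - 1) * x⁻¹ := by
    rw [sub_mul, mul_inv_cancel₀ hx0, one_mul]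
    abel
  have h3 : na B A x⁻¹ ≤ na B A (1 : D) + C * na B A (x - 1) * na B A x⁻¹ := by
    conv_lhs => rw [e]
    exact (na_sub_le B A _ _).trans (add_le_add le_rfl (hm _ _))
  have h4 : C * na B A (x - 1) * na B A x⁻¹ ≤ 1 / 2 * na B A x⁻¹ :=
    mul_le_mul_of_nonneg_right hx (na_nonneg _ _ _)
  linarith

/-- The first idempotent, approximately. -/
noncomputable def P (σ : D) (c : k) : D := (2 : k)⁻¹ • (1 - c • σ)

/-- The second idempotent, approximately. -/
noncomputable def Q (σ : D) (c : k) : D := (2 : k)⁻¹ • (1 + c • σ)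

variable {σ : D} {d : k}

theorem P_add_Q (h2 : (2 : k) ≠ 0) (c : k) : P σ c + Q σ c = 1 := by
  rw [P, Q, ← smul_add, sub_add_add_cancel, ← two_smul k (1 : D), smul_smul, inv_mul_cancel₀ h2,
    one_smul]

theorem P_mul_Q (hσσ : σ * σ = algebraMap k D d) (c : k) :
    P σ c * Q σ c = ((4 : k)⁻¹ * (1 - c ^ 2 * d)) • (1 : D) := by
  have e : (1 - c • σ) * (1 + c • σ) = (1 - c ^ 2 * d) • (1 : D) := by
    have h1 : (c • σ) * (c • σ) = (c ^ 2 * d) • (1 : D) := by
      rw [smul_mul_smul_comm, hσσ, Algebra.algebraMap_eq_smul_one, smul_smul, sq]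
    have h2 : (1 - c • σ) * (1 + c • σ) = 1 - (c • σ) * (c • σ) := by
      generalize c • σ = τ
      noncomm_ring
    rw [h2, h1, sub_smul, one_smul]
  rw [P, Q, smul_mul_smul_comm, e, smul_smul]
  congr 1
  rw [← mul_inv]
  norm_num

theorem P_comm (hσ : ∀ x, σ * x = x * σ) (c : k) (x : D) : P σ c * x = x * P σ c := by
  rw [P, smul_mul_assoc, mul_smul_comm, sub_mul, mul_sub, one_mul, mul_one, smul_mul_assoc,
    mul_smul_comm, hσ]

theorem Q_comm (hσ : ∀ x, σ * x = x * σ) (c : k) (x : D) : Q σ c * x = x * Q σ c := by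
  rw [Q, smul_mul_assoc, mul_smul_comm, add_mul, mul_add, one_mul, mul_one, smul_mul_assoc,
    mul_smul_comm, hσ]

/-- The product of the two local inverses. -/
theorem XY (hσ : ∀ x, σ * x = x * σ) (hσσ : σ * σ = algebraMap k D d) (h2 : (2 : k) ≠ 0)
    {e a : D} (he : e ≠ 0) (ha : a ≠ 0) (c : k) :
    (P σ c * a + Q σ c * e) * (P σ c * a⁻¹ + Q σ c * e⁻¹) =
      1 + ((4 : k)⁻¹ * (1 - c ^ 2 * d)) • (a * e⁻¹ + e * a⁻¹ - 2) := by
  have hPQ := P_mul_Q hσσ c
  have hadd := P_add_Q (σ := σ) h2 c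
  set p := P σ c with hp
  set q := Q σ c with hq
  have hpc : ∀ x, p * x = x * p := P_comm hσ c
  have hqc : ∀ x, q * x = x * q := Q_comm hσ c
  have e1 : (p * a + q * e) * (p * a⁻¹ + q * e⁻¹) =
      p * p * (a * a⁻¹) + p * q * (a * e⁻¹) + q * p * (e * a⁻¹) + q * q * (e * e⁻¹) := by
    have f1 : p * a * (p * a⁻¹) = p * p * (a * a⁻¹) := by
      rw [mul_assoc p a, ← mul_assoc a p, ← hpc a]
      simp only [mul_assoc]
    have f2 : p * a * (q * e⁻¹) = p * q * (a * e⁻¹) := by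
      rw [mul_assoc p a, ← mul_assoc a q, ← hqc a]
      simp only [mul_assoc]
    have f3 : q * e * (p * a⁻¹) = q * p * (e * a⁻¹) := by
      rw [mul_assoc q e, ← mul_assoc e p, ← hpc e]
      simp only [mul_assoc]
    have f4 : q * e * (q * e⁻¹) = q * q * (e * e⁻¹) := by
      rw [mul_assoc q e, ← mul_assoc e q, ← hqc e]
      simp only [mul_assoc]
    rw [add_mul, mul_add, mul_add, f1, f2, f3, f4]
    abel
  rw [e1, mul_inv_cancel₀ ha, mul_inv_cancel₀ he, mul_one, mul_one, ← hpc q]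
  have e2 : p * p + q * q = 1 - (p * q + p * q) := by
    have : (p + q) * (p + q) = 1 := by rw [hadd, one_mul]
    rw [← this, add_mul, mul_add, mul_add, ← hpc q]
    abel
  have e3 : p * p + p * q * (a * e⁻¹) + p * q * (e * a⁻¹) + q * q =
      (p * p + q * q) + p * q * (a * e⁻¹ + e * a⁻¹) := by
    rw [mul_add]
    abel
  rw [e3, e2, hPQ, smul_mul_assoc, one_mul, smul_sub, smul_add]
  have e4 : ((4 : k)⁻¹ * (1 - c ^ 2 * d)) • (2 : D) = ((4 : k)⁻¹ * (1 - c ^ 2 * d)) • (1 : D) +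
      ((4 : k)⁻¹ * (1 - c ^ 2 * d)) • (1 : D) := by
    rw [← smul_add]
    norm_num
  rw [e4]
  abel

/-- The basic estimate. -/
theorem est {C : ℝ} (hC : 1 ≤ C) (hm : ∀ x y, na B A (x * y) ≤ C * na B A x * na B A y)
    (hσ : ∀ x, σ * x = x * σ) (hd : d ≠ 0) (hσσ : σ * σ = algebraMap k D d) (h2 : (2 : k) ≠ 0) :
    ∃ K0 : ℝ, 0 < K0 ∧ ∀ e a : D, e ≠ 0 → a ≠ 0 → a * e = e * a → ∀ ρ : ℝ, 0 < ρ →
      ∃ η : ℝ, 0 < η ∧ ∀ c : k, A (c ^ 2 * d - 1) < η → P σ c * a + Q σ c * e ≠ 0 ∧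
        na B A (P σ c * (1 - a) * (P σ c * a + Q σ c * e)⁻¹) ≤
          K0 * na B A ((1 - a) * a⁻¹) + ρ := by
  have h1 : 0 < na B A (1 : D) := na_pos B A one_ne_zero
  have hC0 : 0 < C := by linarith
  have hAd : 0 < A d := A.pos hd
  set Mc : ℝ := 1 + 2 / A d with hMc
  have hMc0 : 0 < Mc := by positivity
  set K1 : ℝ := A (2 : k)⁻¹ * (1 + Mc * (C * na B A σ)) + A (4 : k)⁻¹ with hK1
  have hA2 : 0 < A (2 : k)⁻¹ := A.pos (inv_ne_zero h2)
  have h4 : (4 : k) ≠ 0 := by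
    have : (4 : k) = 2 * 2 := by norm_num
    rw [this]
    exact mul_ne_zero h2 h2
  have hA4 : 0 < A (4 : k)⁻¹ := A.pos (inv_ne_zero h4)
  have hσn := na_nonneg B A σ
  have hK10 : 0 < K1 := by positivity
  -- bound for `P ^ 2`
  have hP2 : ∀ (c : k) (y : D), A (c ^ 2 * d - 1) < 1 →
      na B A (P σ c * P σ c * y) ≤ K1 * na B A y := by
    intro c y hc
    have hPP : P σ c * P σ c = P σ c - ((4 : k)⁻¹ * (1 - c ^ 2 * d)) • (1 : D) := by
      rw [← P_mul_Q hσσ c, ← mul_one_sub, sub_eq_of_eq_add (P_add_Q h2 c).symm]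
    have hAc : A c ≤ Mc := by
      have h5 : A (c ^ 2 * d) ≤ 2 := by
        have := A.add_le (c ^ 2 * d - 1) 1
        rw [sub_add_cancel, map_one] at this
        linarith
      rw [map_mul, map_pow, ← le_div_iff₀ hAd] at h5
      have h6 : A c ≤ 1 + A c ^ 2 := by nlinarith [sq_nonneg (A c - 1), AbsoluteValue.nonneg A c]
      rw [hMc]
      linarith
    have hsub : A (1 - c ^ 2 * d) ≤ 1 := by
      rw [AbsoluteValue.map_sub]
      exact hc.le
    rw [hPP, sub_mul, smul_mul_assoc, one_mul]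
    refine (na_sub_le B A _ _).trans ?_
    have h7 : na B A (P σ c * y) ≤ A (2 : k)⁻¹ * (1 + Mc * (C * na B A σ)) * na B A y := by
      rw [P, smul_mul_assoc, na_smul, sub_mul, one_mul, smul_mul_assoc, mul_assoc]
      refine mul_le_mul_of_nonneg_left ?_ hA2.le
      refine (na_sub_le B A _ _).trans ?_
      rw [na_smul, add_mul, one_mul]
      refine add_le_add le_rfl ?_
      rw [mul_assoc]
      refine mul_le_mul hAc (hm σ y) (na_nonneg _ _ _) hMc0.le
    have h8 : na B A (((4 : k)⁻¹ * (1 - c ^ 2 * d)) • y) ≤ A (4 : k)⁻¹ * na B A y := by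
      rw [na_smul, map_mul]
      refine mul_le_mul_of_nonneg_right ?_ (na_nonneg _ _ _)
      exact mul_le_of_le_one_right hA4.le hsub
    rw [hK1, add_mul]
    exact add_le_add h7 h8
  refine ⟨2 * C * na B A (1 : D) * K1, by positivity, fun e a he ha hae ρ hρ => ?_⟩
  -- the size of the error terms
  set E1 : ℝ := na B A (a * e⁻¹ + e * a⁻¹ - 2) with hE1
  set E2 : ℝ := na B A ((1 - a) * e⁻¹) with hE2
  have hE10 : 0 ≤ E1 := na_nonneg _ _ _
  have hE20 : 0 ≤ E2 := na_nonneg _ _ _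
  refine ⟨min 1 (min (1 / (2 * C * (A (4 : k)⁻¹ * (E1 + 1))))
    (ρ / (2 * C * na B A (1 : D) * (A (4 : k)⁻¹ * (E2 + 1))))), by positivity, fun c hc => ?_⟩
  have hc1 : A (c ^ 2 * d - 1) < 1 := hc.trans_le (min_le_left _ _)
  have hc2 : A (c ^ 2 * d - 1) < 1 / (2 * C * (A (4 : k)⁻¹ * (E1 + 1))) :=
    hc.trans_le ((min_le_right _ _).trans (min_le_left _ _))
  have hc3 : A (c ^ 2 * d - 1) < ρ / (2 * C * na B A (1 : D) * (A (4 : k)⁻¹ * (E2 + 1))) :=
    hc.trans_le ((min_le_right _ _).trans (min_le_right _ _))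
  have hsub : A (1 - c ^ 2 * d) = A (c ^ 2 * d - 1) := AbsoluteValue.map_sub _ _ _
  have hXY := XY hσ hσσ h2 he ha c
  set X := P σ c * a + Q σ c * e with hX
  set Y := P σ c * a⁻¹ + Q σ c * e⁻¹ with hY
  have hk : C * na B A (X * Y - 1) ≤ 1 / 2 := by
    rw [hXY, add_sub_cancel_left, na_smul, map_mul, hsub, ← hE1]
    rw [lt_div_iff₀ (by positivity)] at hc2
    have h5 : C * (A (4 : k)⁻¹ * A (c ^ 2 * d - 1) * E1) ≤
        C * (A (4 : k)⁻¹ * A (c ^ 2 * d - 1) * (E1 + 1)) := by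
      have h6 := AbsoluteValue.nonneg A (c ^ 2 * d - 1)
      refine mul_le_mul_of_nonneg_left ?_ hC0.le
      exact mul_le_mul_of_nonneg_left (by linarith) (by positivity)
    refine h5.trans ?_
    nlinarith [hc2]
  obtain ⟨hXY0, hinv⟩ := inv_bound B A hm hk
  have hX0 : X ≠ 0 := left_ne_zero_of_mul hXY0
  refine ⟨hX0, ?_⟩
  have hXi : X⁻¹ = Y * (X * Y)⁻¹ := by
    rw [mul_inv_rev, ← mul_assoc, mul_inv_cancel₀ (right_ne_zero_of_mul hXY0), one_mul]
  have hV : P σ c * (1 - a) * X⁻¹ = (P σ c * P σ c * ((1 - a) * a⁻¹) +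
      ((4 : k)⁻¹ * (1 - c ^ 2 * d)) • ((1 - a) * e⁻¹)) * (X * Y)⁻¹ := by
    rw [hXi, ← mul_assoc]
    congr 1
    rw [hY, mul_add]
    have f1 : P σ c * (1 - a) * (P σ c * a⁻¹) = P σ c * P σ c * ((1 - a) * a⁻¹) := by
      rw [mul_assoc (P σ c) (1 - a), ← mul_assoc (1 - a) (P σ c), ← P_comm hσ c (1 - a)]
      simp only [mul_assoc]
    have f2 : P σ c * (1 - a) * (Q σ c * e⁻¹) = P σ c * Q σ c * ((1 - a) * e⁻¹) := by
      rw [mul_assoc (P σ c) (1 - a), ← mul_assoc (1 - a) (Q σ c), ← Q_comm hσ c (1 - a)]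
      simp only [mul_assoc]
    rw [f1, f2, P_mul_Q hσσ c, smul_mul_assoc, one_mul]
  rw [hV]
  refine (hm _ _).trans ?_
  have h5 : na B A (P σ c * P σ c * ((1 - a) * a⁻¹) +
      ((4 : k)⁻¹ * (1 - c ^ 2 * d)) • ((1 - a) * e⁻¹)) ≤
      K1 * na B A ((1 - a) * a⁻¹) + A (4 : k)⁻¹ * A (c ^ 2 * d - 1) * (E2 + 1) := by
    refine (na_add_le B A _ _).trans (add_le_add (hP2 c _ hc1) ?_)
    rw [na_smul, map_mul, hsub, ← hE2]
    have h6 := AbsoluteValue.nonneg A (c ^ 2 * d - 1)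
    exact mul_le_mul_of_nonneg_left (by linarith) (by positivity)
  have h6 : 0 ≤ K1 * na B A ((1 - a) * a⁻¹) + A (4 : k)⁻¹ * A (c ^ 2 * d - 1) * (E2 + 1) :=
    (na_nonneg _ _ _).trans h5
  calc C * na B A (P σ c * P σ c * ((1 - a) * a⁻¹) +
        ((4 : k)⁻¹ * (1 - c ^ 2 * d)) • ((1 - a) * e⁻¹)) * na B A (X * Y)⁻¹
      ≤ C * (K1 * na B A ((1 - a) * a⁻¹) + A (4 : k)⁻¹ * A (c ^ 2 * d - 1) * (E2 + 1)) *
        (2 * na B A (1 : D)) := by
        refine mul_le_mul (mul_le_mul_of_nonneg_left h5 hC0.le) hinv (na_nonneg _ _ _) ?_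
        positivity
    _ = 2 * C * na B A (1 : D) * K1 * na B A ((1 - a) * a⁻¹) +
        A (c ^ 2 * d - 1) * (2 * C * na B A (1 : D) * (A (4 : k)⁻¹ * (E2 + 1))) := by ring
    _ ≤ _ := by
        refine add_le_add le_rfl ?_
        rw [lt_div_iff₀ (by positivity)] at hc3
        exact hc3.le

variable [StarRing D]

/-- One place: the choice of the radius. -/
theorem one_place (hst : ∀ (c : k) (x : D), star (c • x) = c • star x)
    (hσ : ∀ x, σ * x = x * σ) (hd : d ≠ 0) (hσσ : σ * σ = algebraMap k D d) (h2 : (2 : k) ≠ 0)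
    {g0 : D} (hg0 : g0 * star g0 = 1) {ε : ℝ} (hε : 0 < ε) :
    ∃ δ : ℝ, 0 < δ ∧ ∀ h e : D, e ≠ 0 → star h * h ≠ 0 → star h * h * e = e * (star h * h) →
      na B A (h - g0) < δ → na B A (h - g0) < ε / 2 ∧ ∃ η : ℝ, 0 < η ∧ ∀ c : k,
        A (c ^ 2 * d - 1) < η → P σ c * (star h * h) + Q σ c * e ≠ 0 ∧
        na B A (h * (P σ c * (1 - star h * h) * (P σ c * (star h * h) + Q σ c * e)⁻¹)) < ε / 2 := by
  obtain ⟨C, hC, hm, hs⟩ := na_const B A hst
  have hC0 : 0 < C := by linarith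
  obtain ⟨K0, hK0, hest⟩ := est B A hC hm hσ hd hσσ h2
  have h1 : 0 < na B A (1 : D) := na_pos B A one_ne_zero
  have hgn := na_nonneg B A g0
  have hg1 : star g0 * g0 = 1 := mul_eq_one_comm.mp hg0
  set K2 : ℝ := C ^ 2 * (2 * na B A g0 + 1) with hK2
  have hK20 : 0 < K2 := by positivity
  set M : ℝ := C * (na B A g0 + 1) with hM
  have hM0 : 0 < M := by positivity
  set K3 : ℝ := M * (K0 * (C * K2 * (2 * na B A (1 : D)))) with hK3
  have hK30 : 0 < K3 := by positivity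
  refine ⟨min (min 1 (ε / 2)) (min (1 / (2 * (C * K2))) (ε / (4 * K3))), by positivity,
    fun h e he ha hae hn => ?_⟩
  have hn1 : na B A (h - g0) < 1 := hn.trans_le ((min_le_left _ _).trans (min_le_left _ _))
  have hn2 : na B A (h - g0) < ε / 2 := hn.trans_le ((min_le_left _ _).trans (min_le_right _ _))
  have hn3 : na B A (h - g0) < 1 / (2 * (C * K2)) :=
    hn.trans_le ((min_le_right _ _).trans (min_le_left _ _))
  have hn4 : na B A (h - g0) < ε / (4 * K3) :=
    hn.trans_le ((min_le_right _ _).trans (min_le_right _ _))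
  refine ⟨hn2, ?_⟩
  have hnn := na_nonneg B A (h - g0)
  have hh : na B A h ≤ na B A g0 + 1 := by
    have e1 : h = (h - g0) + g0 := by abel
    have := na_add_le B A (h - g0) g0
    rw [← e1] at this
    linarith
  -- `1 - a` is small
  have ha1 : na B A (1 - star h * h) ≤ K2 * na B A (h - g0) := by
    have e1 : 1 - star h * h = -(star g0 * (h - g0) + star (h - g0) * h) := by
      rw [← hg1, star_sub, sub_mul, mul_sub]
      abel
    rw [e1, na_neg]
    refine (na_add_le B A _ _).trans ?_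
    have f1 : na B A (star g0 * (h - g0)) ≤ C * (C * na B A g0) * na B A (h - g0) :=
      (hm _ _).trans (mul_le_mul_of_nonneg_right (mul_le_mul_of_nonneg_left (hs _) hC0.le) hnn)
    have f2 : na B A (star (h - g0) * h) ≤ C * (C * na B A (h - g0)) * (na B A g0 + 1) :=
      (hm _ _).trans (mul_le_mul (mul_le_mul_of_nonneg_left (hs _) hC0.le) hh (na_nonneg _ _ _)
        (by positivity))
    refine (add_le_add f1 f2).trans (le_of_eq ?_)
    rw [hK2]
    ring
  have ha2 : C * na B A (star h * h - 1) ≤ 1 / 2 := by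
    rw [na_sub_comm]
    rw [lt_div_iff₀ (by positivity)] at hn3
    have := mul_le_mul_of_nonneg_left ha1 hC0.le
    nlinarith
  obtain ⟨-, hinv⟩ := inv_bound B A hm ha2
  have ha3 : na B A ((1 - star h * h) * (star h * h)⁻¹) ≤
      C * K2 * (2 * na B A (1 : D)) * na B A (h - g0) := by
    refine (hm _ _).trans ?_
    calc C * na B A (1 - star h * h) * na B A (star h * h)⁻¹
        ≤ C * (K2 * na B A (h - g0)) * (2 * na B A (1 : D)) :=
          mul_le_mul (mul_le_mul_of_nonneg_left ha1 hC0.le) hinv (na_nonneg _ _ _) (by positivity)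
      _ = _ := by ring
  obtain ⟨η, hη, hη2⟩ := hest e (star h * h) he ha hae (ε / (4 * M)) (by positivity)
  refine ⟨η, hη, fun c hc => ?_⟩
  obtain ⟨hX, hV⟩ := hη2 c hc
  refine ⟨hX, ?_⟩
  have hbound : na B A (h * (P σ c * (1 - star h * h) *
      (P σ c * (star h * h) + Q σ c * e)⁻¹)) ≤ M * (K0 * (C * K2 * (2 * na B A (1 : D)) *
        na B A (h - g0)) + ε / (4 * M)) := by
    refine (hm _ _).trans ?_
    refine mul_le_mul ?_ (hV.trans (add_le_add (mul_le_mul_of_nonneg_left ha3 hK0.le) le_rfl))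
      (na_nonneg _ _ _) hM0.le
    rw [hM]
    exact mul_le_mul_of_nonneg_left hh hC0.le
  have e5 : M * (K0 * (C * K2 * (2 * na B A (1 : D)) * na B A (h - g0)) + ε / (4 * M)) =
      K3 * na B A (h - g0) + ε / 4 := by
    rw [hK3]
    field_simp
  rw [e5] at hbound
  rw [lt_div_iff₀ (by positivity)] at hn4
  linarith

end one

section main

variable {k D : Type} [Field k] [DivisionRing D] [StarRing D] [Algebra k D] {N : ℕ}
  (B : Basis (Fin N) k D) {σ : D} {d : k}

/-- **Explicit Hilbert 90**, abstract form: a finite family of absolute values for which `d` is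
simultaneously almost a square. -/
theorem adjA_abs {ι : Type} [Finite ι] (A : ι → AbsoluteValue k ℝ)
    (hst : ∀ (c : k) (x : D), star (c • x) = c • star x) (hσ : ∀ x, σ * x = x * σ)
    (hσs : star σ = -σ) (hd : d ≠ 0) (hσσ : σ * σ = algebraMap k D d) (h2 : (2 : k) ≠ 0)
    (hsq : ∀ η : ℝ, 0 < η → ∃ c : k, ∀ i, A i (c ^ 2 * d - 1) < η)
    {g0 : D} (hg0 : g0 * star g0 = 1) {ε : ℝ} (hε : 0 < ε) :
    ∃ δ : ℝ, 0 < δ ∧ ∀ w w' u h : D, w * star w = 1 →
      (∀ x y : D, x * w = w * x → y * w = w * y → x * y = y * x) → u * star u = 1 →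
      w' * u = u * w → h ≠ 0 → w' * h = h * w → (∀ i, na B (A i) (h - g0) < δ) →
      ∃ u' : D, u' * star u' = 1 ∧ w' * u' = u' * w ∧ ∀ i, na B (A i) (u' - g0) < ε := by
  rcases isEmpty_or_nonempty ι with hι | hι
  · exact ⟨1, one_pos, fun w w' u h _ _ hu hwu _ _ _ => ⟨u, hu, hwu, fun i => (hι.false i).elim⟩⟩
  choose δ hδ hδ2 using fun i => one_place B (A i) hst hσ hd hσσ h2 hg0 hε
  obtain ⟨i0, hi0⟩ := Finite.exists_min δ
  refine ⟨δ i0, hδ i0, fun w w' u h hw hcomm hu hwu hh hwh hnear => ?_⟩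
  have hu0 : u ≠ 0 := by
    rintro rfl
    rw [zero_mul] at hu
    exact zero_ne_one hu
  have hw0 : w ≠ 0 := by
    rintro rfl
    rw [zero_mul] at hw
    exact zero_ne_one hw
  have hui : u⁻¹ = star u := inv_eq_of_mul_eq_one_right hu
  have hwi : w⁻¹ = star w := inv_eq_of_mul_eq_one_right hw
  obtain ⟨e, he⟩ : ∃ e, e = u⁻¹ * h := ⟨_, rfl⟩
  have hue : h = u * e := by rw [he, ← mul_assoc, mul_inv_cancel₀ hu0, one_mul]
  have he0 : e ≠ 0 := by
    rw [he]
    exact mul_ne_zero (inv_ne_zero hu0) hh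
  have hew : e * w = w * e := by
    apply mul_left_cancel₀ hu0
    rw [← mul_assoc, ← hue, ← mul_assoc, ← hwu, mul_assoc, ← hue, hwh]
  have hesw : star e * w = w * star e := by
    have h3 := congrArg star hew
    rw [star_mul, star_mul, ← hwi] at h3
    calc star e * w = w * (w⁻¹ * star e) * w := by
          rw [← mul_assoc w, mul_inv_cancel₀ hw0, one_mul]
      _ = w * (star e * w⁻¹) * w := by rw [h3]
      _ = w * star e := by rw [mul_assoc, mul_assoc, inv_mul_cancel₀ hw0, mul_one]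
  have hees : e * star e = star e * e := hcomm e (star e) hew hesw
  have ha : star h * h = star e * e := by
    rw [hue, star_mul, mul_assoc, ← mul_assoc (star u), mul_eq_one_comm.mp hu, one_mul]
  have ha0 : star h * h ≠ 0 := mul_ne_zero (star_ne_zero.mpr hh) hh
  have hae : star h * h * e = e * (star h * h) := by
    rw [ha, ← mul_assoc, hees]
  choose hd1 η hη hη2 using fun i => hδ2 i h e he0 ha0 hae ((hnear i).trans_le (hi0 i))
  obtain ⟨i1, hi1⟩ := Finite.exists_min η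
  obtain ⟨c, hc⟩ := hsq (η i1) (hη i1)
  have hall : ∀ i, P σ c * (star h * h) + Q σ c * e ≠ 0 ∧
      na B (A i) (h * (P σ c * (1 - star h * h) *
        (P σ c * (star h * h) + Q σ c * e)⁻¹)) < ε / 2 := fun i =>
    hη2 i c ((hc i).trans_le (hi1 i))
  have hadd := P_add_Q (σ := σ) h2 c
  have hPs : star (P σ c) = Q σ c := by
    rw [P, Q, hst, star_sub, star_one, hst, hσs, smul_neg, sub_neg_eq_add]
  have hQs : star (Q σ c) = P σ c := by rw [← hPs, star_star]
  obtain ⟨p, hp⟩ : ∃ p, p = P σ c := ⟨_, rfl⟩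
  obtain ⟨q, hq⟩ : ∃ q, q = Q σ c := ⟨_, rfl⟩
  rw [← hp, ← hq] at hall hadd hPs
  rw [← hp, ← hq] at hQs
  have hpc : ∀ x, p * x = x * p := by rw [hp]; exact P_comm hσ c
  have hqc : ∀ x, q * x = x * q := by rw [hq]; exact Q_comm hσ c
  obtain ⟨z, hz⟩ : ∃ z, z = q * e + p := ⟨_, rfl⟩
  have hzs : star z = p * star e + q := by
    rw [hz, star_add, star_mul, hQs, hPs, ← hpc]
  have hez : e * star z = p * (star h * h) + q * e := by
    rw [hzs, mul_add, ← mul_assoc, ← hpc e, mul_assoc, hees, ← ha, ← hqc e]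
  have hi : Nonempty ι := hι
  obtain ⟨j⟩ := hi
  have hX0 := (hall j).1
  have hzs0 : star z ≠ 0 := by
    intro h3
    rw [← hez, h3, mul_zero] at hX0
    exact hX0 rfl
  have hz0 : z ≠ 0 := star_ne_zero.mp hzs0
  have hzw : z * w = w * z := by
    rw [hz, add_mul, mul_add, mul_assoc, hew, ← mul_assoc, hqc w, mul_assoc, hpc w]
  have hzsw : star z * w = w * star z := by
    rw [hzs, add_mul, mul_add, mul_assoc, hesw, ← mul_assoc, hpc w, mul_assoc, hqc w]
  have hzz : z * star z = star z * z := hcomm z (star z) hzw hzsw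
  obtain ⟨t, ht⟩ : ∃ t, t = z * (star z)⁻¹ := ⟨_, rfl⟩
  have htt : t * star t = 1 := by
    rw [ht, star_mul, star_inv₀, star_star, mul_assoc, ← mul_assoc (star z)⁻¹]
    have h3 : (star z)⁻¹ * z⁻¹ = z⁻¹ * (star z)⁻¹ := by
      rw [← mul_inv_rev, ← mul_inv_rev, hzz]
    rw [h3, mul_assoc, inv_mul_cancel₀ hzs0, mul_one, mul_inv_cancel₀ hz0]
  have htw : t * w = w * t := by
    have h3 : (star z)⁻¹ * w = w * (star z)⁻¹ := by
      apply mul_left_cancel₀ hzs0
      rw [← mul_assoc, mul_inv_cancel₀ hzs0, one_mul, ← mul_assoc, hzsw, mul_assoc,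
        mul_inv_cancel₀ hzs0, mul_one]
    rw [ht, mul_assoc, h3, ← mul_assoc, hzw, mul_assoc]
  refine ⟨u * t, ?_, ?_, fun i => ?_⟩
  · rw [star_mul, mul_assoc, ← mul_assoc t, htt, one_mul, hu]
  · rw [← mul_assoc, hwu, mul_assoc, mul_assoc, htw]
  · have e1 : z - e * star z = p * (1 - star h * h) := by
      rw [hez, hz, mul_sub, mul_one]
      abel
    have e2 : u * t - h = h * (p * (1 - star h * h) *
        (p * (star h * h) + q * e)⁻¹) := by
      have e3 : u * t - h = u * (z - e * star z) * (star z)⁻¹ := by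
        rw [ht, hue, mul_sub, sub_mul, mul_assoc u z, mul_assoc u (e * star z),
          mul_assoc e, mul_inv_cancel₀ hzs0, mul_one]
      have e4 : u = h * e⁻¹ := by rw [hue, mul_assoc, mul_inv_cancel₀ he0, mul_one]
      have e5 : e⁻¹ * (p * (1 - star h * h)) = p * (1 - star h * h) * e⁻¹ := by
        have f1 : e * (p * (1 - star h * h)) = p * (1 - star h * h) * e := by
          rw [← mul_assoc, ← hpc e, mul_assoc, mul_assoc, mul_sub, sub_mul, mul_one, one_mul, hae]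
        apply mul_left_cancel₀ he0
        rw [← mul_assoc, mul_inv_cancel₀ he0, one_mul, ← mul_assoc, f1, mul_assoc,
          mul_inv_cancel₀ he0, mul_one]
      rw [e3, e1, ← hez, mul_inv_rev, e4]
      rw [mul_assoc h, e5]
      have e6 : (star z)⁻¹ * e⁻¹ = e⁻¹ * (star z)⁻¹ := by
        have f2 : e * star z = star z * e := hcomm e (star z) hew hzsw
        rw [← mul_inv_rev, ← mul_inv_rev, f2]
      rw [e6, mul_assoc, mul_assoc]
    have e8 : u * t - g0 = (u * t - h) + (h - g0) := by abel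
    rw [e8, e2]
    refine (na_add_le B (A i) _ _).trans_lt ?_
    have := (hall i).2
    have := hd1 i
    linarith

end main

end Vale.Agent.P011.H73.AdjA
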