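import Mathlib

/-!
# Albert: involutions of the second kind descend to the division algebra

If `M_m(Δ)` has an involution which is semilinear over a nontrivial involution of a central field
`L`, then so has the division ring `Δ`.
-/

namespace Vale.Agent.P011.H73.Albert

open Matrix

variable {L Δ : Type} [Field L] [StarRing L] [DivisionRing Δ] [Algebra L Δ] {m : ℕ}

/-- A matrix with `e z e = z` for `e = E_ii`. -/
theorem eq_single {i : Fin m} {z : Matrix (Fin m) (Fin m) Δ}
    (h1 : single i i (1 : Δ) * z = z) (h2 : z * single i i (1 : Δ) = z) :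
    z = single i i (z i i) := by
  have h := h1
  rw [← h2, ← mul_assoc, single_mul_mul_single, one_mul, mul_one] at h
  rw [h2] at h
  exact h.symm

theorem idem_eq {i : Fin m} {z : Matrix (Fin m) (Fin m) Δ}
    (h1 : single i i (1 : Δ) * z = z) (h2 : z * single i i (1 : Δ) = z) (h3 : z * z = z)
    (h0 : z ≠ 0) : z = single i i (1 : Δ) := by
  have h := eq_single h1 h2
  rw [h, single_mul_single_same] at h3
  have h4 : z i i * z i i = z i i := by
    have := congrFun (congrFun h3 i) i
    simpa using this
  have h5 : z i i ≠ 0 := by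
    intro h6
    apply h0
    rw [h, h6, single_zero]
  have h7 : z i i = 1 := by
    have := mul_left_cancel₀ h5 (h4.trans (mul_one (z i i)).symm)
    exact this
  rw [h, h7]

/-- **Albert.** -/
theorem albert (hne : ∃ x : L, star x ≠ x) (hm : 0 < m)
    (τ : Matrix (Fin m) (Fin m) Δ → Matrix (Fin m) (Fin m) Δ)
    (hadd : ∀ x y, τ (x + y) = τ x + τ y) (hmul : ∀ x y, τ (x * y) = τ y * τ x)
    (hinv : ∀ x, τ (τ x) = x) (hsmul : ∀ (c : L) x, τ (c • x) = star c • τ x) :
    ∃ t : Δ → Δ, (∀ x y, t (x + y) = t x + t y) ∧ (∀ x y, t (x * y) = t y * t x) ∧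
      (∀ x, t (t x) = x) ∧ ∀ (c : L) x, t (c • x) = star c • t x := by
  classical
  obtain ⟨i⟩ : Nonempty (Fin m) := ⟨⟨0, hm⟩⟩
  obtain ⟨a, ha⟩ := hne
  have hτ0 : τ 0 = 0 := by
    have h := hadd 0 0
    rw [add_zero] at h
    exact left_eq_add.mp h
  obtain ⟨e, he⟩ : ∃ e : Matrix (Fin m) (Fin m) Δ, e = single i i 1 := ⟨_, rfl⟩
  have hee : e * e = e := by rw [he, single_mul_single_same, one_mul]
  have he0 : e ≠ 0 := by
    intro h
    have := congrFun (congrFun h i) i
    rw [he] at this
    simp at this
  have hτe0 : τ e ≠ 0 := by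
    intro h
    apply he0
    rw [← hinv e, h, hτ0]
  -- the decomposition of one
  have hone : (1 : Matrix (Fin m) (Fin m) Δ) =
      ∑ j, single j i (1 : Δ) * e * single i j (1 : Δ) := by
    rw [he]
    ext p q
    rw [Matrix.sum_apply]
    simp only [single_mul_single_same, mul_one]
    simp only [single_apply, one_apply]
    by_cases hpq : p = q
    · subst hpq
      simp
    · rw [if_neg hpq]
      symm
      apply Finset.sum_eq_zero
      intro j _
      rw [if_neg]
      rintro ⟨rfl, rfl⟩
      exact hpq rfl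
  -- an anisotropic element
  obtain ⟨x, hx, hx0⟩ : ∃ x, x * e = x ∧ τ x * x ≠ 0 := by
    by_contra hcon
    push Not at hcon
    have hz : ∀ x y, x * e = x → y * e = y → τ x * y = 0 := by
      intro x y hx hy
      have h1 : ∀ x y, x * e = x → y * e = y → τ x * y + τ y * x = 0 := by
        intro x y hx hy
        have h2 := hcon (x + y) (by rw [add_mul, hx, hy])
        rw [hadd, add_mul, mul_add, mul_add, hcon x hx, hcon y hy, zero_add, add_zero] at h2
        exact h2
      have h3 := h1 x y hx hy
      have h4 := h1 (a • x) y (by rw [smul_mul_assoc, hx]) hy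
      rw [hsmul, smul_mul_assoc, mul_smul_comm] at h4
      have h5 : τ y * x = -(τ x * y) := eq_neg_of_add_eq_zero_right h3
      rw [h5, smul_neg, ← sub_eq_add_neg, ← sub_smul] at h4
      exact (smul_eq_zero.mp h4).resolve_left (sub_ne_zero.mpr ha)
    apply hτe0
    rw [← mul_one (τ e), hone, Finset.mul_sum]
    apply Finset.sum_eq_zero
    intro j _
    rw [← mul_assoc, hz e _ hee (by rw [mul_assoc, hee]), zero_mul]
  obtain ⟨y, hy⟩ : ∃ y, y = τ x * x := ⟨_, rfl⟩
  rw [← hy] at hx0
  have hτex : τ e * τ x = τ x := by rw [← hmul, hx]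
  have hey : τ e * y = y := by rw [hy, ← mul_assoc, hτex]
  have hye : y * e = y := by rw [hy, mul_assoc, hx]
  have hτy : τ y = y := by rw [hy, hmul, hinv]
  -- a left inverse
  obtain ⟨c0, hc0⟩ : ∃ c0, c0 * y = e := by
    obtain ⟨j, hj⟩ : ∃ j, y j i ≠ 0 := by
      by_contra hcon
      push Not at hcon
      apply hx0
      rw [← hye, he]
      ext p q
      by_cases hq : q = i
      · subst hq
        rw [mul_single_apply_same, hcon p, zero_mul]
        rfl
      · exact mul_single_apply_of_ne _ _ _ _ _ hq _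
    refine ⟨single i j (y j i)⁻¹, ?_⟩
    rw [he]
    ext p q
    by_cases hp : p = i
    · subst hp
      rw [single_mul_apply_same]
      by_cases hq : q = p
      · subst hq
        rw [inv_mul_cancel₀ hj]
        simp
      · have h0 : y j q = 0 := by
          rw [← hye, he, mul_single_apply_of_ne]
          exact hq
        rw [h0, mul_zero, single_apply_of_ne]
        rintro ⟨_, h⟩
        exact hq h.symm
    · rw [single_mul_apply_of_ne _ _ _ _ _ hp, single_apply_of_ne]
      rintro ⟨h, _⟩
      exact hp h.symm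
  obtain ⟨c, hc⟩ : ∃ c, c = e * c0 * τ e := ⟨_, rfl⟩
  have hτee : τ e * τ e = τ e := by rw [← hmul, hee]
  have hec : e * c = c := by rw [hc, ← mul_assoc, ← mul_assoc, hee]
  have hce : c * τ e = c := by rw [hc, mul_assoc, hτee]
  have hcy : c * y = e := by rw [hc, mul_assoc, hey, mul_assoc, hc0, hee]
  have hyc : y * c = τ e := by
    have h1 : τ (y * c) = single i i (1 : Δ) := by
      apply idem_eq
      · rw [← he]
        have h : (y * c) * τ e = y * c := by rw [mul_assoc, hce]
        have h2 := congrArg τ h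
        rwa [hmul, hinv] at h2
      · rw [← he]
        have h : τ e * (y * c) = y * c := by rw [← mul_assoc, hey]
        have h2 := congrArg τ h
        rwa [hmul, hinv] at h2
      · rw [← hmul, mul_assoc, ← mul_assoc c y c, hcy, hec]
      · intro h
        have h2 : y * c = 0 := by rw [← hinv (y * c), h, hτ0]
        apply hx0
        rw [← hye, ← hcy, ← mul_assoc, h2, zero_mul]
    rw [← hinv (y * c), h1, he]
  have hτc : τ c = c := by
    have h1 : y * τ c = τ e := by
      have h := congrArg τ hcy
      rwa [hmul, hτy] at h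
    have h2 : e * τ c = τ c := by
      have h := congrArg τ hce
      rwa [hmul, hinv] at h
    calc τ c = e * τ c := h2.symm
      _ = c * y * τ c := by rw [hcy]
      _ = c * (y * τ c) := mul_assoc _ _ _
      _ = c * τ e := by rw [h1]
      _ = c := hce
  -- the involution
  obtain ⟨E, hE⟩ : ∃ E : Δ → Matrix (Fin m) (Fin m) Δ, E = fun δ => single i i δ := ⟨_, rfl⟩
  have hEapp : ∀ δ, E δ = single i i δ := fun δ => by rw [hE]
  have hEinj : Function.Injective E := by
    intro δ δ' h
    have := congrFun (congrFun h i) i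
    rw [hEapp, hEapp] at this
    simpa using this
  have hEadd : ∀ δ δ', E (δ + δ') = E δ + E δ' := fun δ δ' => by
    rw [hEapp, hEapp, hEapp, single_add]
  have hEmul : ∀ δ δ', E (δ * δ') = E δ * E δ' := fun δ δ' => by
    rw [hEapp, hEapp, hEapp, single_mul_single_same]
  have heE : ∀ δ, e * E δ = E δ := fun δ => by rw [he, hEapp, single_mul_single_same, one_mul]
  have hEe : ∀ δ, E δ * e = E δ := fun δ => by rw [he, hEapp, single_mul_single_same, mul_one]
  have hEsmul : ∀ (b : L) (δ : Δ), E (b • δ) = b • E δ := fun b δ => by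
    rw [hEapp, hEapp, smul_single]
  have hφ : ∀ δ, E ((c * τ (E δ) * y) i i) = c * τ (E δ) * y := by
    intro δ
    rw [hEapp]
    refine (eq_single ?_ ?_).symm
    · rw [← he, ← mul_assoc, ← mul_assoc, hec]
    · rw [← he, mul_assoc, hye]
  refine ⟨fun δ => (c * τ (E δ) * y) i i, ?_, ?_, ?_, ?_⟩
  · intro δ δ'
    change (c * τ (E (δ + δ')) * y) i i = (c * τ (E δ) * y) i i + (c * τ (E δ') * y) i i
    rw [hEadd, hadd, mul_add, add_mul]
    rfl
  · intro δ δ'
    apply hEinj
    rw [hEmul, hφ, hφ, hφ, hEmul, hmul]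
    calc c * (τ (E δ') * τ (E δ)) * y = c * (τ (E δ') * (τ e * τ (E δ))) * y := by
          rw [← hmul (E δ) e, hEe]
      _ = c * (τ (E δ') * ((y * c) * τ (E δ))) * y := by rw [hyc]
      _ = c * τ (E δ') * y * (c * τ (E δ) * y) := by simp only [mul_assoc]
  · intro δ
    apply hEinj
    rw [hφ]
    rw [hφ]
    rw [hmul, hmul, hinv, hτc, hτy]
    calc c * (y * (E δ * c)) * y = (c * y) * E δ * (c * y) := by simp only [mul_assoc]
      _ = E δ := by rw [hcy, heE, hEe]
  · intro b δ
    apply hEinj
    rw [hEsmul, hφ, hφ, hEsmul, hsmul, mul_smul_comm, smul_mul_assoc]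

end Vale.Agent.P011.H73.Albert
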