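import Vale.Agent.P011.H73.Core2

namespace Vale.Agent.P011.H73

open Finset

lemma exists_theta (C Bm M γ : ℝ) (hC : 0 < C) (hB : 0 ≤ Bm) (hM : 0 < M) (hγ : 0 < γ)
    (hγ1 : γ ≤ 1) :
    ∃ θ : ℝ, 0 < θ ∧ θ * C ≤ γ / 4 ∧ θ ^ 2 * Bm ≤ γ / 4 ∧ M * θ ^ 2 ≤ γ / 4 := by
  have hden : 0 < 4 * (C + Bm + M + 1) := by positivity
  refine ⟨γ / (4 * (C + Bm + M + 1)), by positivity, ?_, ?_, ?_⟩
  · rw [div_mul_eq_mul_div, div_le_div_iff₀ hden (by norm_num)]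
    nlinarith [mul_nonneg hγ.le hB, mul_pos hγ hM]
  · have h1 : γ / (4 * (C + Bm + M + 1)) ≤ 1 := by
      rw [div_le_one hden]; nlinarith
    have h2 : γ / (4 * (C + Bm + M + 1)) * Bm ≤ γ / 4 := by
      rw [div_mul_eq_mul_div, div_le_div_iff₀ hden (by norm_num)]
      nlinarith [mul_pos hγ hC, mul_pos hγ hM]
    have h3 : 0 ≤ γ / (4 * (C + Bm + M + 1)) * Bm := by positivity
    calc (γ / (4 * (C + Bm + M + 1))) ^ 2 * Bm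
        = (γ / (4 * (C + Bm + M + 1))) * (γ / (4 * (C + Bm + M + 1)) * Bm) := by ring
      _ ≤ 1 * (γ / (4 * (C + Bm + M + 1)) * Bm) := mul_le_mul_of_nonneg_right h1 h3
      _ ≤ γ / 4 := by rw [one_mul]; exact h2
  · have h1 : γ / (4 * (C + Bm + M + 1)) ≤ 1 := by
      rw [div_le_one hden]; nlinarith
    have h2 : γ / (4 * (C + Bm + M + 1)) * M ≤ γ / 4 := by
      rw [div_mul_eq_mul_div, div_le_div_iff₀ hden (by norm_num)]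
      nlinarith [mul_pos hγ hC, mul_nonneg hγ.le hB]
    have h3 : 0 ≤ γ / (4 * (C + Bm + M + 1)) * M := by positivity
    calc M * (γ / (4 * (C + Bm + M + 1))) ^ 2
        = (γ / (4 * (C + Bm + M + 1))) * (γ / (4 * (C + Bm + M + 1)) * M) := by ring
      _ ≤ 1 * (γ / (4 * (C + Bm + M + 1)) * M) := mul_le_mul_of_nonneg_right h1 h3
      _ ≤ γ / 4 := by rw [one_mul]; exact h2

lemma exists_IY (θ κ : ℝ) (hθ : 0 < θ) (hκ : 0 < κ) (I₀ : ℕ) :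
    ∃ X₀ : ℝ, 1 ≤ X₀ ∧ ∀ X : ℕ, X₀ ≤ X → ∃ I Y : ℕ, 0 < I ∧ 0 < Y ∧ I₀ ≤ I ∧
      (I : ℝ) ≤ θ * Real.sqrt X ∧ (I : ℝ) ^ 2 ≤ θ ^ 2 * X ∧ (Y : ℝ) ≤ κ * (I : ℝ) ^ 2 ∧
      κ * θ ^ 2 * X / 8 ≤ Y := by
  refine ⟨4 / θ ^ 2 + 8 / (κ * θ ^ 2) + 4 * (I₀ : ℝ) ^ 2 / θ ^ 2 + 1, ?_, ?_⟩
  · have : 0 ≤ 4 / θ ^ 2 + 8 / (κ * θ ^ 2) + 4 * (I₀ : ℝ) ^ 2 / θ ^ 2 := by positivity
    linarith
  intro X hX
  have hX1 : (1 : ℝ) ≤ X := by
    have : 0 ≤ 4 / θ ^ 2 + 8 / (κ * θ ^ 2) + 4 * (I₀ : ℝ) ^ 2 / θ ^ 2 := by positivity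
    linarith
  have hXr : (0 : ℝ) < X := by linarith
  have hX2 : 4 ≤ θ ^ 2 * X := by
    have h1 : 4 / θ ^ 2 ≤ X := by
      have : 0 ≤ 8 / (κ * θ ^ 2) + 4 * (I₀ : ℝ) ^ 2 / θ ^ 2 + 1 := by positivity
      linarith
    rw [div_le_iff₀ (by positivity)] at h1
    linarith
  have hX3 : 8 ≤ κ * θ ^ 2 * X := by
    have h1 : 8 / (κ * θ ^ 2) ≤ X := by
      have : 0 ≤ 4 / θ ^ 2 + 4 * (I₀ : ℝ) ^ 2 / θ ^ 2 + 1 := by positivity
      linarith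
    rw [div_le_iff₀ (by positivity)] at h1
    linarith
  have hX4 : 4 * (I₀ : ℝ) ^ 2 ≤ θ ^ 2 * X := by
    have h1 : 4 * (I₀ : ℝ) ^ 2 / θ ^ 2 ≤ X := by
      have : 0 ≤ 4 / θ ^ 2 + 8 / (κ * θ ^ 2) + 1 := by positivity
      linarith
    rw [div_le_iff₀ (by positivity)] at h1
    linarith
  set r : ℝ := Real.sqrt X with hr
  have hr0 : 0 < r := Real.sqrt_pos.2 hXr
  have hrr : r * r = X := Real.mul_self_sqrt hXr.le
  have hθrsq : (θ * r) ^ 2 = θ ^ 2 * X := by rw [← hrr]; ring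
  have hθr0 : 0 ≤ θ * r := by positivity
  have hθr : 2 ≤ θ * r := by
    apply le_of_sq_le_sq _ hθr0
    rw [hθrsq]; linarith
  have hI1 : ((⌊θ * r⌋₊ : ℕ) : ℝ) ≤ θ * r := Nat.floor_le (by positivity)
  have hI2 : θ * r < (⌊θ * r⌋₊ : ℕ) + 1 := Nat.lt_floor_add_one _
  generalize ⌊θ * r⌋₊ = I at hI1 hI2
  have hI3 : θ * r / 2 ≤ I := by linarith
  have hIr : (0 : ℝ) < I := by linarith
  have hIpos : 0 < I := by exact_mod_cast hIr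
  have hII : I₀ ≤ I := by
    have h2 : 2 * (I₀ : ℝ) ≤ θ * r := by
      apply le_of_sq_le_sq _ hθr0
      rw [hθrsq]; linarith
    have h3 : (I₀ : ℝ) ≤ I := by linarith
    exact_mod_cast h3
  have hIsq : θ ^ 2 * X / 4 ≤ (I : ℝ) ^ 2 := by
    have h1 : (θ * r / 2) ^ 2 ≤ (I : ℝ) ^ 2 := pow_le_pow_left₀ (by positivity) hI3 2
    have h2 : (θ * r / 2) ^ 2 = θ ^ 2 * X / 4 := by rw [div_pow, hθrsq]; norm_num
    linarith
  have hIsq2 : (I : ℝ) ^ 2 ≤ θ ^ 2 * X := by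
    rw [← hθrsq]; exact pow_le_pow_left₀ hIr.le hI1 2
  have hY1 : ((⌊κ * (I : ℝ) ^ 2⌋₊ : ℕ) : ℝ) ≤ κ * (I : ℝ) ^ 2 := Nat.floor_le (by positivity)
  have hY2 : κ * (I : ℝ) ^ 2 < (⌊κ * (I : ℝ) ^ 2⌋₊ : ℕ) + 1 := Nat.lt_floor_add_one _
  generalize ⌊κ * (I : ℝ) ^ 2⌋₊ = Y at hY1 hY2
  have hκI : κ * (θ ^ 2 * X / 4) ≤ κ * (I : ℝ) ^ 2 := mul_le_mul_of_nonneg_left hIsq hκ.le
  have hκe : κ * (θ ^ 2 * X / 4) = κ * θ ^ 2 * X / 4 := by ring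
  have hY3 : κ * θ ^ 2 * X / 8 ≤ Y := by linarith
  have hYr : (0 : ℝ) < Y := by linarith
  exact ⟨I, Y, hIpos, by exact_mod_cast hYr, hII, hI1, hIsq2, hY1, hY3⟩

lemma main_ineq {N J : ℕ} (hN : 0 < N) (hJ : 0 < J) (ε : ℝ) (hε : 0 < ε)
    (hJε : 4 * ((N : ℝ) - 1) ≤ (ε ^ 2 / 16) ^ 2 * J) (X U W d E Yr γ : ℝ) (hX : 0 < X)
    (hU0 : 0 ≤ U) (hW0 : 0 ≤ W)
    (hU : U ≤ X ^ N) (hW : W ≤ X ^ N) (hUc : ε * X ^ N ≤ U) (hd : ε ≤ d)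
    (hE : (N : ℝ) * E / Yr ≤ ε ^ 2 / 8) (hγ : γ = ε / (4 * N)) :
    Real.sqrt (J * U * ((4 * ((N : ℝ) - 1) + (ε ^ 2 / 16) ^ 2 * J) * W)) / J
      + ε ^ 2 / 8 * X ^ N + N * E / Yr * W < d * (U - N * (γ * X) * X ^ (N - 1)) := by
  have hNr : (0 : ℝ) < N := by exact_mod_cast hN
  have hJr : (0 : ℝ) < J := by exact_mod_cast hJ
  have hXN : (0 : ℝ) < X ^ N := by positivity
  have hDle : (4 * ((N : ℝ) - 1) + (ε ^ 2 / 16) ^ 2 * J) ≤ 2 * (ε ^ 2 / 16) ^ 2 * J := by linarith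
  have hD0 : 0 ≤ (4 * ((N : ℝ) - 1) + (ε ^ 2 / 16) ^ 2 * J) := by
    have : (1 : ℝ) ≤ N := by exact_mod_cast hN
    have h2 : 0 ≤ 4 * ((N : ℝ) - 1) := by linarith
    positivity
  have hsq : Real.sqrt (J * U * ((4 * ((N : ℝ) - 1) + (ε ^ 2 / 16) ^ 2 * J) * W))
      ≤ ε ^ 2 / 8 * X ^ N * J := by
    rw [Real.sqrt_le_left (by positivity)]
    have h1 : (J : ℝ) * U * ((4 * ((N : ℝ) - 1) + (ε ^ 2 / 16) ^ 2 * J) * W)
        ≤ J * X ^ N * ((2 * (ε ^ 2 / 16) ^ 2 * J) * X ^ N) := by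
      apply mul_le_mul
      · exact mul_le_mul_of_nonneg_left hU hJr.le
      · apply mul_le_mul hDle hW hW0 (by positivity)
      · exact mul_nonneg hD0 hW0
      · positivity
    refine h1.trans ?_
    have e1 : (J : ℝ) * X ^ N * ((2 * (ε ^ 2 / 16) ^ 2 * J) * X ^ N)
        = (ε ^ 4 / 128) * (X ^ N * J) ^ 2 := by ring
    have e2 : (ε ^ 2 / 8 * X ^ N * J) ^ 2 = (ε ^ 4 / 64) * (X ^ N * J) ^ 2 := by ring
    rw [e1, e2]
    apply mul_le_mul_of_nonneg_right _ (by positivity)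
    have : 0 < ε ^ 4 := by positivity
    linarith
  have h1 : Real.sqrt (J * U * ((4 * ((N : ℝ) - 1) + (ε ^ 2 / 16) ^ 2 * J) * W)) / J
      ≤ ε ^ 2 / 8 * X ^ N := by
    rw [div_le_iff₀ hJr]; exact hsq
  have h2 : (N : ℝ) * E / Yr * W ≤ ε ^ 2 / 8 * X ^ N :=
    (mul_le_mul_of_nonneg_right hE hW0).trans (mul_le_mul_of_nonneg_left hW (by positivity))
  have h3 : (N : ℝ) * (γ * X) * X ^ (N - 1) = ε / 4 * X ^ N := by
    have : X ^ N = X ^ (N - 1) * X := by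
      rw [← pow_succ]; congr 1; omega
    rw [this, hγ]; field_simp
  rw [h3]
  have h5 : 0 ≤ ε * X ^ N - ε / 4 * X ^ N := by
    have : 0 < ε * X ^ N := by positivity
    linarith
  have h4 : ε * (ε * X ^ N - ε / 4 * X ^ N) ≤ d * (U - ε / 4 * X ^ N) :=
    mul_le_mul hd (by linarith) h5 (hε.le.trans hd)
  have h6 : 0 < ε ^ 2 * X ^ N := by positivity
  have h7 : ε * (ε * X ^ N - ε / 4 * X ^ N) = 3 / 4 * (ε ^ 2 * X ^ N) := by ring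
  have h8 : ε ^ 2 / 8 * X ^ N = 1 / 8 * (ε ^ 2 * X ^ N) := by ring
  linarith

lemma size_ineq (X I r C θ γ Bm Q κ Y c a b y h : ℝ) (hX : 0 < X) (hrr : r * r = X) (hr : 0 ≤ r)
    (hθ : 0 ≤ θ) (hC : 0 ≤ C) (hBm : 0 ≤ Bm) (hκ : 0 ≤ κ) (hQ : 0 ≤ Q) (hh0 : 0 ≤ h)
    (hhI : h ≤ I) (hI1 : I ≤ θ * r) (hIsq2 : I ^ 2 ≤ θ ^ 2 * X) (hY1 : Y ≤ κ * I ^ 2)
    (hθC : θ * C ≤ γ / 4) (hθB : θ ^ 2 * Bm ≤ γ / 4) (hθQ : Q * κ * θ ^ 2 ≤ γ / 4)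
    (hc : |c| ≤ γ / 4 * X) (ha : |a| ≤ C * r) (hb : |b| ≤ Bm) (hy0 : 0 ≤ y) (hyY : y ≤ Y) :
    |c + (h * a + h ^ 2 * b) + Q * y| ≤ γ * X := by
  have t1 : |h * a| ≤ γ / 4 * X := by
    rw [abs_mul, abs_of_nonneg hh0]
    calc h * |a| ≤ (θ * r) * (C * r) :=
          mul_le_mul (hhI.trans hI1) ha (abs_nonneg _) (by positivity)
      _ = θ * C * (r * r) := by ring
      _ = θ * C * X := by rw [hrr]
      _ ≤ γ / 4 * X := mul_le_mul_of_nonneg_right hθC hX.le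
  have t2 : |h ^ 2 * b| ≤ γ / 4 * X := by
    rw [abs_mul, abs_of_nonneg (by positivity : (0 : ℝ) ≤ h ^ 2)]
    calc h ^ 2 * |b| ≤ (θ ^ 2 * X) * Bm :=
          mul_le_mul ((pow_le_pow_left₀ hh0 hhI 2).trans hIsq2) hb (abs_nonneg _) (by positivity)
      _ = θ ^ 2 * Bm * X := by ring
      _ ≤ γ / 4 * X := mul_le_mul_of_nonneg_right hθB hX.le
  have t3 : |Q * y| ≤ γ / 4 * X := by
    rw [abs_of_nonneg (by positivity)]
    calc Q * y ≤ Q * (κ * (θ ^ 2 * X)) :=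
          mul_le_mul_of_nonneg_left (hyY.trans (hY1.trans (mul_le_mul_of_nonneg_left hIsq2 hκ))) hQ
      _ = Q * κ * θ ^ 2 * X := by ring
      _ ≤ γ / 4 * X := mul_le_mul_of_nonneg_right hθQ hX.le
  calc |c + (h * a + h ^ 2 * b) + Q * y| ≤ |c| + (|h * a| + |h ^ 2 * b|) + |Q * y| :=
        (abs_add_le _ _).trans (add_le_add ((abs_add_le _ _).trans
          (add_le_add le_rfl (abs_add_le _ _))) le_rfl)
    _ ≤ γ * X := by linarith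

/-- CORE: linking of a dense set `U` to a dense set `W` of the standard cube which is stable on a
sufficiently fine partition (residues mod `Q`, pieces of diameter `≤ X/k`). -/
theorem core {N J : ℕ} (hN : 0 < N) (hJ : 0 < J) (B : Fin J → Fin N → ℤ) (hL : LinkL2 B)
    (ε : ℝ) (hε : 0 < ε) (hε1 : ε ≤ 1) (hJε : 4 * ((N : ℝ) - 1) ≤ (ε ^ 2 / 16) ^ 2 * J)
    (C : ℝ) (hC : 0 < C) :
    ∃ Q k : ℕ, 0 < Q ∧ 0 < k ∧ ∃ γ X₀ : ℝ, 0 < γ ∧ ∀ X : ℕ, X₀ ≤ X →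
      ∀ A c : Fin J → Fin N → ℤ, (∀ j l, |(A j l : ℝ)| ≤ C * Real.sqrt X) →
        (∀ j l, |(c j l : ℝ)| ≤ γ * X) →
      ∀ U W : Finset (Fin N → ℤ), U ⊆ cube N X → W ⊆ cube N X →
        ε * (X : ℝ) ^ N ≤ U.card →
      ∀ {ι : Type} (Φ : (Fin N → ℤ) → ι),
        (∀ x ∈ cube N X, ∀ z ∈ cube N X, Φ x = Φ z → ∀ l, (Q : ℤ) ∣ x l - z l ∧
          |((x l : ℝ) - z l)| ≤ X / k) →
      ∀ d : ℝ, ε ≤ d →
        ∑ x ∈ cube N X, |dens (cube N X) W Φ x - d| ≤ ε ^ 2 / 8 * (X : ℝ) ^ N →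
      ∃ j : Fin J, ∃ h : ℕ, ∃ x ∈ U, x + vec B A c j h ∈ W := by
  classical
  have hNr : (0 : ℝ) < N := by exact_mod_cast hN
  obtain ⟨Q, hQ, κ, hκ, I₀, hlink⟩ := hL ((ε ^ 2 / 16) ^ 2) (by positivity)
  have hQr : (0 : ℝ) < Q := by exact_mod_cast hQ
  obtain ⟨γ, hγ⟩ : ∃ γ : ℝ, γ = ε / (4 * N) := ⟨_, rfl⟩
  have hγ0 : 0 < γ := by rw [hγ]; positivity
  have hγ1 : γ ≤ 1 := by
    rw [hγ, div_le_one (by positivity)]
    have : (1 : ℝ) ≤ N := by exact_mod_cast hN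
    linarith
  obtain ⟨Bm, hBm0, hBle⟩ : ∃ Bm : ℝ, 0 ≤ Bm ∧ ∀ j l, |(B j l : ℝ)| ≤ Bm := by
    refine ⟨∑ j : Fin J, ∑ l : Fin N, |(B j l : ℝ)|,
      Finset.sum_nonneg (fun _ _ => Finset.sum_nonneg (fun _ _ => abs_nonneg _)), ?_⟩
    intro j l
    calc |(B j l : ℝ)| ≤ ∑ l : Fin N, |(B j l : ℝ)| :=
          Finset.single_le_sum (f := fun l => |(B j l : ℝ)|) (fun _ _ => abs_nonneg _)
            (Finset.mem_univ l)
      _ ≤ _ := Finset.single_le_sum (f := fun j => ∑ l : Fin N, |(B j l : ℝ)|)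
            (fun _ _ => Finset.sum_nonneg (fun _ _ => abs_nonneg _)) (Finset.mem_univ j)
  obtain ⟨θ, hθ0, hθC, hθB, hθQ⟩ := exists_theta C Bm (Q * κ) γ hC hBm0 (by positivity) hγ0 hγ1
  obtain ⟨X₀, hX₀, hIY⟩ := exists_IY θ κ hθ0 hκ I₀
  obtain ⟨k, hk⟩ := exists_nat_gt (64 * N / (Q * κ * θ ^ 2 * ε ^ 2))
  have hkr : (0 : ℝ) < k := lt_of_le_of_lt (by positivity) hk
  have hk0 : 0 < k := by exact_mod_cast hkr
  refine ⟨Q, k, hQ, hk0, γ / 4, X₀, by positivity, ?_⟩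
  intro X hX A c hA hc U W hU hW hUc ι Φ hΦ d hd hdens
  obtain ⟨I, Y, hIpos, hYpos, hII, hI1, hIsq2, hY1, hY3⟩ := hIY X hX
  have hXr : (0 : ℝ) < X := by linarith
  have hYr : (0 : ℝ) < Y := by exact_mod_cast hYpos
  have hlk := hlink I hII Y hYpos hY1 A (ind W) W (fun x hx => ind_of_not_mem hx)
  have hcardU : (U.card : ℝ) ≤ (X : ℝ) ^ N := by
    have := Finset.card_le_card hU
    rw [card_cube] at this
    exact_mod_cast this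
  have hcardW : (W.card : ℝ) ≤ (X : ℝ) ^ N := by
    have := Finset.card_le_card hW
    rw [card_cube] at this
    exact_mod_cast this
  have hsumW : ∑ x ∈ W, ind W x ^ 2 = W.card := by
    rw [Finset.sum_congr rfl (g := fun _ => (1 : ℝ)) (fun x hx => by rw [ind_of_mem hx]; norm_num)]
    simp
  have hE : (N : ℝ) * (X / (k * Q)) / Y ≤ ε ^ 2 / 8 := by
    rw [div_le_iff₀ hYr]
    have h4 : 64 * N ≤ k * (Q * κ * θ ^ 2 * ε ^ 2) := by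
      rw [div_lt_iff₀ (by positivity)] at hk; exact hk.le
    have h5 : (N : ℝ) * (X / (k * Q)) = N * X / (k * Q) := by ring
    rw [h5, div_le_iff₀ (by positivity)]
    have h6 : ε ^ 2 / 8 * (κ * θ ^ 2 * X / 8) * (k * Q) ≤ ε ^ 2 / 8 * Y * (k * Q) := by
      apply mul_le_mul_of_nonneg_right _ (by positivity)
      exact mul_le_mul_of_nonneg_left hY3 (by positivity)
    refine le_trans ?_ h6
    have h7 : ε ^ 2 / 8 * (κ * θ ^ 2 * X / 8) * (k * Q)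
        = (k * (Q * κ * θ ^ 2 * ε ^ 2)) * X / 64 := by ring
    rw [h7]
    have h8 := mul_le_mul_of_nonneg_right h4 hXr.le
    linarith
  have hcf := core_finite hJ B A c U W X I Y Q hIpos hYpos hU hW (γ * X) ?_ Φ (X / (k * Q)) ?_
    d (ε ^ 2 / 8 * (X : ℝ) ^ N) (4 * ((N : ℝ) - 1) + (ε ^ 2 / 16) ^ 2 * J) (hε.le.trans hd) hdens
    ?_ (main_ineq hN hJ ε hε hJε X U.card W.card d (X / (k * Q)) Y γ hXr (by positivity)
      (by positivity) hcardU hcardW hUc hd hE hγ)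
  · obtain ⟨j, h, _, x, hx, hxW⟩ := hcf
    exact ⟨j, h, x, hx, hxW⟩
  · -- size of the translations
    intro j h hh y hy l
    have hy' := (mem_cube.1 hy) l
    have e1 : ((vec B A c j h + (Q : ℤ) • y) l : ℝ)
        = (c j l : ℝ) + ((h : ℝ) * (A j l : ℝ) + (h : ℝ) ^ 2 * (B j l : ℝ)) + (Q : ℝ) * (y l : ℝ) := by
      simp [vec]
    rw [e1]
    exact size_ineq X I (Real.sqrt X) C θ γ Bm Q κ Y _ _ _ _ h hXr (Real.mul_self_sqrt hXr.le)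
      (Real.sqrt_nonneg _) hθ0.le hC.le hBm0 hκ.le hQr.le (by positivity)
      (by exact_mod_cast hh.le) hI1 hIsq2 hY1 hθC hθB hθQ (hc j l) (hA j l) (hBle j l)
      (by exact_mod_cast hy'.1) (by exact_mod_cast hy'.2.le)
  · -- fineness of the partition
    intro x hx z hz hxz
    have h1 := hΦ x hx z hz hxz
    choose e he using fun l => (h1 l).1
    refine ⟨e, ?_, fun l => ?_⟩
    · ext l
      simp only [Pi.add_apply, Pi.smul_apply, smul_eq_mul]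
      have := he l
      linarith
    · have h2 := (h1 l).2
      have h3 : ((x l : ℝ) - z l) = Q * e l := by exact_mod_cast he l
      rw [h3, abs_mul, abs_of_pos hQr] at h2
      rw [le_div_iff₀ (by positivity)]
      rw [le_div_iff₀ hkr] at h2
      linarith
  · -- linking bound
    intro S
    have := hlk S
    rw [hsumW] at this
    exact this

end Vale.Agent.P011.H73
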