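import Vale.Agent.P011.H73.Favg
import Vale.Agent.P011.H73.Core3
import Vale.Agent.P011.H63.L2

/-!
Linking inside two cells (residue class mod `M`, subcube of side `X/K`) of the standard cube.
-/

namespace Vale.Agent.P011.H73

open Finset

/-- the cell of a point: residue mod `M` and subcube of side `X/K`. -/
def Phi {N : ℕ} (X M K : ℕ) (x : Fin N → ℤ) : Fin N → ℤ × ℤ :=
  fun l => (x l % (M : ℤ), x l / ((X / K : ℕ) : ℤ))

/-- parametrisation of a cell by `cube N D`. -/
def tr {N : ℕ} (M D : ℕ) (κ r : Fin N → ℤ) (y : Fin N → ℤ) : Fin N → ℤ :=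
  fun l => M * (κ l * D + y l) + r l

lemma tr_injective {N : ℕ} {M D : ℕ} (hM : 0 < M) (κ r : Fin N → ℤ) :
    Function.Injective (tr M D κ r) := by
  intro y z h
  funext l
  have := congrFun h l
  simp only [tr] at this
  have hM' : (M : ℤ) ≠ 0 := by exact_mod_cast hM.ne'
  have h2 : (M : ℤ) * (κ l * D + y l) = M * (κ l * D + z l) := by linarith
  have := mul_left_cancel₀ hM' h2
  linarith

lemma Phi_tr {N : ℕ} {X M K D : ℕ} (hK : 0 < K) (hX : X = M * K * D)
    (κ r y : Fin N → ℤ) (hr : ∀ l, 0 ≤ r l ∧ r l < M) (hy : y ∈ cube N D) :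
    Phi X M K (tr M D κ r y) = fun l => (r l, κ l) := by
  have hXK : X / K = M * D := by
    subst hX
    rw [show M * K * D = (M * D) * K by ring, Nat.mul_div_cancel _ hK]
  funext l
  have hyl := mem_cube.1 hy l
  have hrl := hr l
  simp only [Phi, tr, hXK]
  ext
  · simp only
    rw [add_comm, Int.add_mul_emod_self_left]
    exact Int.emod_eq_of_lt hrl.1 hrl.2
  · simp only
    push_cast
    have e : (M : ℤ) * (κ l * D + y l) + r l = (M * y l + r l) + (M * D) * κ l := by ring
    rw [e]
    have hMD : (0 : ℤ) < M * D := by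
      have h1 : (0 : ℤ) < M := by linarith
      have h2 : (0 : ℤ) < D := by linarith
      positivity
    rw [Int.add_mul_ediv_left _ _ hMD.ne']
    have h0 : (M * y l + r l) / ((M : ℤ) * D) = 0 := by
      apply Int.ediv_eq_zero_of_lt
      · have : 0 ≤ (M : ℤ) * y l := mul_nonneg (by linarith) hyl.1
        linarith
      · have h1 : y l + 1 ≤ D := by linarith
        have h2 : (M : ℤ) * (y l + 1) ≤ M * D := mul_le_mul_of_nonneg_left h1 (by linarith)
        linarith
    rw [h0, zero_add]

lemma fib_Phi {N : ℕ} {X M K D : ℕ} (hM : 0 < M) (hK : 0 < K) (hX : X = M * K * D)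
    {x : Fin N → ℤ} (hx : x ∈ cube N X) :
    fib (cube N X) (Phi X M K) x = (cube N D).image
      (tr M D (fun l => x l / ((M * D : ℕ) : ℤ)) (fun l => x l % (M : ℤ))) := by
  classical
  have hM' : (0 : ℤ) < M := by exact_mod_cast hM
  have hXK : X / K = M * D := by
    subst hX
    rw [show M * K * D = (M * D) * K by ring, Nat.mul_div_cancel _ hK]
  ext z
  simp only [mem_fib, Finset.mem_image]
  constructor
  · rintro ⟨hz, hzx⟩
    refine ⟨fun l => (z l % ((M * D : ℕ) : ℤ)) / M, ?_, ?_⟩
    · rw [mem_cube]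
      intro l
      have hzl := mem_cube.1 hz l
      have hD : 0 < D := by
        rcases Nat.eq_zero_or_pos D with h | h
        · subst h; simp at hX; subst hX; have := hzl.2; have := hzl.1; omega
        · exact h
      have hMD : (0 : ℤ) < ((M * D : ℕ) : ℤ) := by positivity
      have h1 := Int.emod_nonneg (z l) hMD.ne'
      have h2 := Int.emod_lt_of_pos (z l) hMD
      refine ⟨Int.ediv_nonneg h1 hM'.le, ?_⟩
      apply Int.ediv_lt_of_lt_mul hM'
      push_cast at h2 ⊢
      linarith
    · funext l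
      have hzl := congrFun hzx l
      simp only [Phi, hXK, Prod.mk.injEq] at hzl
      simp only [tr]
      rw [← hzl.1, ← hzl.2]
      have h1 := Int.emod_add_mul_ediv (z l) ((M * D : ℕ) : ℤ)
      have h2 := Int.emod_add_mul_ediv (z l % ((M * D : ℕ) : ℤ)) (M : ℤ)
      have h3 : z l % ((M * D : ℕ) : ℤ) % (M : ℤ) = z l % (M : ℤ) := by
        apply Int.emod_emod_of_dvd
        push_cast
        exact Dvd.intro _ rfl
      rw [h3] at h2
      push_cast at h1 h2 ⊢
      linarith
  · rintro ⟨y, hy, rfl⟩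
    have hyc := hy
    refine ⟨?_, ?_⟩
    · rw [mem_cube]
      intro l
      have hxl := mem_cube.1 hx l
      have hyl := mem_cube.1 hy l
      have hD : (0 : ℤ) < D := by linarith
      have hMD : (0 : ℤ) < ((M * D : ℕ) : ℤ) := by push_cast; positivity
      have h0 : 0 ≤ x l / ((M * D : ℕ) : ℤ) := Int.ediv_nonneg hxl.1 hMD.le
      have h1 : x l / ((M * D : ℕ) : ℤ) < K := by
        apply Int.ediv_lt_of_lt_mul hMD
        have : (X : ℤ) = K * ((M * D : ℕ) : ℤ) := by subst hX; push_cast; ring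
        linarith
      have hr := Int.emod_nonneg (x l) hM'.ne'
      have hr2 := Int.emod_lt_of_pos (x l) hM'
      simp only [tr]
      constructor
      · have : 0 ≤ x l / ((M * D : ℕ) : ℤ) * D + y l := by
          have := mul_nonneg h0 hD.le
          linarith [hyl.1]
        have := mul_nonneg hM'.le this
        linarith
      · have h2 : x l / ((M * D : ℕ) : ℤ) * D + y l + 1 ≤ K * D := by
          have h3 : x l / ((M * D : ℕ) : ℤ) + 1 ≤ K := by linarith
          have h4 : (x l / ((M * D : ℕ) : ℤ) + 1) * D ≤ K * D :=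
            mul_le_mul_of_nonneg_right h3 hD.le
          have h5 : y l + 1 ≤ D := by linarith [hyl.2]
          linarith
        have h6 := mul_le_mul_of_nonneg_left h2 hM'.le
        have h7 : (X : ℤ) = M * (K * D) := by subst hX; push_cast; ring
        rw [h7]
        linarith
    · rw [Phi_tr hK hX _ _ _ (fun l => ⟨Int.emod_nonneg (x l) hM'.ne', Int.emod_lt_of_pos (x l) hM'⟩) hy]
      funext l
      simp only [Phi, hXK]

lemma card_fib_Phi {N : ℕ} {X M K D : ℕ} (hM : 0 < M) (hK : 0 < K) (hX : X = M * K * D)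
    {x : Fin N → ℤ} (hx : x ∈ cube N X) :
    (fib (cube N X) (Phi X M K) x).card = D ^ N := by
  classical
  rw [fib_Phi hM hK hX hx, Finset.card_image_of_injective _ (tr_injective hM _ _), card_cube]

/-- `(M,K)`-cells: finer moduli give finer cells. -/
lemma Phi_coarse {N : ℕ} {X M K M' K' : ℕ} (hM : M ∣ M') (hK : K ∣ K') (hKX : K' ∣ X)
    (hX : 0 < X) {x z : Fin N → ℤ}
    (h : Phi X M' K' x = Phi X M' K' z) : Phi X M K x = Phi X M K z := by
  funext l
  have hl := congrFun h l
  simp only [Phi, Prod.mk.injEq] at hl ⊢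
  obtain ⟨h1, h2⟩ := hl
  refine ⟨?_, ?_⟩
  · have hd : (M : ℤ) ∣ (M' : ℤ) := by exact_mod_cast hM
    rw [← Int.emod_emod_of_dvd (x l) hd, ← Int.emod_emod_of_dvd (z l) hd, h1]
  · obtain ⟨a, rfl⟩ := hK
    obtain ⟨b, rfl⟩ := hKX
    have hK0 : 0 < K := by
      rcases Nat.eq_zero_or_pos K with h | h
      · subst h; simp at hX
      · exact h
    have ha0 : 0 < a := by
      rcases Nat.eq_zero_or_pos a with h | h
      · subst h; simp at hX
      · exact h
    have e1 : K * a * b / (K * a) = b := by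
      rw [Nat.mul_div_cancel_left _ (Nat.mul_pos hK0 ha0)]
    have e2 : K * a * b / K = b * a := by
      rw [show K * a * b = K * (b * a) by ring, Nat.mul_div_cancel_left _ hK0]
    rw [e1] at h2
    rw [e2]
    push_cast
    rw [← Int.ediv_ediv_of_nonneg (by positivity), ← Int.ediv_ediv_of_nonneg (by positivity), h2]

/-- points of one cell are close and congruent. -/
lemma Phi_close {N : ℕ} {X M K : ℕ} (hK : 0 < K) (hKX : K ∣ X) (hX : 0 < X) {x z : Fin N → ℤ}
    (h : Phi X M K x = Phi X M K z) (l : Fin N) :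
    (M : ℤ) ∣ x l - z l ∧ |((x l : ℝ) - z l)| ≤ X / K := by
  have hl := congrFun h l
  simp only [Phi, Prod.mk.injEq] at hl
  obtain ⟨h1, h2⟩ := hl
  refine ⟨(show z l ≡ x l [ZMOD (M : ℤ)] from h1.symm).dvd, ?_⟩
  obtain ⟨b, rfl⟩ := hKX
  have e1 : K * b / K = b := Nat.mul_div_cancel_left _ hK
  rw [e1] at h2
  have hb : 0 < b := Nat.pos_of_mul_pos_left hX
  have hb' : (0 : ℤ) < b := by exact_mod_cast hb
  have a1 := Int.emod_add_mul_ediv (x l) (b : ℤ)
  have a2 := Int.emod_add_mul_ediv (z l) (b : ℤ)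
  have b1 := Int.emod_nonneg (x l) hb'.ne'
  have b2 := Int.emod_lt_of_pos (x l) hb'
  have c1 := Int.emod_nonneg (z l) hb'.ne'
  have c2 := Int.emod_lt_of_pos (z l) hb'
  rw [h2] at a1
  have d1 : x l - z l ≤ b := by linarith
  have d2 : -(b : ℤ) ≤ x l - z l := by linarith
  have hKr : (0 : ℝ) < K := by exact_mod_cast hK
  have e2 : (((K * b : ℕ) : ℝ)) / K = b := by
    push_cast
    rw [mul_div_cancel_left₀ _ hKr.ne']
  rw [e2, abs_le]
  constructor
  · exact_mod_cast d2
  · exact_mod_cast d1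

end Vale.Agent.P011.H73
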