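import Vale.Agent.P011.H73.Cell

namespace Vale.Agent.P011.H73

open Finset

lemma genPos_smul {N J : ℕ} {B : Fin J → Fin N → ℤ} (hB : H63.GenPos B) {M : ℕ} (hM : 0 < M) :
    H63.GenPos (fun j => (M : ℤ) • B j) := by
  intro F hF
  have h := hB F hF
  have hM' : (M : ℚ) ≠ 0 := by exact_mod_cast hM.ne'
  have h2 := h.units_smul (fun _ => Units.mk0 (M : ℚ) hM')
  convert h2 using 1
  funext j s
  simp [Units.smul_def]

lemma exists_bound {N J : ℕ} (B : Fin J → Fin N → ℤ) :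
    ∃ Bm : ℝ, 0 ≤ Bm ∧ ∀ j l, |(B j l : ℝ)| ≤ Bm := by
  refine ⟨∑ j : Fin J, ∑ l : Fin N, |(B j l : ℝ)|,
    Finset.sum_nonneg (fun _ _ => Finset.sum_nonneg (fun _ _ => abs_nonneg _)), ?_⟩
  intro j l
  calc |(B j l : ℝ)| ≤ ∑ l : Fin N, |(B j l : ℝ)| :=
        Finset.single_le_sum (f := fun l => |(B j l : ℝ)|) (fun _ _ => abs_nonneg _)
          (Finset.mem_univ l)
    _ ≤ _ := Finset.single_le_sum (f := fun j => ∑ l : Fin N, |(B j l : ℝ)|)
          (fun _ _ => Finset.sum_nonneg (fun _ _ => abs_nonneg _)) (Finset.mem_univ j)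

/-- number of points of `U` in the cell of `x` in terms of the parametrisation. -/
lemma card_pull {N : ℕ} {X M K D : ℕ} (hM : 0 < M) (hK : 0 < K) (hX : X = M * K * D)
    {x : Fin N → ℤ} (hx : x ∈ cube N X) (U : Finset (Fin N → ℤ)) :
    open Classical in
    (((cube N D).filter (fun y => tr M D (fun l => x l / ((M * D : ℕ) : ℤ))
      (fun l => x l % (M : ℤ)) y ∈ U)).card : ℝ)
      = favg (cube N X) (Phi X M K) (ind U) x * (D : ℝ) ^ N := by
  classical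
  have h1 := sum_fib (cube N X) (Phi X M K) (ind U) hx
  rw [card_fib_Phi hM hK hX hx] at h1
  push_cast at h1
  rw [mul_comm _ ((D : ℝ) ^ N), ← h1, fib_Phi hM hK hX hx]
  have hinj : Function.Injective
    (tr M D (fun l => x l / ((M * D : ℕ) : ℤ)) (fun l => x l % (M : ℤ))) := tr_injective hM _ _
  generalize tr M D (fun l => x l / ((M * D : ℕ) : ℤ)) (fun l => x l % (M : ℤ)) = T at hinj ⊢
  rw [Finset.sum_image (fun a _ b _ hab => hinj hab), Finset.card_filter]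
  push_cast
  refine Finset.sum_congr rfl (fun y _ => ?_)
  by_cases h : T y ∈ U
  · rw [if_pos h, ind_of_mem h]
  · rw [if_neg h, ind_of_not_mem h]

/-- conditional densities in the parametrised cell. -/
lemma dens_pull {N : ℕ} {X M K D : ℕ} (hM : 0 < M) (hK : 0 < K) (hX : X = M * K * D)
    {x : Fin N → ℤ} (hx : x ∈ cube N X) (W : Finset (Fin N → ℤ)) {ι : Type*}
    (Φ : (Fin N → ℤ) → ι)
    (hΦ : ∀ y ∈ cube N X, ∀ z ∈ cube N X, Φ y = Φ z → Phi X M K y = Phi X M K z)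
    {y : Fin N → ℤ} (hy : y ∈ cube N D) :
    open Classical in
    dens (cube N D) ((cube N D).filter (fun y => tr M D (fun l => x l / ((M * D : ℕ) : ℤ))
      (fun l => x l % (M : ℤ)) y ∈ W))
      (fun y => Φ (tr M D (fun l => x l / ((M * D : ℕ) : ℤ)) (fun l => x l % (M : ℤ)) y)) y
      = favg (cube N X) Φ (ind W)
        (tr M D (fun l => x l / ((M * D : ℕ) : ℤ)) (fun l => x l % (M : ℤ)) y) := by
  classical
  set T : (Fin N → ℤ) → (Fin N → ℤ) :=
    tr M D (fun l => x l / ((M * D : ℕ) : ℤ)) (fun l => x l % (M : ℤ)) with hT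
  have hinj : Function.Injective T := tr_injective hM _ _
  have hfx := fib_Phi hM hK hX hx
  have hTy : T y ∈ fib (cube N X) (Phi X M K) x := by
    rw [hfx]; exact Finset.mem_image_of_mem _ hy
  obtain ⟨hTyX, hTyP⟩ := mem_fib.1 hTy
  have hfib : fib (cube N X) Φ (T y) = (fib (cube N D) (fun y => Φ (T y)) y).image T := by
    ext z
    rw [mem_fib, Finset.mem_image]
    constructor
    · rintro ⟨hz, hzy⟩
      have h1 := hΦ z hz (T y) hTyX hzy
      have h2 : z ∈ fib (cube N X) (Phi X M K) x := mem_fib.2 ⟨hz, h1.trans hTyP⟩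
      rw [hfx] at h2
      obtain ⟨w, hw, rfl⟩ := Finset.mem_image.1 h2
      exact ⟨w, mem_fib.2 ⟨hw, hzy⟩, rfl⟩
    · rintro ⟨w, hw, rfl⟩
      obtain ⟨hw1, hw2⟩ := mem_fib.1 hw
      have h2 : T w ∈ fib (cube N X) (Phi X M K) x := by
        rw [hfx]; exact Finset.mem_image_of_mem _ hw1
      exact ⟨(mem_fib.1 h2).1, hw2⟩
  rw [dens_eq_favg _ _ (Finset.filter_subset _ _)]
  unfold favg
  rw [hfib, Finset.sum_image (fun a _ b _ hab => hinj hab), Finset.card_image_of_injective _ hinj]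
  congr 1
  refine Finset.sum_congr rfl (fun z hz => ?_)
  have hz1 := (mem_fib.1 hz).1
  by_cases h : T z ∈ W
  · rw [ind_of_mem h, ind_of_mem (Finset.mem_filter.2 ⟨hz1, h⟩)]
  · rw [ind_of_not_mem h]
    exact ind_of_not_mem (fun hh => h (Finset.mem_filter.1 hh).2)

/-- CORE in two cells of the cube. -/
theorem core_cell {N J : ℕ} (hN : 0 < N) (hJ : 0 < J) (B : Fin J → Fin N → ℤ)
    (hB : H63.GenPos B) (M K : ℕ) (hM : 0 < M) (hK : 0 < K) (ε : ℝ) (hε : 0 < ε) (hε1 : ε ≤ 1)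
    (hJε : 4 * ((N : ℝ) - 1) ≤ (ε ^ 2 / 16) ^ 2 * J) (C : ℝ) (hC : 0 < C) (H : ℕ) :
    ∃ Q k : ℕ, 0 < Q ∧ 0 < k ∧ ∃ X₀ : ℝ, ∀ X D : ℕ, X₀ ≤ X → X = M * K * D →
      ∀ A : Fin J → Fin N → ℤ, (∀ j l, |(A j l : ℝ)| ≤ C * Real.sqrt X) →
      ∀ h₀ : ℕ, h₀ ≤ H → ∀ x₁ ∈ cube N X, ∀ x₂ ∈ cube N X,
        (∀ l, x₁ l / ((X / K : ℕ) : ℤ) = x₂ l / ((X / K : ℕ) : ℤ)) →
        (∀ j l, (M : ℤ) ∣ (h₀ : ℤ) ^ 2 * B j l + h₀ * A j l + (x₁ l - x₂ l)) →
      ∀ U W : Finset (Fin N → ℤ), 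
        ε ≤ favg (cube N X) (Phi X M K) (ind U) x₁ →
      ∀ {ι : Type} (Φ : (Fin N → ℤ) → ι),
        (∀ x ∈ cube N X, ∀ z ∈ cube N X, Φ x = Φ z → Phi X M K x = Phi X M K z ∧
          ∀ l, ((M * Q : ℕ) : ℤ) ∣ x l - z l ∧ |((x l : ℝ) - z l)| ≤ X / (K * k)) →
        ε ≤ favg (cube N X) (Phi X M K) (ind W) x₂ →
        ∑ x ∈ fib (cube N X) (Phi X M K) x₂,
          |favg (cube N X) Φ (ind W) x - favg (cube N X) (Phi X M K) (ind W) x₂|
          ≤ ε ^ 2 / 8 * (fib (cube N X) (Phi X M K) x₂).card →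
      ∃ j : Fin J, ∃ h : ℕ, ∃ x ∈ U, x + vec B A 0 j (h₀ + M * h) ∈ W := by
  classical
  obtain ⟨Bm, hBm0, hBm⟩ := exists_bound B
  have hMr : (0 : ℝ) < M := by exact_mod_cast hM
  have hKr : (0 : ℝ) < K := by exact_mod_cast hK
  have hMK : (0 : ℝ) < (M : ℝ) * K := by positivity
  obtain ⟨Q, k, hQ, hk, γ, X₀, hγ, hcore⟩ := core hN hJ (fun j => (M : ℤ) • B j)
    (H63.linkL2 hN _ (genPos_smul hB hM)) ε hε hε1 hJε
    ((C + 2 * H * Bm) * Real.sqrt (M * K)) (by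
      have : 0 < Real.sqrt ((M : ℝ) * K) := Real.sqrt_pos.2 hMK
      positivity)
  refine ⟨Q, k, hQ, hk, max (X₀ * (M * K)) (((H ^ 2 * Bm + H * C + M + 1) * (M * K) / γ) ^ 2 + 1), ?_⟩
  intro X D hX hXD A hA h₀ hh₀ x₁ hx₁ x₂ hx₂ hpos hdvd U W hU ι Φ hΦ hW hstab
  have hXMKD : (X : ℝ) = M * K * D := by rw [hXD]; push_cast; ring
  have hX1 : (1 : ℝ) ≤ X := by
    have := (le_max_right _ _).trans hX
    have h2 : 0 ≤ ((H ^ 2 * Bm + H * C + M + 1) * (M * K) / γ) ^ 2 := sq_nonneg _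
    linarith
  have hDr : (0 : ℝ) < D := by
    by_contra hcon
    have : (D : ℝ) = 0 := le_antisymm (not_lt.1 hcon) (by positivity)
    rw [this, mul_zero] at hXMKD
    linarith
  have hDX₀ : X₀ ≤ D := by
    have h1 := (le_max_left _ _).trans hX
    rw [hXMKD] at h1
    have h2 : X₀ * (M * K) ≤ D * (M * K) := by linarith
    exact le_of_mul_le_mul_right h2 hMK
  have hsqX : (1 : ℝ) ≤ Real.sqrt X := by
    rw [show (1 : ℝ) = Real.sqrt 1 by simp]
    exact Real.sqrt_le_sqrt hX1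
  have hsqD : Real.sqrt X = Real.sqrt (M * K) * Real.sqrt D := by
    rw [hXMKD, Real.sqrt_mul hMK.le]
  have hsqXX : Real.sqrt X * Real.sqrt X = X := Real.mul_self_sqrt (by linarith)
  have hh₀r : (h₀ : ℝ) ≤ H := by exact_mod_cast hh₀
  have hh₀0 : (0 : ℝ) ≤ h₀ := by positivity
  -- residues and positions
  set r₁ : Fin N → ℤ := fun l => x₁ l % (M : ℤ) with hr₁
  set r₂ : Fin N → ℤ := fun l => x₂ l % (M : ℤ) with hr₂
  have hM' : (0 : ℤ) < M := by exact_mod_cast hM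
  have hXK : X / K = M * D := by
    rw [hXD, show M * K * D = (M * D) * K by ring, Nat.mul_div_cancel _ hK]
  rw [hXK] at hpos
  have hκ : (fun l => x₁ l / ((M * D : ℕ) : ℤ)) = (fun l => x₂ l / ((M * D : ℕ) : ℤ)) :=
    funext hpos
  set κ : Fin N → ℤ := fun l => x₂ l / ((M * D : ℕ) : ℤ) with hκdef
  have hdvd2 : ∀ j l, (M : ℤ) ∣ (h₀ : ℤ) ^ 2 * B j l + h₀ * A j l + (r₁ l - r₂ l) := by
    intro j l
    have h1 := hdvd j l
    have e1 := Int.emod_add_mul_ediv (x₁ l) (M : ℤ)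
    have e2 := Int.emod_add_mul_ediv (x₂ l) (M : ℤ)
    have h2 : (h₀ : ℤ) ^ 2 * B j l + h₀ * A j l + (x₁ l - x₂ l)
        = ((h₀ : ℤ) ^ 2 * B j l + h₀ * A j l + (r₁ l - r₂ l))
          + M * (x₁ l / M - x₂ l / M) := by
      simp only [hr₁, hr₂]
      linarith
    rw [h2] at h1
    exact (dvd_add_left (Dvd.intro _ rfl)).1 h1
  choose cc hcc using hdvd2
  have hAsize : ∀ j l, |((((fun j => A j + (2 * (h₀ : ℤ)) • B j) : Fin J → Fin N → ℤ) j l : ℤ) : ℝ)|
      ≤ ((C + 2 * H * Bm) * Real.sqrt (M * K)) * Real.sqrt D := by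
    intro j l
    have e1 : ((((fun j => A j + (2 * (h₀ : ℤ)) • B j) : Fin J → Fin N → ℤ) j l : ℤ) : ℝ)
        = (A j l : ℝ) + 2 * h₀ * (B j l : ℝ) := by
      simp
    rw [e1]
    calc |(A j l : ℝ) + 2 * h₀ * (B j l : ℝ)| ≤ |(A j l : ℝ)| + |2 * h₀ * (B j l : ℝ)| :=
          abs_add_le _ _
      _ ≤ C * Real.sqrt X + 2 * H * Bm * Real.sqrt X := by
          apply add_le_add (hA j l)
          rw [abs_mul, abs_of_nonneg (by positivity : (0 : ℝ) ≤ 2 * h₀)]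
          have h1 : 2 * (h₀ : ℝ) * |(B j l : ℝ)| ≤ 2 * H * Bm :=
            mul_le_mul (by linarith) (hBm j l) (abs_nonneg _) (by positivity)
          have h2 : 2 * (H : ℝ) * Bm * 1 ≤ 2 * H * Bm * Real.sqrt X :=
            mul_le_mul_of_nonneg_left hsqX (by positivity)
          linarith
      _ = _ := by rw [hsqD]; ring
  have hcsize : ∀ j l, |((cc j l : ℤ) : ℝ)| ≤ γ * D := by
    intro j l
    have e1 : ((h₀ : ℝ) ^ 2 * (B j l : ℝ) + h₀ * (A j l : ℝ) + ((r₁ l : ℝ) - r₂ l))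
        = M * (cc j l : ℝ) := by exact_mod_cast hcc j l
    have b1 : |(r₁ l : ℝ) - r₂ l| ≤ M := by
      have a1 := Int.emod_nonneg (x₁ l) hM'.ne'
      have a2 := Int.emod_lt_of_pos (x₁ l) hM'
      have a3 := Int.emod_nonneg (x₂ l) hM'.ne'
      have a4 := Int.emod_lt_of_pos (x₂ l) hM'
      have d1 : r₁ l - r₂ l ≤ M := by simp only [hr₁, hr₂]; linarith
      have d2 : -(M : ℤ) ≤ r₁ l - r₂ l := by simp only [hr₁, hr₂]; linarith
      rw [abs_le]
      exact ⟨by exact_mod_cast d2, by exact_mod_cast d1⟩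
    have b2 : |(h₀ : ℝ) ^ 2 * (B j l : ℝ)| ≤ H ^ 2 * Bm := by
      rw [abs_mul, abs_of_nonneg (by positivity : (0 : ℝ) ≤ (h₀ : ℝ) ^ 2)]
      exact mul_le_mul (pow_le_pow_left₀ hh₀0 hh₀r 2) (hBm j l) (abs_nonneg _) (by positivity)
    have b3 : |(h₀ : ℝ) * (A j l : ℝ)| ≤ H * (C * Real.sqrt X) := by
      rw [abs_mul, abs_of_nonneg hh₀0]
      exact mul_le_mul hh₀r (hA j l) (abs_nonneg _) (by positivity)
    have b4 : M * |(cc j l : ℝ)| ≤ (H ^ 2 * Bm + H * C + M) * Real.sqrt X := by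
      rw [← abs_of_pos hMr, ← abs_mul, ← e1, abs_of_pos hMr]
      calc _ ≤ |(h₀ : ℝ) ^ 2 * (B j l : ℝ)| + |(h₀ : ℝ) * (A j l : ℝ)| + |(r₁ l : ℝ) - r₂ l| :=
            (abs_add_le _ _).trans (add_le_add (abs_add_le _ _) le_rfl)
        _ ≤ H ^ 2 * Bm + H * (C * Real.sqrt X) + M := add_le_add (add_le_add b2 b3) b1
        _ ≤ _ := by
            have h1 : H ^ 2 * Bm * 1 ≤ H ^ 2 * Bm * Real.sqrt X :=
              mul_le_mul_of_nonneg_left hsqX (by positivity)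
            have h2 : (M : ℝ) * 1 ≤ M * Real.sqrt X := mul_le_mul_of_nonneg_left hsqX hMr.le
            linarith
    have b5 : (H ^ 2 * Bm + H * C + M + 1) * (M * K) / γ ≤ Real.sqrt X := by
      apply Real.le_sqrt_of_sq_le
      have := (le_max_right _ _).trans hX
      linarith
    have b6 : (H ^ 2 * Bm + H * C + M) * (M * K) ≤ γ * Real.sqrt X := by
      rw [div_le_iff₀ hγ] at b5
      have : 0 ≤ (M : ℝ) * K := hMK.le
      linarith
    have b7 : (H ^ 2 * Bm + H * C + M) * Real.sqrt X * (M * K) ≤ γ * X := by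
      have := mul_le_mul_of_nonneg_right b6 (Real.sqrt_nonneg (X : ℝ))
      calc _ = (H ^ 2 * Bm + H * C + M) * (M * K) * Real.sqrt X := by ring
        _ ≤ γ * Real.sqrt X * Real.sqrt X := this
        _ = γ * X := by rw [mul_assoc, hsqXX]
    have b8 : M * |(cc j l : ℝ)| * (M * K) ≤ γ * D * (M * K) := by
      calc _ ≤ (H ^ 2 * Bm + H * C + M) * Real.sqrt X * (M * K) :=
            mul_le_mul_of_nonneg_right b4 hMK.le
        _ ≤ γ * X := b7
        _ = _ := by rw [hXMKD]; ring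
    have b9 := le_of_mul_le_mul_right b8 hMK
    have hM1 : (1 : ℝ) ≤ M := by exact_mod_cast hM
    have b10 : 1 * |(cc j l : ℝ)| ≤ M * |(cc j l : ℝ)| :=
      mul_le_mul_of_nonneg_right hM1 (abs_nonneg _)
    linarith
  have hU2 := card_pull hM hK hXD hx₁ U
  have hW2 : ∀ y ∈ cube N D, dens (cube N D)
      ((cube N D).filter (fun y => tr M D κ r₂ y ∈ W)) (fun y => Φ (tr M D κ r₂ y)) y
      = favg (cube N X) Φ (ind W) (tr M D κ r₂ y) := by
    intro y hy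
    exact dens_pull hM hK hXD hx₂ W Φ (fun y hy z hz h => (hΦ y hy z hz h).1) hy
  have hfx₂ := fib_Phi hM hK hXD hx₂
  have hres := hcore D hDX₀ (fun j => A j + (2 * (h₀ : ℤ)) • B j) cc hAsize hcsize
    ((cube N D).filter (fun y => tr M D κ r₁ y ∈ U))
    ((cube N D).filter (fun y => tr M D κ r₂ y ∈ W))
    (Finset.filter_subset _ _) (Finset.filter_subset _ _) ?_ (fun y => Φ (tr M D κ r₂ y)) ?_
    (favg (cube N X) (Phi X M K) (ind W) x₂) hW ?_
  · obtain ⟨j, h, y, hy, hyW⟩ := hres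
    have hy1 := (Finset.mem_filter.1 hy).2
    have hy2 := (Finset.mem_filter.1 hyW).2
    refine ⟨j, h, _, hy1, ?_⟩
    convert hy2 using 1
    funext l
    have := hcc j l
    simp only [tr, vec, Pi.add_apply, Pi.smul_apply, smul_eq_mul, Pi.zero_apply]
    push_cast
    linear_combination this
  · rw [hκ] at hU2
    rw [hU2]
    exact mul_le_mul_of_nonneg_right hU (by positivity)
  · intro y hy z hz hyz l
    have hyX : tr M D κ r₂ y ∈ cube N X := by
      have : tr M D κ r₂ y ∈ fib (cube N X) (Phi X M K) x₂ := by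
        rw [hfx₂]; exact Finset.mem_image_of_mem _ hy
      exact (mem_fib.1 this).1
    have hzX : tr M D κ r₂ z ∈ cube N X := by
      have : tr M D κ r₂ z ∈ fib (cube N X) (Phi X M K) x₂ := by
        rw [hfx₂]; exact Finset.mem_image_of_mem _ hz
      exact (mem_fib.1 this).1
    obtain ⟨h1, h2⟩ := (hΦ _ hyX _ hzX hyz).2 l
    have e1 : tr M D κ r₂ y l - tr M D κ r₂ z l = M * (y l - z l) := by
      simp only [tr]; ring
    have e2 : ((tr M D κ r₂ y l : ℤ) : ℝ) - (tr M D κ r₂ z l : ℤ) = M * ((y l : ℝ) - z l) := by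
      exact_mod_cast e1
    rw [e1] at h1
    rw [e2, abs_mul, abs_of_pos hMr] at h2
    refine ⟨?_, ?_⟩
    · push_cast at h1
      exact Int.dvd_of_mul_dvd_mul_left hM'.ne' h1
    · have hkr : (0 : ℝ) < k := by exact_mod_cast hk
      have e3 : (X : ℝ) / (K * k) = M * (D / k) := by
        rw [hXMKD]; field_simp
      rw [e3] at h2
      exact le_of_mul_le_mul_left h2 hMr
  · rw [Finset.sum_congr rfl (fun y hy => by rw [hW2 y hy])]
    have h1 := hstab
    rw [card_fib_Phi hM hK hXD hx₂, hfx₂, Finset.sum_image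
      (fun a _ b _ hab => tr_injective hM _ _ hab)] at h1
    push_cast at h1
    exact h1

end Vale.Agent.P011.H73
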