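import Vale.Agent.P011.H73.CellSpec

namespace Vale.Agent.P011.H73

open Finset

lemma mem_cube {N X : ℕ} {x : Fin N → ℤ} : x ∈ cube N X ↔ ∀ l, 0 ≤ x l ∧ x l < X := by
  simp [cube, Fintype.mem_piFinset]

lemma card_cube (N X : ℕ) : (cube N X).card = X ^ N := by
  simp [cube, Fintype.card_piFinset]

lemma card_coord {N : ℕ} (X : ℕ) (l : Fin N) (P : ℤ → Prop) [DecidablePred P] :
    ((cube N X).filter (fun x => P (x l))).card
      = ((Finset.Ico (0 : ℤ) (X : ℤ)).filter P).card * X ^ (N - 1) := by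
  have h : (cube N X).filter (fun x => P (x l))
      = Fintype.piFinset (Function.update (fun _ : Fin N => Finset.Ico (0 : ℤ) (X : ℤ)) l
          ((Finset.Ico (0 : ℤ) (X : ℤ)).filter P)) := by
    ext x
    simp only [cube, Finset.mem_filter, Fintype.mem_piFinset]
    constructor
    · rintro ⟨h1, h2⟩ a
      by_cases ha : a = l
      · subst ha
        simp only [Function.update_self, Finset.mem_filter]
        exact ⟨h1 a, h2⟩
      · simp only [Function.update_of_ne ha]
        exact h1 a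
    · intro h1
      refine ⟨fun a => ?_, ?_⟩
      · by_cases ha : a = l
        · subst ha
          have := h1 a
          simp only [Function.update_self, Finset.mem_filter] at this
          exact this.1
        · have := h1 a
          simpa only [Function.update_of_ne ha] using this
      · have := h1 l
        simp only [Function.update_self, Finset.mem_filter] at this
        exact this.2
  rw [h, Fintype.card_piFinset]
  rw [← Finset.mul_prod_erase Finset.univ _ (Finset.mem_univ l)]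
  simp only [Function.update_self]
  congr 1
  rw [Finset.prod_congr rfl (g := fun _ => X)]
  · rw [Finset.prod_const, Finset.card_erase_of_mem (Finset.mem_univ l)]
    simp
  · intro a ha
    rw [Function.update_of_ne (Finset.ne_of_mem_erase ha)]
    simp

lemma card_one (X : ℕ) (t : ℤ) :
    (((Finset.Ico (0 : ℤ) (X : ℤ)).filter (fun x => ¬ (0 ≤ x + t ∧ x + t < X))).card : ℝ)
      ≤ |(t : ℝ)| := by
  rcases le_total 0 t with h | h
  · have hsub : (Finset.Ico (0 : ℤ) (X : ℤ)).filter (fun x => ¬ (0 ≤ x + t ∧ x + t < X))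
        ⊆ Finset.Ico ((X : ℤ) - t) X := by
      intro x hx
      simp only [Finset.mem_filter, Finset.mem_Ico, not_and, not_lt] at hx ⊢
      obtain ⟨⟨h1, h2⟩, h3⟩ := hx
      have := h3 (by omega)
      omega
    have hc := Finset.card_le_card hsub
    rw [Int.card_Ico] at hc
    have h4 : (((X : ℤ) - ((X : ℤ) - t)).toNat : ℤ) = t := by
      rw [Int.toNat_of_nonneg] <;> omega
    have h5 : (((X : ℤ) - ((X : ℤ) - t)).toNat : ℝ) = (t : ℝ) := by exact_mod_cast h4
    rw [abs_of_nonneg (by exact_mod_cast h)]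
    calc _ ≤ ((((X : ℤ) - ((X : ℤ) - t)).toNat : ℕ) : ℝ) := by exact_mod_cast hc
      _ = _ := h5
  · have hsub : (Finset.Ico (0 : ℤ) (X : ℤ)).filter (fun x => ¬ (0 ≤ x + t ∧ x + t < X))
        ⊆ Finset.Ico (0 : ℤ) (-t) := by
      intro x hx
      simp only [Finset.mem_filter, Finset.mem_Ico, not_and, not_lt] at hx ⊢
      obtain ⟨⟨h1, h2⟩, h3⟩ := hx
      refine ⟨h1, ?_⟩
      by_contra hcon
      have := h3 (by omega)
      omega
    have hc := Finset.card_le_card hsub
    rw [Int.card_Ico] at hc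
    have h4 : ((-t - 0).toNat : ℤ) = -t := by
      rw [Int.toNat_of_nonneg] <;> omega
    have h5 : ((-t - 0).toNat : ℝ) = -(t : ℝ) := by exact_mod_cast h4
    rw [abs_of_nonpos (by exact_mod_cast h)]
    calc _ ≤ (((-t - 0).toNat : ℕ) : ℝ) := by exact_mod_cast hc
      _ = _ := h5

/-- boundary count: few points of the cube leave it under a small translation. -/
lemma card_boundary {N : ℕ} (X : ℕ) (t : Fin N → ℤ) (τ : ℝ) (ht : ∀ l, |(t l : ℝ)| ≤ τ) :
    (((cube N X).filter (fun x => x + t ∉ cube N X)).card : ℝ) ≤ N * τ * (X : ℝ) ^ (N - 1) := by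
  classical
  have hsub : (cube N X).filter (fun x => x + t ∉ cube N X)
      ⊆ Finset.univ.biUnion (fun l : Fin N => (cube N X).filter
          (fun x => ¬ (0 ≤ x l + t l ∧ x l + t l < X))) := by
    intro x hx
    simp only [Finset.mem_filter, mem_cube, Pi.add_apply, not_forall] at hx
    obtain ⟨h1, l, hl⟩ := hx
    simp only [Finset.mem_biUnion, Finset.mem_univ, true_and, Finset.mem_filter]
    exact ⟨l, mem_cube.2 h1, hl⟩
  calc (((cube N X).filter (fun x => x + t ∉ cube N X)).card : ℝ)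
      ≤ ((Finset.univ.biUnion (fun l : Fin N => (cube N X).filter
          (fun x => ¬ (0 ≤ x l + t l ∧ x l + t l < X)))).card : ℝ) := by
        exact_mod_cast Finset.card_le_card hsub
    _ ≤ ((∑ l : Fin N, ((cube N X).filter
          (fun x => ¬ (0 ≤ x l + t l ∧ x l + t l < X))).card : ℕ) : ℝ) := by
        exact_mod_cast Finset.card_biUnion_le
    _ = ∑ l : Fin N, (((Finset.Ico (0 : ℤ) (X : ℤ)).filter
          (fun x => ¬ (0 ≤ x + t l ∧ x + t l < X))).card : ℝ) * (X : ℝ) ^ (N - 1) := by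
        push_cast
        refine Finset.sum_congr rfl (fun l _ => ?_)
        rw [card_coord X l (fun x => ¬ (0 ≤ x + t l ∧ x + t l < X))]
        push_cast
        rfl
    _ ≤ ∑ _l : Fin N, τ * (X : ℝ) ^ (N - 1) := by
        refine Finset.sum_le_sum (fun l _ => ?_)
        exact mul_le_mul_of_nonneg_right ((card_one X (t l)).trans (ht l)) (by positivity)
    _ = N * τ * (X : ℝ) ^ (N - 1) := by
        rw [Finset.sum_const, Finset.card_univ, Fintype.card_fin, nsmul_eq_mul]
        ring

/-- indicator function of a finite set -/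
noncomputable def ind {α : Type*} (U : Finset α) (x : α) : ℝ :=
  open Classical in if x ∈ U then 1 else 0

lemma ind_nonneg {α : Type*} (U : Finset α) (x : α) : 0 ≤ ind U x := by
  unfold ind; split_ifs <;> norm_num

lemma ind_le_one {α : Type*} (U : Finset α) (x : α) : ind U x ≤ 1 := by
  unfold ind; split_ifs <;> norm_num

lemma ind_of_mem {α : Type*} {U : Finset α} {x : α} (h : x ∈ U) : ind U x = 1 := by
  simp [ind, h]

lemma ind_of_not_mem {α : Type*} {U : Finset α} {x : α} (h : x ∉ U) : ind U x = 0 := by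
  simp [ind, h]

lemma sum_ind {α : Type*} [DecidableEq α] (S U : Finset α) :
    ∑ x ∈ S, ind U x = ((S.filter (fun x => x ∈ U)).card : ℝ) := by
  classical
  rw [Finset.card_filter]
  push_cast
  refine Finset.sum_congr rfl (fun x _ => ?_)
  by_cases h : x ∈ U <;> simp [ind, h]

/-- density of `W` in the cell of `x` of the partition of `Ω` by the map `Φ`. -/
noncomputable def dens {α ι : Type*} (Ω W : Finset α) (Φ : α → ι) (x : α) : ℝ :=
  open Classical in
  ((W.filter (fun z => Φ z = Φ x)).card : ℝ) / ((Ω.filter (fun z => Φ z = Φ x)).card : ℝ)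

lemma dens_nonneg {α ι : Type*} (Ω W : Finset α) (Φ : α → ι) (x : α) : 0 ≤ dens Ω W Φ x := by
  unfold dens; positivity

lemma dens_congr {α ι : Type*} (Ω W : Finset α) (Φ : α → ι) {x y : α} (h : Φ x = Φ y) :
    dens Ω W Φ x = dens Ω W Φ y := by
  unfold dens; rw [h]

lemma sum_dens_mul_le {α ι : Type*} (Ω W : Finset α) (hW : W ⊆ Ω) (Φ : α → ι)
    (g : α → ℝ) (γ : ℝ) (hg : ∀ x ∈ Ω, ∀ z ∈ W, Φ x = Φ z → g x ≤ g z + γ) :
    ∑ x ∈ Ω, dens Ω W Φ x * g x ≤ ∑ z ∈ W, (g z + γ) := by
  classical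
  have h1 : ∀ x ∈ Ω, dens Ω W Φ x * g x
      = ∑ z ∈ W, if Φ z = Φ x then g x / ((Ω.filter (fun y => Φ y = Φ z)).card : ℝ) else 0 := by
    intro x _
    unfold dens
    rw [← Finset.sum_filter]
    have : ∀ z ∈ W.filter (fun z => Φ z = Φ x),
        g x / ((Ω.filter (fun y => Φ y = Φ z)).card : ℝ)
          = g x / ((Ω.filter (fun y => Φ y = Φ x)).card : ℝ) := by
      intro z hz
      rw [(Finset.mem_filter.1 hz).2]
    rw [Finset.sum_congr rfl this, Finset.sum_const, nsmul_eq_mul]
    have e1 : ∀ (S : Finset α) (i1 i2 : DecidablePred (fun z => Φ z = Φ x)),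
        (@Finset.filter α (fun z => Φ z = Φ x) i1 S) = (@Finset.filter α (fun z => Φ z = Φ x) i2 S) := by
      intro S i1 i2; congr
    ring
  rw [Finset.sum_congr rfl h1, Finset.sum_comm]
  refine Finset.sum_le_sum (fun z hz => ?_)
  rw [← Finset.sum_filter]
  have h2 : (0 : ℝ) < ((Ω.filter (fun y => Φ y = Φ z)).card : ℝ) := by
    have : z ∈ Ω.filter (fun y => Φ y = Φ z) := Finset.mem_filter.2 ⟨hW hz, rfl⟩
    exact_mod_cast Finset.card_pos.2 ⟨z, this⟩
  have h3 : ∀ x ∈ Ω.filter (fun x => Φ z = Φ x),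
      g x / ((Ω.filter (fun y => Φ y = Φ z)).card : ℝ)
        ≤ (g z + γ) / ((Ω.filter (fun y => Φ y = Φ z)).card : ℝ) := by
    intro x hx
    obtain ⟨hx1, hx2⟩ := Finset.mem_filter.1 hx
    exact div_le_div_of_nonneg_right (hg x hx1 z hz hx2.symm) h2.le
  refine (Finset.sum_le_sum h3).trans ?_
  rw [Finset.sum_const, nsmul_eq_mul]
  have h4 : Ω.filter (fun x => Φ z = Φ x) = Ω.filter (fun y => Φ y = Φ z) := by
    ext x; simp [eq_comm]
  rw [h4, mul_div_cancel₀ _ h2.ne']

/-- number of points of `cube Y` whose shift by `-e` is outside: one-sided comparison of sums. -/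
lemma sum_shift_le {N : ℕ} (Y : ℕ) (f : (Fin N → ℤ) → ℝ) (h0 : ∀ y, 0 ≤ f y) (h1 : ∀ y, f y ≤ 1)
    (e : Fin N → ℤ) (E : ℝ) (he : ∀ l, |(e l : ℝ)| ≤ E) :
    ∑ y ∈ cube N Y, f (y - e) ≤ ∑ y ∈ cube N Y, f y + N * E * (Y : ℝ) ^ (N - 1) := by
  classical
  have hb := card_boundary Y (-e) E (fun l => by simpa using he l)
  rw [← Finset.sum_filter_add_sum_filter_not (cube N Y) (fun y => y - e ∈ cube N Y)]
  refine add_le_add ?_ ?_
  · have : ∑ y ∈ (cube N Y).filter (fun y => y - e ∈ cube N Y), f (y - e)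
        = ∑ y ∈ ((cube N Y).filter (fun y => y - e ∈ cube N Y)).image (fun y => y - e), f y := by
      rw [Finset.sum_image]
      intro a _ b _ hab
      simpa using hab
    rw [this]
    refine Finset.sum_le_sum_of_subset_of_nonneg ?_ (fun y _ _ => h0 y)
    intro y hy
    obtain ⟨z, hz, rfl⟩ := Finset.mem_image.1 hy
    exact (Finset.mem_filter.1 hz).2
  · refine le_trans ?_ hb
    have h2 : (cube N Y).filter (fun y => ¬ (y - e ∈ cube N Y))
        = (cube N Y).filter (fun x => x + -e ∉ cube N Y) := by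
      ext x; simp [sub_eq_add_neg]
    rw [h2]
    calc ∑ y ∈ (cube N Y).filter (fun x => x + -e ∉ cube N Y), f (y - e)
        ≤ ∑ y ∈ (cube N Y).filter (fun x => x + -e ∉ cube N Y), (1 : ℝ) :=
          Finset.sum_le_sum (fun y _ => h1 _)
      _ = _ := by simp

end Vale.Agent.P011.H73
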