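import Vale.Agent.P011.H73.Core

namespace Vale.Agent.P011.H73

open Finset

/-- the translation vectors `c_j + h A_j + h² B_j` -/
def vec {N J : ℕ} (B A c : Fin J → Fin N → ℤ) (j : Fin J) (h : ℕ) : Fin N → ℤ :=
  c j + ((h : ℤ) • A j + ((h : ℤ) ^ 2) • B j)

/-- unnormalised smoothing of `U` -/
noncomputable def GG {N J : ℕ} (B A c : Fin J → Fin N → ℤ) (I Q Y : ℕ) (U : Finset (Fin N → ℤ))
    (z : Fin N → ℤ) : ℝ :=
  ∑ j : Fin J, ∑ h ∈ Finset.range I, ∑ y ∈ cube N Y, ind U (z - vec B A c j h - (Q : ℤ) • y)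

lemma GG_nonneg {N J : ℕ} (B A c : Fin J → Fin N → ℤ) (I Q Y : ℕ) (U : Finset (Fin N → ℤ))
    (z : Fin N → ℤ) : 0 ≤ GG B A c I Q Y U z :=
  Finset.sum_nonneg (fun _ _ => Finset.sum_nonneg (fun _ _ => Finset.sum_nonneg
    (fun _ _ => ind_nonneg _ _)))

lemma GG_le {N J : ℕ} (B A c : Fin J → Fin N → ℤ) (I Q Y : ℕ) (U : Finset (Fin N → ℤ))
    (z : Fin N → ℤ) : GG B A c I Q Y U z ≤ J * (I * (Y : ℝ) ^ N) := by
  unfold GG
  calc _ ≤ ∑ j : Fin J, ∑ h ∈ Finset.range I, ∑ y ∈ cube N Y, (1 : ℝ) :=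
        Finset.sum_le_sum (fun _ _ => Finset.sum_le_sum (fun _ _ => Finset.sum_le_sum
          (fun _ _ => ind_le_one _ _)))
    _ = _ := by simp [card_cube]

/-- slow variation of `GG`. -/
lemma GG_slow {N J : ℕ} (B A c : Fin J → Fin N → ℤ) (I Q Y : ℕ) (U : Finset (Fin N → ℤ))
    (x z e : Fin N → ℤ) (hxz : x = z + (Q : ℤ) • e) (E : ℝ) (he : ∀ l, |(e l : ℝ)| ≤ E) :
    GG B A c I Q Y U x ≤ GG B A c I Q Y U z + J * (I * (N * E * (Y : ℝ) ^ (N - 1))) := by
  unfold GG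
  have key : ∀ (j : Fin J) (h : ℕ), ∑ y ∈ cube N Y, ind U (x - vec B A c j h - (Q : ℤ) • y)
      ≤ ∑ y ∈ cube N Y, ind U (z - vec B A c j h - (Q : ℤ) • y) + N * E * (Y : ℝ) ^ (N - 1) := by
    intro j h
    have := sum_shift_le Y (fun y => ind U (z - vec B A c j h - (Q : ℤ) • y))
      (fun y => ind_nonneg _ _) (fun y => ind_le_one _ _) e E he
    refine le_trans (le_of_eq ?_) this
    refine Finset.sum_congr rfl (fun y _ => ?_)
    congr 1
    rw [hxz, smul_sub]
    abel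
  calc _ ≤ ∑ j : Fin J, ∑ h ∈ Finset.range I,
        (∑ y ∈ cube N Y, ind U (z - vec B A c j h - (Q : ℤ) • y) + N * E * (Y : ℝ) ^ (N - 1)) :=
        Finset.sum_le_sum (fun j _ => Finset.sum_le_sum (fun h _ => key j h))
    _ = _ := by
        simp only [Finset.sum_add_distrib, Finset.sum_const, Finset.card_univ, Fintype.card_fin,
          Finset.card_range, nsmul_eq_mul]

lemma sum_ind_comm {N : ℕ} (U S : Finset (Fin N → ℤ)) (w : Fin N → ℤ) :
    ∑ z ∈ S, ind U (z - w) = ∑ x ∈ U, ind S (x + w) := by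
  classical
  rw [Finset.sum_congr rfl (g := fun z => if z - w ∈ U then (1:ℝ) else 0)
    (fun z _ => by by_cases h : z - w ∈ U <;> simp [ind, h])]
  rw [Finset.sum_congr rfl (s₂ := U) (f := fun x => ind S (x + w))
    (g := fun x => if x + w ∈ S then (1:ℝ) else 0)
    (fun z _ => by by_cases h : z + w ∈ S <;> simp [ind, h])]
  rw [← Finset.sum_filter, ← Finset.sum_filter]
  refine Finset.sum_bij' (fun z _ => z - w) (fun x _ => x + w) ?_ ?_ ?_ ?_ ?_
  · intro z hz; simp only [Finset.mem_filter] at hz ⊢; simpa using ⟨hz.2, hz.1⟩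
  · intro z hz; simp only [Finset.mem_filter] at hz ⊢; simpa using ⟨hz.2, hz.1⟩
  · intro z _; simp
  · intro z _; simp
  · intro z _; rfl

/-- the total mass of `GG` on a set as a count. -/
lemma sum_GG {N J : ℕ} (B A c : Fin J → Fin N → ℤ) (I Q Y : ℕ) (U S : Finset (Fin N → ℤ)) :
    ∑ z ∈ S, GG B A c I Q Y U z = ∑ j : Fin J, ∑ h ∈ Finset.range I, ∑ y ∈ cube N Y,
      ∑ x ∈ U, ind S (x + vec B A c j h + (Q : ℤ) • y) := by
  classical
  unfold GG
  rw [Finset.sum_comm]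
  refine Finset.sum_congr rfl (fun j _ => ?_)
  rw [Finset.sum_comm]
  refine Finset.sum_congr rfl (fun h _ => ?_)
  rw [Finset.sum_comm]
  refine Finset.sum_congr rfl (fun y _ => ?_)
  have := sum_ind_comm U S (vec B A c j h + (Q : ℤ) • y)
  rw [Finset.sum_congr rfl (g := fun z => ind U (z - (vec B A c j h + (Q : ℤ) • y)))
    (fun z _ => by rw [sub_sub]), this]
  exact Finset.sum_congr rfl (fun x _ => by rw [add_assoc])

/-- mass of `GG` in the cube. -/
lemma sum_GG_cube {N J : ℕ} (B A c : Fin J → Fin N → ℤ) (I Q Y X : ℕ) (U : Finset (Fin N → ℤ))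
    (hU : U ⊆ cube N X) (τ : ℝ)
    (hτ : ∀ j : Fin J, ∀ h < I, ∀ y ∈ cube N Y, ∀ l,
      |((vec B A c j h + (Q : ℤ) • y) l : ℝ)| ≤ τ) :
    J * (I * ((Y : ℝ) ^ N * (U.card - N * τ * (X : ℝ) ^ (N - 1))))
      ≤ ∑ z ∈ cube N X, GG B A c I Q Y U z := by
  classical
  rw [sum_GG]
  calc J * (I * ((Y : ℝ) ^ N * (U.card - N * τ * (X : ℝ) ^ (N - 1))))
      = ∑ j : Fin J, ∑ h ∈ Finset.range I, ∑ y ∈ cube N Y,
        (U.card - N * τ * (X : ℝ) ^ (N - 1)) := by
        simp only [Finset.sum_const, card_cube, Finset.card_univ, Fintype.card_fin,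
          Finset.card_range, nsmul_eq_mul, Nat.cast_pow]
    _ ≤ _ := by
        refine Finset.sum_le_sum (fun j _ => Finset.sum_le_sum (fun h hh =>
          Finset.sum_le_sum (fun y hy => ?_)))
        have hb := card_boundary X (vec B A c j h + (Q : ℤ) • y) τ
          (fun l => hτ j h (Finset.mem_range.1 hh) y hy l)
        have h1 : ∑ x ∈ U, ind (cube N X) (x + vec B A c j h + (Q : ℤ) • y)
            = (U.card : ℝ) - ((U.filter (fun x => x + (vec B A c j h + (Q : ℤ) • y)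
                ∉ cube N X)).card : ℝ) := by
          have h2 : ∀ x ∈ U, ind (cube N X) (x + vec B A c j h + (Q : ℤ) • y)
              = 1 - (if x + (vec B A c j h + (Q : ℤ) • y) ∉ cube N X then (1 : ℝ) else 0) := by
            intro x _
            rw [add_assoc]
            by_cases hx : x + (vec B A c j h + (Q : ℤ) • y) ∈ cube N X
            · rw [ind_of_mem hx, if_neg (not_not.2 hx)]; norm_num
            · rw [ind_of_not_mem hx, if_pos hx]; norm_num
          rw [Finset.sum_congr rfl h2, Finset.sum_sub_distrib, Finset.card_filter]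
          push_cast
          simp
        rw [h1]
        have h3 : ((U.filter (fun x => x + (vec B A c j h + (Q : ℤ) • y) ∉ cube N X)).card : ℝ)
            ≤ (((cube N X).filter (fun x => x + (vec B A c j h + (Q : ℤ) • y)
                ∉ cube N X)).card : ℝ) := by
          exact_mod_cast Finset.card_le_card (Finset.filter_subset_filter _ hU)
        linarith

/-- the mass of `GG` on `W` in terms of `cellAvg`. -/
lemma sum_GG_eq_cellAvg {N J : ℕ} (B A c : Fin J → Fin N → ℤ) (I Q Y : ℕ) (hY : 0 < Y)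
    (U W : Finset (Fin N → ℤ)) :
    ∑ z ∈ W, GG B A c I Q Y U z = (Y : ℝ) ^ N * ∑ j : Fin J, ∑ h ∈ Finset.range I,
      ∑ x ∈ U, cellAvg Q Y (ind W) (x + vec B A c j h) := by
  rw [sum_GG, Finset.mul_sum]
  refine Finset.sum_congr rfl (fun j _ => ?_)
  rw [Finset.mul_sum]
  refine Finset.sum_congr rfl (fun h _ => ?_)
  rw [Finset.sum_comm, Finset.mul_sum]
  refine Finset.sum_congr rfl (fun x _ => ?_)
  unfold cellAvg
  have : (Y : ℝ) ^ N ≠ 0 := by positivity
  rw [mul_div_cancel₀ _ this]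

/-- FINITE CORE: everything explicit. -/
theorem core_finite {N J : ℕ} (hJ : 0 < J) (B A c : Fin J → Fin N → ℤ)
    (U W : Finset (Fin N → ℤ)) (X I Y Q : ℕ) (hI : 0 < I) (hY : 0 < Y)
    (hU : U ⊆ cube N X) (hW : W ⊆ cube N X) (τ : ℝ)
    (hτ : ∀ j : Fin J, ∀ h < I, ∀ y ∈ cube N Y, ∀ l,
      |((vec B A c j h + (Q : ℤ) • y) l : ℝ)| ≤ τ)
    {ι : Type*} (Φ : (Fin N → ℤ) → ι) (E : ℝ)
    (hΦ : ∀ x ∈ cube N X, ∀ z ∈ cube N X, Φ x = Φ z →
      ∃ e : Fin N → ℤ, x = z + (Q : ℤ) • e ∧ ∀ l, |(e l : ℝ)| ≤ E)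
    (d η D : ℝ) (hd0 : 0 ≤ d) (hd : ∑ x ∈ cube N X, |dens (cube N X) W Φ x - d| ≤ η)
    (hL : ∀ S : Finset (Fin N → ℤ), ∑ j : Fin J, ∑ x ∈ S,
            (∑ i ∈ Finset.range I, (ind W (x + (i : ℤ) • A j + ((i : ℤ) ^ 2) • B j)
              - cellAvg Q Y (ind W) (x + (i : ℤ) • A j + ((i : ℤ) ^ 2) • B j))) ^ 2
          ≤ D * (I : ℝ) ^ 2 * W.card)
    (hmain : Real.sqrt (J * U.card * (D * W.card)) / J + η + N * E / Y * W.card
      < d * (U.card - N * τ * (X : ℝ) ^ (N - 1))) :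
    ∃ j : Fin J, ∃ h < I, ∃ x ∈ U, x + vec B A c j h ∈ W := by
  classical
  by_contra hcon
  push Not at hcon
  have hYN : (0 : ℝ) < (Y : ℝ) ^ N := by positivity
  have hJr : (0 : ℝ) < J := by exact_mod_cast hJ
  have hIr : (0 : ℝ) < I := by exact_mod_cast hI
  have hYr : (0 : ℝ) < Y := by exact_mod_cast hY
  -- the count vanishes
  have hP : ∑ j : Fin J, ∑ h ∈ Finset.range I, ∑ x ∈ U, ind W (x + vec B A c j h) = 0 := by
    refine Finset.sum_eq_zero (fun j _ => Finset.sum_eq_zero (fun h hh =>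
      Finset.sum_eq_zero (fun x hx => ?_)))
    exact ind_of_not_mem (hcon j h (Finset.mem_range.1 hh) x hx)
  -- linking bound
  set F : Fin J → (Fin N → ℤ) → ℝ := fun j x =>
    ∑ i ∈ Finset.range I, (ind W (x + (i : ℤ) • A j + ((i : ℤ) ^ 2) • B j)
              - cellAvg Q Y (ind W) (x + (i : ℤ) • A j + ((i : ℤ) ^ 2) • B j)) with hF
  set S : Finset (Fin N → ℤ) := Finset.univ.biUnion (fun j : Fin J => U.image (fun x => x + c j))
    with hS
  have hdiff : ∑ j : Fin J, ∑ x ∈ U, F j (x + c j)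
      = ∑ j : Fin J, ∑ h ∈ Finset.range I, ∑ x ∈ U, ind W (x + vec B A c j h)
        - ∑ j : Fin J, ∑ h ∈ Finset.range I, ∑ x ∈ U, cellAvg Q Y (ind W) (x + vec B A c j h) := by
    rw [← Finset.sum_sub_distrib]
    refine Finset.sum_congr rfl (fun j _ => ?_)
    rw [← Finset.sum_sub_distrib, Finset.sum_comm]
    refine Finset.sum_congr rfl (fun h _ => ?_)
    rw [← Finset.sum_sub_distrib]
    refine Finset.sum_congr rfl (fun x _ => ?_)
    have : x + c j + (h : ℤ) • A j + ((h : ℤ) ^ 2) • B j = x + vec B A c j h := by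
      unfold vec; abel
    rw [this]
  have hsq : (∑ j : Fin J, ∑ x ∈ U, F j (x + c j)) ^ 2
      ≤ (J * U.card) * (D * (I : ℝ) ^ 2 * W.card) := by
    have h1 : (∑ j : Fin J, ∑ x ∈ U, F j (x + c j)) ^ 2
        ≤ (((Finset.univ : Finset (Fin J)) ×ˢ U).card : ℝ)
          * ∑ q ∈ (Finset.univ : Finset (Fin J)) ×ˢ U, (F q.1 (q.2 + c q.1)) ^ 2 := by
      rw [← Finset.sum_product']
      exact sq_sum_le_card_mul_sum_sq
    refine h1.trans ?_
    rw [Finset.card_product, Finset.card_univ, Fintype.card_fin]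
    push_cast
    refine mul_le_mul_of_nonneg_left ?_ (by positivity)
    rw [Finset.sum_product]
    refine le_trans ?_ (hL S)
    refine Finset.sum_le_sum (fun j _ => ?_)
    have h2 : ∑ x ∈ U, (F j (x + c j)) ^ 2 = ∑ x ∈ U.image (fun x => x + c j), (F j x) ^ 2 := by
      rw [Finset.sum_image]
      intro a _ b _ hab
      simpa using hab
    rw [h2]
    refine Finset.sum_le_sum_of_subset_of_nonneg ?_ (fun _ _ _ => sq_nonneg _)
    intro x hx
    rw [hS]
    exact Finset.mem_biUnion.2 ⟨j, Finset.mem_univ _, hx⟩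
  have hK := sum_GG_eq_cellAvg B A c I Q Y hY U W
  -- main term
  have hγ : ∀ x ∈ cube N X, ∀ z ∈ W, Φ x = Φ z →
      GG B A c I Q Y U x ≤ GG B A c I Q Y U z + J * (I * (N * E * (Y : ℝ) ^ (N - 1))) := by
    intro x hx z hz hxz
    obtain ⟨e, he1, he2⟩ := hΦ x hx z (hW hz) hxz
    exact GG_slow B A c I Q Y U x z e he1 E he2
  have hm1 := sum_dens_mul_le (cube N X) W hW Φ (GG B A c I Q Y U) _ hγ
  have hm2 : d * ∑ x ∈ cube N X, GG B A c I Q Y U x
      ≤ ∑ x ∈ cube N X, dens (cube N X) W Φ x * GG B A c I Q Y U x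
        + J * (I * (Y : ℝ) ^ N) * η := by
    have h1 : ∑ x ∈ cube N X, (d - dens (cube N X) W Φ x) * GG B A c I Q Y U x
        ≤ ∑ x ∈ cube N X, |dens (cube N X) W Φ x - d| * (J * (I * (Y : ℝ) ^ N)) := by
      refine Finset.sum_le_sum (fun x _ => ?_)
      have ha : d - dens (cube N X) W Φ x ≤ |dens (cube N X) W Φ x - d| := by
        rw [abs_sub_comm]; exact le_abs_self _
      calc _ ≤ |dens (cube N X) W Φ x - d| * GG B A c I Q Y U x :=
            mul_le_mul_of_nonneg_right ha (GG_nonneg _ _ _ _ _ _ _ _)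
        _ ≤ _ := mul_le_mul_of_nonneg_left (GG_le _ _ _ _ _ _ _ _) (abs_nonneg _)
    rw [← Finset.sum_mul] at h1
    have h2 : (∑ x ∈ cube N X, |dens (cube N X) W Φ x - d|) * (J * (I * (Y : ℝ) ^ N))
        ≤ η * (J * (I * (Y : ℝ) ^ N)) := mul_le_mul_of_nonneg_right hd (by positivity)
    have h3 : ∑ x ∈ cube N X, (d - dens (cube N X) W Φ x) * GG B A c I Q Y U x
        = d * ∑ x ∈ cube N X, GG B A c I Q Y U x
          - ∑ x ∈ cube N X, dens (cube N X) W Φ x * GG B A c I Q Y U x := by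
      rw [Finset.mul_sum, ← Finset.sum_sub_distrib]
      exact Finset.sum_congr rfl (fun x _ => by ring)
    linarith
  have hm3 := sum_GG_cube B A c I Q Y X U hU τ hτ
  rw [Finset.sum_add_distrib, Finset.sum_const, nsmul_eq_mul, hK] at hm1
  -- combine
  set PK := ∑ j : Fin J, ∑ h ∈ Finset.range I, ∑ x ∈ U, cellAvg Q Y (ind W) (x + vec B A c j h)
    with hPK
  rw [hP, zero_sub] at hdiff
  rw [hdiff, neg_sq] at hsq
  have hPKle : PK ≤ Real.sqrt ((J * U.card) * (D * (I : ℝ) ^ 2 * W.card)) :=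
    Real.le_sqrt_of_sq_le hsq
  have hsqrt : Real.sqrt ((J * U.card) * (D * (I : ℝ) ^ 2 * W.card))
      = I * Real.sqrt (J * U.card * (D * W.card)) := by
    have : (J * U.card : ℝ) * (D * (I : ℝ) ^ 2 * W.card)
        = (I : ℝ) ^ 2 * (J * U.card * (D * W.card)) := by ring
    rw [this, Real.sqrt_mul (by positivity), Real.sqrt_sq hIr.le]
  rw [hsqrt] at hPKle
  have hN1 : (N : ℝ) * E * (Y : ℝ) ^ (N - 1) = N * E / Y * (Y : ℝ) ^ N := by
    rcases Nat.eq_zero_or_pos N with h | h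
    · subst h; simp
    · have : (Y : ℝ) ^ N = (Y : ℝ) ^ (N - 1) * Y := by
        rw [← pow_succ]; congr 1; omega
      rw [this]; field_simp
  rw [hN1] at hm1
  have h5 : d * (J * (I * ((Y : ℝ) ^ N * (U.card - N * τ * (X : ℝ) ^ (N - 1)))))
      ≤ (Y : ℝ) ^ N * PK + W.card * (J * (I * (N * E / Y * (Y : ℝ) ^ N)))
        + J * (I * (Y : ℝ) ^ N) * η := by
    have := mul_le_mul_of_nonneg_left hm3 hd0
    linarith
  have h6 : (Y : ℝ) ^ N * (J * I * (d * (U.card - N * τ * (X : ℝ) ^ (N - 1))))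
      ≤ (Y : ℝ) ^ N * (I * Real.sqrt (J * U.card * (D * W.card))
        + J * I * (N * E / Y * W.card) + J * I * η) := by
    have := mul_le_mul_of_nonneg_left hPKle hYN.le
    nlinarith [h5, this]
  have h7 := le_of_mul_le_mul_left h6 hYN
  have h8 : I * Real.sqrt (J * U.card * (D * W.card))
      = J * I * (Real.sqrt (J * U.card * (D * W.card)) / J) := by
    field_simp
  rw [h8] at h7
  have h9 : (J : ℝ) * I * (d * (U.card - N * τ * (X : ℝ) ^ (N - 1)))
      ≤ J * I * (Real.sqrt (J * U.card * (D * W.card)) / J + η + N * E / Y * W.card) := by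
    linarith
  have h10 := le_of_mul_le_mul_left h9 (by positivity)
  linarith

end Vale.Agent.P011.H73
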