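import Vale.Agent.P011.H73.CubeB

/-!
# CUBE-A

Two sets, both dense and with (almost) constant densities on the fine cells of modulus prime to
`p` of the standard cube, are linked by translations `h A_j + h² B_j`, where the family `B i ζ`
may be chosen according to a prescribed class `ζ` modulo `p^i` (macro move).
-/

namespace Vale.Agent.P011.H73

open Finset

lemma abs_sub_ge_of (a d ε : ℝ) (hd : ε ≤ d) (ha : a < ε / 2) (hε : 0 < ε) :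
    1 ≤ 2 / ε * |a - d| := by
  have h1 : ε / 2 ≤ |a - d| := by
    rw [abs_sub_comm]
    refine le_trans ?_ (le_abs_self _)
    linarith
  calc (1 : ℝ) = 2 / ε * (ε / 2) := by field_simp
    _ ≤ _ := mul_le_mul_of_nonneg_left h1 (by positivity)

/-- the selection of the two cells. -/
lemma select_A {α ι κ : Type*} (Ω : Finset α) (hΩ : Ω.Nonempty) (Ψ : α → ι) (Λ : α → κ)
    (hΨΛ : ∀ x ∈ Ω, ∀ z ∈ Ω, Ψ x = Ψ z → Λ x = Λ z)
    (u w e : α → ℝ) (hw1 : ∀ x, w x ≤ 1) (he : ∀ x, 0 ≤ e x)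
    (ε τ δ : ℝ) (hε : 0 < ε) (hτ : 0 < τ) (hδ : δ ≤ ε / 16)
    (dU dW : ℝ) (hdU : ε ≤ dU) (hdW : ε ≤ dW)
    (hU : ∑ x ∈ Ω, |favg Ω Λ u x - dU| ≤ δ * Ω.card)
    (hW : ∑ x ∈ Ω, |favg Ω Λ w x - dW| ≤ δ * Ω.card)
    (hsmall : ∑ x ∈ Ω, e x ≤ (ε * τ / 32) * Ω.card) :
    ∃ x₁ ∈ Ω, ∃ x₂ ∈ Ω, Λ x₁ = Λ x₂ ∧ ε / 4 ≤ favg Ω Ψ u x₁ ∧ ε / 4 ≤ favg Ω Ψ w x₂ ∧
      favg Ω Ψ e x₂ ≤ τ := by
  classical
  have hc : (0 : ℝ) < Ω.card := by exact_mod_cast hΩ.card_pos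
  obtain ⟨x₀, hx₀, h1, h2, h3⟩ : ∃ x₀ ∈ Ω, ε / 2 ≤ favg Ω Λ u x₀ ∧ ε / 2 ≤ favg Ω Λ w x₀ ∧
      favg Ω Λ e x₀ ≤ ε * τ / 8 := by
    by_contra hcon
    push Not at hcon
    have hpt : ∀ x ∈ Ω, (1 : ℝ) ≤ 2 / ε * |favg Ω Λ u x - dU| + 2 / ε * |favg Ω Λ w x - dW|
        + 8 / (ε * τ) * favg Ω Λ e x := by
      intro x hx
      have a1 : 0 ≤ 2 / ε * |favg Ω Λ u x - dU| := by positivity
      have a2 : 0 ≤ 2 / ε * |favg Ω Λ w x - dW| := by positivity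
      have a3 : 0 ≤ 8 / (ε * τ) * favg Ω Λ e x :=
        mul_nonneg (by positivity) (favg_nonneg _ _ _ (fun x _ => he x) x)
      by_cases c1 : favg Ω Λ u x < ε / 2
      · have := abs_sub_ge_of _ _ _ hdU c1 hε
        linarith
      · by_cases c2 : favg Ω Λ w x < ε / 2
        · have := abs_sub_ge_of _ _ _ hdW c2 hε
          linarith
        · have c3 := hcon x hx (not_lt.1 c1) (not_lt.1 c2)
          have c4 : 8 / (ε * τ) * (ε * τ / 8) ≤ 8 / (ε * τ) * favg Ω Λ e x :=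
            mul_le_mul_of_nonneg_left c3.le (by positivity)
          have c5 : 8 / (ε * τ) * (ε * τ / 8) = 1 := by field_simp
          linarith
    have hs := Finset.sum_le_sum hpt
    rw [Finset.sum_add_distrib, Finset.sum_add_distrib, ← Finset.mul_sum, ← Finset.mul_sum,
      ← Finset.mul_sum, sum_favg, Finset.sum_const, nsmul_eq_mul, mul_one] at hs
    have b1 : 2 / ε * ∑ x ∈ Ω, |favg Ω Λ u x - dU| ≤ Ω.card / 8 := by
      calc _ ≤ 2 / ε * (ε / 16 * Ω.card) :=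
            mul_le_mul_of_nonneg_left (hU.trans (mul_le_mul_of_nonneg_right hδ hc.le))
              (by positivity)
        _ = _ := by field_simp; ring
    have b2 : 2 / ε * ∑ x ∈ Ω, |favg Ω Λ w x - dW| ≤ Ω.card / 8 := by
      calc _ ≤ 2 / ε * (ε / 16 * Ω.card) :=
            mul_le_mul_of_nonneg_left (hW.trans (mul_le_mul_of_nonneg_right hδ hc.le))
              (by positivity)
        _ = _ := by field_simp; ring
    have b3 : 8 / (ε * τ) * ∑ x ∈ Ω, e x ≤ Ω.card / 4 := by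
      calc _ ≤ 8 / (ε * τ) * ((ε * τ / 32) * Ω.card) :=
            mul_le_mul_of_nonneg_left hsmall (by positivity)
        _ = _ := by field_simp; ring
    linarith
  have hc0 := card_fib_pos (Φ := Λ) hx₀
  have tow : ∀ f : α → ℝ, ∑ x ∈ fib Ω Λ x₀, favg Ω Ψ f x = (fib Ω Λ x₀).card * favg Ω Λ f x₀ := by
    intro f
    have t1 := sum_fib Ω Λ (favg Ω Ψ f) hx₀
    rw [t1, favg_favg Ω Ψ Λ hΨΛ f x₀]
  -- first cell
  obtain ⟨x₁, hx₁, hu1⟩ : ∃ x₁ ∈ fib Ω Λ x₀, ε / 2 ≤ favg Ω Ψ u x₁ := by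
    by_contra hcon
    push Not at hcon
    have := Finset.sum_lt_sum_of_nonempty ⟨x₀, self_mem_fib hx₀⟩ hcon
    rw [tow, Finset.sum_const, nsmul_eq_mul] at this
    have := lt_of_mul_lt_mul_left this hc0.le
    linarith
  -- second cell
  obtain ⟨x₂, hx₂, hw2, he2⟩ : ∃ x₂ ∈ fib Ω Λ x₀, ε / 4 ≤ favg Ω Ψ w x₂ ∧
      favg Ω Ψ e x₂ ≤ τ := by
    by_contra hcon
    push Not at hcon
    have hpt : ∀ x ∈ fib Ω Λ x₀, favg Ω Ψ w x ≤ ε / 4 + favg Ω Ψ e x / τ := by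
      intro x hx
      have a3 : 0 ≤ favg Ω Ψ e x / τ :=
        div_nonneg (favg_nonneg _ _ _ (fun x _ => he x) x) hτ.le
      by_cases c : favg Ω Ψ w x < ε / 4
      · linarith
      · have c1 := hcon x hx (not_lt.1 c)
        have c2 : 1 ≤ favg Ω Ψ e x / τ := by
          rw [le_div_iff₀ hτ]; linarith
        have c3 := favg_le_one Ω Ψ w (fun x _ => hw1 x) (fib_subset hx)
        linarith
    have hs := Finset.sum_le_sum hpt
    have hs6 : ∑ x ∈ fib Ω Λ x₀, favg Ω Ψ e x / τ = (fib Ω Λ x₀).card * favg Ω Λ e x₀ / τ := by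
      rw [← Finset.sum_div, tow]
    rw [Finset.sum_add_distrib, tow, hs6, Finset.sum_const, nsmul_eq_mul] at hs
    have b1 : (fib Ω Λ x₀).card * favg Ω Λ e x₀ / τ ≤ (fib Ω Λ x₀).card * (ε / 8) := by
      rw [mul_div_assoc]
      apply mul_le_mul_of_nonneg_left _ hc0.le
      rw [div_le_iff₀ hτ]
      linarith
    have b2 : (fib Ω Λ x₀).card * (ε / 2) ≤ (fib Ω Λ x₀).card * favg Ω Λ w x₀ :=
      mul_le_mul_of_nonneg_left h2 hc0.le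
    nlinarith [mul_pos hc0 hε]
  refine ⟨x₁, fib_subset hx₁, x₂, fib_subset hx₂, ?_, by linarith, hw2, he2⟩
  rw [(mem_fib.1 hx₁).2, (mem_fib.1 hx₂).2]

/-- the multiplier `h₀`: divisible by `q`, congruent to `1` mod `P`. -/
lemma exists_h0 {q P : ℕ} (hq : 0 < q) (hP : 0 < P) (hqP : q.Coprime P) :
    ∃ h₀ : ℕ, 0 < h₀ ∧ h₀ ≤ 2 * (q * P) ∧ (q : ℤ) ∣ (h₀ : ℤ) ∧ (P : ℤ) ∣ (h₀ : ℤ) - 1 := by
  have hcr := (Nat.chineseRemainder hqP 0 1).2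
  have hlt := Nat.chineseRemainder_lt_mul hqP 0 1 hq.ne' hP.ne'
  set c : ℕ := (Nat.chineseRemainder hqP 0 1 : ℕ) with hc
  refine ⟨c + q * P, Nat.add_pos_right _ (Nat.mul_pos hq hP), by omega, ?_, ?_⟩
  · have h1 : q ∣ c := (Nat.modEq_zero_iff_dvd).1 hcr.1
    have h2 : q ∣ c + q * P := Dvd.dvd.add h1 (Dvd.intro _ rfl)
    exact_mod_cast h2
  · have h1 : (P : ℤ) ∣ (c : ℤ) - 1 := by
      have := (Int.natCast_modEq_iff.2 hcr.2).symm.dvd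
      simpa using this
    have h2 : ((c + q * P : ℕ) : ℤ) - 1 = ((c : ℤ) - 1) + P * q := by push_cast; ring
    rw [h2]
    exact Dvd.dvd.add h1 (Dvd.intro _ rfl)

/-- the data of one level for CUBE-A. -/
def LevelA {N J : ℕ} (p : ℕ) (B : ℕ → (Fin N → ℤ) → Fin J → Fin N → ℤ) (ε : ℝ) (C : ℕ → ℝ)
    (lv : ℕ × ℕ) (Q k : ℕ) (X₀ : ℝ) : Prop :=
  ∀ ζ ∈ cube N (p ^ lv.1.factorization p), ∀ X D : ℕ, X₀ ≤ X → X = lv.1 * lv.2 * D →
      ∀ A : Fin J → Fin N → ℤ,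
        (∀ j l, |(A j l : ℝ)| ≤ C (lv.1.factorization p) * Real.sqrt X) →
      ∀ h₀ : ℕ, h₀ ≤ 2 * lv.1 → ∀ x₁ ∈ cube N X, ∀ x₂ ∈ cube N X,
        (∀ l, x₁ l / ((X / lv.2 : ℕ) : ℤ) = x₂ l / ((X / lv.2 : ℕ) : ℤ)) →
        (∀ j l, (lv.1 : ℤ) ∣ (h₀ : ℤ) ^ 2 * B (lv.1.factorization p) ζ j l + h₀ * A j l
          + (x₁ l - x₂ l)) →
      ∀ U W : Finset (Fin N → ℤ),
        ε / 4 ≤ favg (cube N X) (Phi X lv.1 lv.2) (ind U) x₁ →
      ∀ (Φ : (Fin N → ℤ) → (Fin N → ℤ × ℤ)),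
        (∀ x ∈ cube N X, ∀ z ∈ cube N X, Φ x = Φ z → Phi X lv.1 lv.2 x = Phi X lv.1 lv.2 z ∧
          ∀ l, ((lv.1 * Q : ℕ) : ℤ) ∣ x l - z l ∧ |((x l : ℝ) - z l)| ≤ X / (lv.2 * k)) →
        ε / 4 ≤ favg (cube N X) (Phi X lv.1 lv.2) (ind W) x₂ →
        ∑ x ∈ fib (cube N X) (Phi X lv.1 lv.2) x₂,
          |favg (cube N X) Φ (ind W) x - favg (cube N X) (Phi X lv.1 lv.2) (ind W) x₂|
          ≤ (ε / 4) ^ 2 / 8 * (fib (cube N X) (Phi X lv.1 lv.2) x₂).card →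
      ∃ j : Fin J, ∃ h : ℕ, ∃ x ∈ U,
        x + vec (B (lv.1.factorization p) ζ) A 0 j (h₀ + lv.1 * h) ∈ W

lemma exists_levelA {N J : ℕ} (hN : 0 < N) (hJ : 0 < J) (p : ℕ)
    (B : ℕ → (Fin N → ℤ) → Fin J → Fin N → ℤ) (hB : ∀ i ζ, H63.GenPos (B i ζ))
    (ε : ℝ) (hε : 0 < ε) (hε1 : ε ≤ 1)
    (hJε : 4 * ((N : ℝ) - 1) ≤ ((ε / 4) ^ 2 / 16) ^ 2 * J) (C : ℕ → ℝ) (hC : ∀ i, 0 < C i)
    (lv : ℕ × ℕ) (h1 : 0 < lv.1) (h2 : 0 < lv.2) :
    ∃ Q k : ℕ, 0 < Q ∧ 0 < k ∧ ∃ X₀ : ℝ, LevelA p B ε C lv Q k X₀ := by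
  classical
  have h := fun ζ : Fin N → ℤ => core_cell hN hJ (B (lv.1.factorization p) ζ)
    (hB (lv.1.factorization p) ζ) lv.1 lv.2 h1 h2 (ε / 4) (by positivity) (by linarith) hJε
    (C (lv.1.factorization p)) (hC _) (2 * lv.1)
  choose Qf kf hQf hkf Xf hX using h
  refine ⟨∏ ζ ∈ cube N (p ^ lv.1.factorization p), Qf ζ,
    ∏ ζ ∈ cube N (p ^ lv.1.factorization p), kf ζ,
    Finset.prod_pos (fun ζ _ => hQf ζ), Finset.prod_pos (fun ζ _ => hkf ζ),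
    ∑ ζ ∈ cube N (p ^ lv.1.factorization p), |Xf ζ|, ?_⟩
  intro ζ hζ X D hX₀ hXD A hA h₀ hh₀ x₁ hx₁ x₂ hx₂ hpos hdvd U W hU Φ hΦ hW hst
  refine hX ζ X D ?_ hXD A hA h₀ hh₀ x₁ hx₁ x₂ hx₂ hpos hdvd U W hU Φ ?_ hW hst
  · have a1 : |Xf ζ| ≤ ∑ ζ ∈ cube N (p ^ lv.1.factorization p), |Xf ζ| :=
      Finset.single_le_sum (f := fun ζ => |Xf ζ|) (fun _ _ => abs_nonneg _) hζ
    linarith [le_abs_self (Xf ζ)]
  · intro x hx z hz hxz
    obtain ⟨a1, a2⟩ := hΦ x hx z hz hxz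
    refine ⟨a1, fun l => ?_⟩
    obtain ⟨b1, b2⟩ := a2 l
    have d1 : Qf ζ ∣ ∏ ζ ∈ cube N (p ^ lv.1.factorization p), Qf ζ := Finset.dvd_prod_of_mem _ hζ
    have d2 : kf ζ ∣ ∏ ζ ∈ cube N (p ^ lv.1.factorization p), kf ζ := Finset.dvd_prod_of_mem _ hζ
    refine ⟨dvd_trans ?_ b1, b2.trans ?_⟩
    · exact_mod_cast Nat.mul_dvd_mul_left lv.1 d1
    · have e1 : (kf ζ : ℝ) ≤ ((∏ ζ ∈ cube N (p ^ lv.1.factorization p), kf ζ : ℕ) : ℝ) := by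
        exact_mod_cast Nat.le_of_dvd (Finset.prod_pos (fun ζ _ => hkf ζ)) d2
      have e2 : (0 : ℝ) < kf ζ := by exact_mod_cast hkf ζ
      have e3 : (0 : ℝ) < lv.2 := by exact_mod_cast h2
      apply div_le_div_of_nonneg_left (by positivity) (by positivity)
      exact mul_le_mul_of_nonneg_left e1 e3.le

theorem cube_A {N J : ℕ} (hN : 0 < N) (hJ : 0 < J) (p : ℕ) (hp : p.Prime)
    (B : ℕ → (Fin N → ℤ) → Fin J → Fin N → ℤ)
    (hBc : ∀ i ζ j l, ((p ^ i : ℕ) : ℤ) ∣ B i ζ j l - ζ l)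
    (hB : ∀ i ζ, H63.GenPos (B i ζ)) (ε : ℝ) (hε : 0 < ε) (hε1 : ε ≤ 1)
    (hJε : 4 * ((N : ℝ) - 1) ≤ ((ε / 4) ^ 2 / 16) ^ 2 * J) (C : ℕ → ℝ) (hC : ∀ i, 0 < C i) :
    ∃ q K imax : ℕ, 0 < q ∧ q.Coprime p ∧ 0 < K ∧ ∃ X₀ : ℝ,
      ∀ X D : ℕ, X₀ ≤ X → X = q * p ^ imax * K * D →
      ∀ A : ℕ → (Fin N → ℤ) → Fin J → Fin N → ℤ,
        (∀ i ≤ imax, ∀ ζ ∈ cube N (p ^ i), ∀ j l, ((p ^ i : ℕ) : ℤ) ∣ A i ζ j l ∧
          |(A i ζ j l : ℝ)| ≤ C i * Real.sqrt X) →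
      ∀ U W : Finset (Fin N → ℤ), ∀ dU dW : ℝ, ε ≤ dU → ε ≤ dW →
        ∑ x ∈ cube N X, |favg (cube N X) (Phi X q K) (ind U) x - dU| ≤ ε / 16 * (X : ℝ) ^ N →
        ∑ x ∈ cube N X, |favg (cube N X) (Phi X q K) (ind W) x - dW| ≤ ε / 16 * (X : ℝ) ^ N →
      ∃ i ≤ imax, ∃ ζ ∈ cube N (p ^ i), ∃ j : Fin J, ∃ h : ℕ, 0 < h ∧
        ∃ x ∈ U, x + vec (B i ζ) (A i ζ) 0 j h ∈ W := by
  classical
  obtain ⟨τ, hτ⟩ : ∃ τ : ℝ, τ = (ε / 4) ^ 2 / 8 := ⟨_, rfl⟩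
  have hτ0 : 0 < τ := by rw [hτ]; positivity
  obtain ⟨S, hS⟩ := exists_nat_gt (32 / (ε * τ ^ 2))
  have hSr : (0 : ℝ) < S := lt_of_le_of_lt (by positivity) hS
  have hS0 : 0 < S := by exact_mod_cast hSr
  have hS8 : 1 / (S : ℝ) ≤ ε * τ ^ 2 / 32 := by
    rw [div_lt_iff₀ (by positivity)] at hS
    rw [div_le_div_iff₀ (by positivity) (by norm_num)]
    linarith
  obtain ⟨lv, hpos, hlv⟩ := exists_chain (LevelA p B ε C)
    (fun lv h1 h2 => exists_levelA hN hJ p B hB ε hε hε1 hJε C hC lv h1 h2)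
  choose Qf kf hQf hkf hnext Xf hcell using hlv
  have hdv : ∀ {s t : ℕ}, s ≤ t → (lv s).1 ∣ (lv t).1 ∧ (lv s).2 ∣ (lv t).2 :=
    fun {s t} hst => chain_dvd lv (fun s => ⟨Qf s, kf s, hnext s⟩) hst
  -- the part prime to `p`
  set qq : ℕ → ℕ := fun s => (lv s).1 / p ^ (lv s).1.factorization p with hqq
  have hqq1 : ∀ s, qq s * p ^ (lv s).1.factorization p = (lv s).1 := fun s =>
    Nat.div_mul_cancel (Nat.ordProj_dvd _ _)
  have hqq0 : ∀ s, 0 < qq s := fun s => Nat.ordCompl_pos p (hpos s).1.ne'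
  have hqqc : ∀ s, (qq s).Coprime p := fun s =>
    (Nat.coprime_ordCompl hp (hpos s).1.ne').symm
  have hqqdvd : ∀ {s t : ℕ}, s ≤ t → qq s ∣ qq t := fun {s t} hst =>
    Nat.ordCompl_dvd_ordCompl_of_dvd (hdv hst).1 p
  have hfac : ∀ {s t : ℕ}, s ≤ t → (lv s).1.factorization p ≤ (lv t).1.factorization p :=
    fun {s t} hst => (Nat.factorization_le_iff_dvd (hpos s).1.ne' (hpos t).1.ne').2
      (hdv hst).1 p
  refine ⟨qq S, (lv S).2, (lv S).1.factorization p, hqq0 S, hqqc S, (hpos S).2,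
    1 + ∑ s ∈ Finset.range S, |Xf s|, ?_⟩
  intro X D hX hXD A hA U W dU dW hdU hdW hUs hWs
  rw [hqq1 S] at hXD
  have hsum0 : 0 ≤ ∑ s ∈ Finset.range S, |Xf s| := Finset.sum_nonneg (fun _ _ => abs_nonneg _)
  have hXr : (0 : ℝ) < X := by linarith
  have hX0 : 0 < X := by exact_mod_cast hXr
  have hXN : (0 : ℝ) < (X : ℝ) ^ N := by positivity
  have hcard : ((cube N X).card : ℝ) = (X : ℝ) ^ N := by rw [card_cube]; push_cast; rfl
  have hne : (cube N X).Nonempty := by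
    rw [← Finset.card_pos, card_cube]; positivity
  have hXf : ∀ s < S, Xf s ≤ X := by
    intro s hs
    have h1 : |Xf s| ≤ ∑ s ∈ Finset.range S, |Xf s| :=
      Finset.single_le_sum (f := fun s => |Xf s|) (fun _ _ => abs_nonneg _)
        (Finset.mem_range.2 hs)
    have := le_abs_self (Xf s)
    linarith
  have hdX : ∀ s ≤ S, ∃ D' : ℕ, X = (lv s).1 * (lv s).2 * D' := by
    intro s hs
    obtain ⟨⟨a, ha⟩, ⟨b, hb⟩⟩ := hdv hs
    exact ⟨a * b * D, by rw [hXD, ha, hb]; ring⟩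
  have hKX : ∀ s ≤ S, (lv s).2 ∣ X := by
    intro s hs
    obtain ⟨D', hD'⟩ := hdX s hs
    exact ⟨(lv s).1 * D', by rw [hD']; ring⟩
  have hcoarse : ∀ {s t : ℕ}, s ≤ t → t ≤ S → ∀ x ∈ cube N X, ∀ z ∈ cube N X,
      Phi X (lv t).1 (lv t).2 x = Phi X (lv t).1 (lv t).2 z →
      Phi X (lv s).1 (lv s).2 x = Phi X (lv s).1 (lv s).2 z := by
    intro s t hst htS x _ z _ h
    exact Phi_coarse (hdv hst).1 (hdv hst).2 (hKX t htS) hX0 h
  have hcoarseq : ∀ {s t : ℕ}, s ≤ t → t ≤ S → ∀ x ∈ cube N X, ∀ z ∈ cube N X,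
      Phi X (qq t) (lv t).2 x = Phi X (qq t) (lv t).2 z →
      Phi X (qq s) (lv s).2 x = Phi X (qq s) (lv s).2 z := by
    intro s t hst htS x _ z _ h
    exact Phi_coarse (hqqdvd hst) (hdv hst).2 (hKX t htS) hX0 h
  have hcoarsel : ∀ s ≤ S, ∀ x ∈ cube N X, ∀ z ∈ cube N X,
      Phi X (lv s).1 (lv s).2 x = Phi X (lv s).1 (lv s).2 z →
      Phi X (qq s) (lv s).2 x = Phi X (qq s) (lv s).2 z := by
    intro s hs x _ z _ h
    exact Phi_coarse (Nat.ordCompl_dvd _ _) dvd_rfl (hKX s hs) hX0 h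
  -- energies
  have hEtop : ∑ x ∈ cube N X, favg (cube N X) (Phi X (lv S).1 (lv S).2) (ind W) x ^ 2
      ≤ (X : ℝ) ^ N := by
    calc _ ≤ ∑ x ∈ cube N X, (1 : ℝ) := by
          refine Finset.sum_le_sum (fun x hx => ?_)
          have h1 := favg_le_one (cube N X) (Phi X (lv S).1 (lv S).2) (ind W)
            (fun x _ => ind_le_one _ _) hx
          have h0 := favg_nonneg (cube N X) (Phi X (lv S).1 (lv S).2) (ind W)
            (fun x _ => ind_nonneg _ _) x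
          nlinarith
      _ = _ := by simp [card_cube]
  obtain ⟨s, hsS, hjump⟩ := exists_small_jump
    (fun s => ∑ x ∈ cube N X, favg (cube N X) (Phi X (lv s).1 (lv s).2) (ind W) x ^ 2) S hS0
    ((X : ℝ) ^ N) (Finset.sum_nonneg (fun _ _ => sq_nonneg _)) hEtop
  rw [← sum_sq_favg_sub (cube N X) (Phi X (lv (s + 1)).1 (lv (s + 1)).2)
    (Phi X (lv s).1 (lv s).2) (hcoarse (Nat.le_succ s) hsS) (ind W)] at hjump
  -- coarse constancy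
  have hconst : ∀ (V : Finset (Fin N → ℤ)) (d : ℝ),
      ∑ x ∈ cube N X, |favg (cube N X) (Phi X (qq S) (lv S).2) (ind V) x - d|
        ≤ ε / 16 * (X : ℝ) ^ N →
      ∑ x ∈ cube N X, |favg (cube N X) (Phi X (qq s) (lv s).2) (ind V) x - d|
        ≤ ε / 16 * (cube N X).card := by
    intro V d hV
    rw [hcard]
    refine le_trans ?_ hV
    have h1 := sum_abs_favg_le (cube N X) (Phi X (qq S) (lv S).2) (Phi X (qq s) (lv s).2)
      (hcoarseq hsS.le le_rfl) (ind V) (fun _ => d)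
    rw [Finset.sum_congr rfl (fun x hx => by rw [favg_const _ _ d hx]),
      Finset.sum_congr rfl (s₂ := cube N X)
        (f := fun x => |favg (cube N X) (Phi X (qq S) (lv S).2) (ind V) x
          - favg (cube N X) (Phi X (qq S) (lv S).2) (fun _ => d) x|)
        (fun x hx => by rw [favg_const _ _ d hx])] at h1
    exact h1
  obtain ⟨x₁, hx₁, x₂, hx₂, hΛ, hu, hw, hee⟩ := select_A (cube N X) hne
    (Phi X (lv s).1 (lv s).2) (Phi X (qq s) (lv s).2) (hcoarsel s hsS.le) (ind U) (ind W)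
    (fun x => (favg (cube N X) (Phi X (lv (s + 1)).1 (lv (s + 1)).2) (ind W) x
      - favg (cube N X) (Phi X (lv s).1 (lv s).2) (ind W) x) ^ 2)
    (fun x => ind_le_one _ _) (fun x => sq_nonneg _) ε (τ ^ 2) (ε / 16) hε (by positivity) le_rfl
    dU dW hdU hdW (hconst U dU hUs) (hconst W dW hWs) (by
      rw [hcard]
      refine hjump.trans ?_
      rw [div_eq_mul_one_div, mul_comm]
      exact mul_le_mul_of_nonneg_right hS8 hXN.le)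
  -- stability on the second cell
  have hst : ∑ x ∈ fib (cube N X) (Phi X (lv s).1 (lv s).2) x₂,
      |favg (cube N X) (Phi X (lv (s + 1)).1 (lv (s + 1)).2) (ind W) x
        - favg (cube N X) (Phi X (lv s).1 (lv s).2) (ind W) x₂|
      ≤ τ * (fib (cube N X) (Phi X (lv s).1 (lv s).2) x₂).card := by
    apply sum_abs_le_of_sum_sq _ _ _ hτ0.le
    have h1 := sum_fib (cube N X) (Phi X (lv s).1 (lv s).2)
      (fun x => (favg (cube N X) (Phi X (lv (s + 1)).1 (lv (s + 1)).2) (ind W) x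
      - favg (cube N X) (Phi X (lv s).1 (lv s).2) (ind W) x) ^ 2) hx₂
    have h2 : ∑ x ∈ fib (cube N X) (Phi X (lv s).1 (lv s).2) x₂,
        (favg (cube N X) (Phi X (lv (s + 1)).1 (lv (s + 1)).2) (ind W) x
          - favg (cube N X) (Phi X (lv s).1 (lv s).2) (ind W) x₂) ^ 2
        = ∑ x ∈ fib (cube N X) (Phi X (lv s).1 (lv s).2) x₂,
          (favg (cube N X) (Phi X (lv (s + 1)).1 (lv (s + 1)).2) (ind W) x
      - favg (cube N X) (Phi X (lv s).1 (lv s).2) (ind W) x) ^ 2 :=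
      Finset.sum_congr rfl (fun x hx => by
        rw [favg_congr (Ω := cube N X) (Φ := Phi X (lv s).1 (lv s).2) (ind W)
          (mem_fib.1 hx).2])
    rw [h2, h1, mul_comm]
    exact mul_le_mul_of_nonneg_right hee (by positivity)
  -- residues of the two points
  obtain ⟨i, hi⟩ : ∃ i, i = (lv s).1.factorization p := ⟨_, rfl⟩
  have hP0 : 0 < p ^ i := pow_pos hp.pos i
  have hP0' : (0 : ℤ) < ((p ^ i : ℕ) : ℤ) := by exact_mod_cast hP0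
  set ζ : Fin N → ℤ := fun l => (x₂ l - x₁ l) % ((p ^ i : ℕ) : ℤ) with hζ
  have hζc : ζ ∈ cube N (p ^ i) := by
    rw [mem_cube]
    intro l
    exact ⟨Int.emod_nonneg _ hP0'.ne', Int.emod_lt_of_pos _ hP0'⟩
  have hcop : (qq s).Coprime (p ^ i) := Nat.Coprime.pow_right i (hqqc s)
  have hMs : qq s * p ^ i = (lv s).1 := by rw [hi]; exact hqq1 s
  obtain ⟨h₀, hh₀0, hh₀le, hh₀q, hh₀p⟩ := exists_h0 (hqq0 s) hP0 hcop
  rw [hMs] at hh₀le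
  have hile : i ≤ (lv S).1.factorization p := by rw [hi]; exact hfac hsS.le
  have hAi := hA i hile ζ hζc
  have hx12 : ∀ l, ((qq s : ℕ) : ℤ) ∣ x₁ l - x₂ l ∧
      x₁ l / ((X / (lv s).2 : ℕ) : ℤ) = x₂ l / ((X / (lv s).2 : ℕ) : ℤ) := by
    intro l
    have h1 := congrFun hΛ l
    simp only [Phi, Prod.mk.injEq] at h1
    exact ⟨(show x₂ l ≡ x₁ l [ZMOD ((qq s : ℕ) : ℤ)] from h1.1.symm).dvd, h1.2⟩
  have hdvd : ∀ j l, ((lv s).1 : ℤ) ∣ (h₀ : ℤ) ^ 2 * B i ζ j l + h₀ * A i ζ j l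
      + (x₁ l - x₂ l) := by
    intro j l
    have e1 : ((lv s).1 : ℤ) = ((qq s : ℕ) : ℤ) * ((p ^ i : ℕ) : ℤ) := by
      rw [← hMs]; push_cast; ring
    rw [e1]
    apply IsCoprime.mul_dvd (Nat.isCoprime_iff_coprime.2 hcop)
    · apply Dvd.dvd.add _ (hx12 l).1
      apply Dvd.dvd.add
      · exact Dvd.dvd.mul_right (dvd_pow hh₀q two_ne_zero) _
      · exact Dvd.dvd.mul_right hh₀q _
    · have d1 : ((p ^ i : ℕ) : ℤ) ∣ (h₀ : ℤ) ^ 2 * B i ζ j l - B i ζ j l := by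
        have : (h₀ : ℤ) ^ 2 * B i ζ j l - B i ζ j l = ((h₀ : ℤ) - 1) * ((h₀ + 1) * B i ζ j l) := by
          ring
        rw [this]
        exact Dvd.dvd.mul_right hh₀p _
      have d2 := hBc i ζ j l
      have d3 : ((p ^ i : ℕ) : ℤ) ∣ (x₂ l - x₁ l) - ζ l := by
        simp only [hζ]
        exact Int.dvd_self_sub_emod
      have d4 := (hAi j l).1
      have e2 : (h₀ : ℤ) ^ 2 * B i ζ j l + h₀ * A i ζ j l + (x₁ l - x₂ l)
          = ((h₀ : ℤ) ^ 2 * B i ζ j l - B i ζ j l) + (B i ζ j l - ζ l)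
            - ((x₂ l - x₁ l) - ζ l) + A i ζ j l * h₀ := by ring
      rw [e2]
      exact Dvd.dvd.add (Dvd.dvd.sub (Dvd.dvd.add d1 d2) d3) (Dvd.dvd.mul_right d4 _)
  obtain ⟨D', hD'⟩ := hdX s hsS.le
  have hn := hnext s
  have hc := hcell s
  unfold LevelA at hc
  rw [← hi] at hc
  obtain ⟨j, h, x, hx, hxW⟩ := hc ζ hζc X D' (hXf s hsS) hD' (A i ζ) (fun j l => (hAi j l).2) h₀
    hh₀le x₁ hx₁ x₂ hx₂ (fun l => (hx12 l).2) hdvd U W hu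
    (Phi X (lv (s + 1)).1 (lv (s + 1)).2) (by
      intro x hx z hz hxz
      refine ⟨hcoarse (Nat.le_succ s) hsS x hx z hz hxz, fun l => ?_⟩
      have h1 := Phi_close (hpos (s + 1)).2 (hKX (s + 1) hsS) hX0 hxz l
      have e1 : (lv (s + 1)).1 = (lv s).1 * Qf s := by rw [hn]
      have e2 : (lv (s + 1)).2 = (lv s).2 * kf s := by rw [hn]
      rw [e1, e2] at h1
      push_cast at h1 ⊢
      exact h1) hw (by rw [← hτ]; exact hst)
  exact ⟨i, hile, ζ, hζc, j, h₀ + (lv s).1 * h, Nat.add_pos_left hh₀0 _, x, hx, hxW⟩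

end Vale.Agent.P011.H73
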