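import Vale.Agent.P011.H73.Cell2

/-!
# CUBE-B

Two sets with (almost) the same densities on all fine cells of the standard cube, one of them
dense, are linked by translations `h A_j + h² B_j`.
-/

namespace Vale.Agent.P011.H73

open Finset

lemma exists_chain (P : ℕ × ℕ → ℕ → ℕ → ℝ → Prop)
    (hP : ∀ p : ℕ × ℕ, 0 < p.1 → 0 < p.2 → ∃ Q k : ℕ, 0 < Q ∧ 0 < k ∧ ∃ X₀ : ℝ, P p Q k X₀) :
    ∃ lv : ℕ → ℕ × ℕ, (∀ s, 0 < (lv s).1 ∧ 0 < (lv s).2) ∧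
      ∀ s, ∃ Q k : ℕ, 0 < Q ∧ 0 < k ∧ lv (s + 1) = ((lv s).1 * Q, (lv s).2 * k) ∧
        ∃ X₀ : ℝ, P (lv s) Q k X₀ := by
  choose! Qf kf hQ hk Xf hX using hP
  set lv : ℕ → ℕ × ℕ := fun n => Nat.rec (1, 1) (fun _ p => (p.1 * Qf p, p.2 * kf p)) n with hlv
  have hpos : ∀ s, 0 < (lv s).1 ∧ 0 < (lv s).2 := by
    intro s
    induction s with
    | zero => simp [hlv]
    | succ n ih =>
      exact ⟨Nat.mul_pos ih.1 (hQ _ ih.1 ih.2), Nat.mul_pos ih.2 (hk _ ih.1 ih.2)⟩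
  refine ⟨lv, hpos, fun s => ⟨Qf (lv s), kf (lv s), hQ _ (hpos s).1 (hpos s).2,
    hk _ (hpos s).1 (hpos s).2, rfl, Xf (lv s), hX _ (hpos s).1 (hpos s).2⟩⟩

lemma chain_dvd (lv : ℕ → ℕ × ℕ)
    (h : ∀ s, ∃ Q k : ℕ, lv (s + 1) = ((lv s).1 * Q, (lv s).2 * k)) {s t : ℕ} (hst : s ≤ t) :
    (lv s).1 ∣ (lv t).1 ∧ (lv s).2 ∣ (lv t).2 := by
  induction t, hst using Nat.le_induction with
  | base => exact ⟨dvd_rfl, dvd_rfl⟩
  | succ t _ ih =>
    obtain ⟨Q, k, hQk⟩ := h t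
    rw [hQk]
    exact ⟨ih.1.mul_right _, ih.2.mul_right _⟩

/-- pigeonhole for a bounded sequence. -/
lemma exists_small_jump (E : ℕ → ℝ) (S : ℕ) (hS : 0 < S) (b : ℝ) (h0 : 0 ≤ E 0) (h1 : E S ≤ b) :
    ∃ s < S, E (s + 1) - E s ≤ b / S := by
  by_contra hcon
  push Not at hcon
  have hSr : (0 : ℝ) < S := by exact_mod_cast hS
  have h2 : ∑ s ∈ Finset.range S, (b / S) < ∑ s ∈ Finset.range S, (E (s + 1) - E s) := by
    apply Finset.sum_lt_sum_of_nonempty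
    · exact ⟨0, Finset.mem_range.2 hS⟩
    · intro s hs
      exact hcon s (Finset.mem_range.1 hs)
  rw [Finset.sum_range_sub, Finset.sum_const, Finset.card_range, nsmul_eq_mul,
    mul_div_cancel₀ _ hSr.ne'] at h2
  linarith

/-- `L²` small implies `L¹` small on a finite set. -/
lemma sum_abs_le_of_sum_sq {α : Type*} (s : Finset α) (f : α → ℝ) (τ : ℝ) (hτ : 0 ≤ τ)
    (h : ∑ x ∈ s, f x ^ 2 ≤ τ ^ 2 * s.card) : ∑ x ∈ s, |f x| ≤ τ * s.card := by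
  have h1 : (∑ x ∈ s, |f x|) ^ 2 ≤ s.card * ∑ x ∈ s, |f x| ^ 2 := sq_sum_le_card_mul_sum_sq
  simp only [sq_abs] at h1
  have h2 : (∑ x ∈ s, |f x|) ^ 2 ≤ (τ * s.card) ^ 2 := by
    calc _ ≤ (s.card : ℝ) * ∑ x ∈ s, f x ^ 2 := h1
      _ ≤ s.card * (τ ^ 2 * s.card) := mul_le_mul_of_nonneg_left h (by positivity)
      _ = _ := by ring
  exact le_of_sq_le_sq h2 (by positivity)

theorem cube_B {N J : ℕ} (hN : 0 < N) (hJ : 0 < J) (B : Fin J → Fin N → ℤ)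
    (hB : H63.GenPos B) (ε : ℝ) (hε : 0 < ε) (hε1 : ε ≤ 1)
    (hJε : 4 * ((N : ℝ) - 1) ≤ ((ε / 4) ^ 2 / 16) ^ 2 * J) (C : ℝ) (hC : 0 < C) :
    ∃ M K : ℕ, 0 < M ∧ 0 < K ∧ ∃ δ X₀ : ℝ, 0 < δ ∧ ∀ X D : ℕ, X₀ ≤ X → X = M * K * D →
      ∀ A : Fin J → Fin N → ℤ, (∀ j l, |(A j l : ℝ)| ≤ C * Real.sqrt X) →
      ∀ U W : Finset (Fin N → ℤ), U ⊆ cube N X →
        ε * (X : ℝ) ^ N ≤ U.card →
        ∑ x ∈ cube N X, |favg (cube N X) (Phi X M K) (ind U) x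
          - favg (cube N X) (Phi X M K) (ind W) x| ≤ δ * (X : ℝ) ^ N →
      ∃ j : Fin J, ∃ h : ℕ, 0 < h ∧ ∃ x ∈ U, x + vec B A 0 j h ∈ W := by
  classical
  obtain ⟨τ, hτ⟩ : ∃ τ : ℝ, τ = (ε / 4) ^ 2 / 8 := ⟨_, rfl⟩
  have hτ0 : 0 < τ := by rw [hτ]; positivity
  obtain ⟨S, hS⟩ := exists_nat_gt (8 / (ε * τ ^ 2))
  have hSr : (0 : ℝ) < S := lt_of_le_of_lt (by positivity) hS
  have hS0 : 0 < S := by exact_mod_cast hSr
  have hS8 : 1 / (S * τ ^ 2) ≤ ε / 8 := by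
    rw [div_lt_iff₀ (by positivity)] at hS
    rw [div_le_div_iff₀ (by positivity) (by norm_num)]
    nlinarith
  have hε4 : 0 < ε / 4 := by positivity
  have hε41 : ε / 4 ≤ 1 := by linarith
  obtain ⟨lv, hpos, hlv⟩ := exists_chain
    (fun p Q k X₀ => ∀ X D : ℕ, X₀ ≤ X → X = p.1 * p.2 * D →
      ∀ A : Fin J → Fin N → ℤ, (∀ j l, |(A j l : ℝ)| ≤ C * Real.sqrt X) →
      ∀ h₀ : ℕ, h₀ ≤ p.1 → ∀ x₁ ∈ cube N X, ∀ x₂ ∈ cube N X,
        (∀ l, x₁ l / ((X / p.2 : ℕ) : ℤ) = x₂ l / ((X / p.2 : ℕ) : ℤ)) →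
        (∀ j l, (p.1 : ℤ) ∣ (h₀ : ℤ) ^ 2 * B j l + h₀ * A j l + (x₁ l - x₂ l)) →
      ∀ U W : Finset (Fin N → ℤ), 
        ε / 4 ≤ favg (cube N X) (Phi X p.1 p.2) (ind U) x₁ →
      ∀ (Φ : (Fin N → ℤ) → (Fin N → ℤ × ℤ)),
        (∀ x ∈ cube N X, ∀ z ∈ cube N X, Φ x = Φ z → Phi X p.1 p.2 x = Phi X p.1 p.2 z ∧
          ∀ l, ((p.1 * Q : ℕ) : ℤ) ∣ x l - z l ∧ |((x l : ℝ) - z l)| ≤ X / (p.2 * k)) →
        ε / 4 ≤ favg (cube N X) (Phi X p.1 p.2) (ind W) x₂ →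
        ∑ x ∈ fib (cube N X) (Phi X p.1 p.2) x₂,
          |favg (cube N X) Φ (ind W) x - favg (cube N X) (Phi X p.1 p.2) (ind W) x₂|
          ≤ (ε / 4) ^ 2 / 8 * (fib (cube N X) (Phi X p.1 p.2) x₂).card →
      ∃ j : Fin J, ∃ h : ℕ, ∃ x ∈ U, x + vec B A 0 j (h₀ + p.1 * h) ∈ W)
    (by
      intro p hp1 hp2
      obtain ⟨Q, k, hQ, hk, X₀, h⟩ := core_cell hN hJ B hB p.1 p.2 hp1 hp2 (ε / 4) hε4 hε41 hJε C hC
        p.1
      exact ⟨Q, k, hQ, hk, X₀, fun X D hX hXD A hA h₀ hh₀ x₁ hx₁ x₂ hx₂ hpos hdvd U W hU Φ hΦ hW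
        hst => h X D hX hXD A hA h₀ hh₀ x₁ hx₁ x₂ hx₂ hpos hdvd U W hU Φ hΦ hW hst⟩)
  choose Qf kf hQf hkf hnext Xf hcell using hlv
  have hdv : ∀ {s t : ℕ}, s ≤ t → (lv s).1 ∣ (lv t).1 ∧ (lv s).2 ∣ (lv t).2 :=
    fun {s t} hst => chain_dvd lv (fun s => ⟨Qf s, kf s, hnext s⟩) hst
  refine ⟨(lv S).1, (lv S).2, (hpos S).1, (hpos S).2, ε ^ 2 / 32,
    1 + ∑ s ∈ Finset.range S, |Xf s|, by positivity, ?_⟩
  intro X D hX hXD A hA U W hU hUc hUW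
  have hsum0 : 0 ≤ ∑ s ∈ Finset.range S, |Xf s| := Finset.sum_nonneg (fun _ _ => abs_nonneg _)
  have hXr : (0 : ℝ) < X := by linarith
  have hX0 : 0 < X := by exact_mod_cast hXr
  have hXN : (0 : ℝ) < (X : ℝ) ^ N := by positivity
  have hXf : ∀ s < S, Xf s ≤ X := by
    intro s hs
    have h1 : |Xf s| ≤ ∑ s ∈ Finset.range S, |Xf s| :=
      Finset.single_le_sum (f := fun s => |Xf s|) (fun _ _ => abs_nonneg _)
        (Finset.mem_range.2 hs)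
    have := le_abs_self (Xf s)
    linarith
  have hdX : ∀ s ≤ S, ∃ D' : ℕ, X = (lv s).1 * (lv s).2 * D' := by
    intro s hs
    obtain ⟨⟨a, ha⟩, ⟨b, hb⟩⟩ := hdv hs
    exact ⟨a * b * D, by rw [hXD, ha, hb]; ring⟩
  have hKX : ∀ s ≤ S, (lv s).2 ∣ X := by
    intro s hs
    obtain ⟨D', hD'⟩ := hdX s hs
    exact ⟨(lv s).1 * D', by rw [hD']; ring⟩
  have hcoarse : ∀ {s t : ℕ}, s ≤ t → t ≤ S → ∀ x ∈ cube N X, ∀ z ∈ cube N X,
      Phi X (lv t).1 (lv t).2 x = Phi X (lv t).1 (lv t).2 z →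
      Phi X (lv s).1 (lv s).2 x = Phi X (lv s).1 (lv s).2 z := by
    intro s t hst htS x _ z _ h
    exact Phi_coarse (hdv hst).1 (hdv hst).2 (hKX t htS) hX0 h
  -- energies
  have hEtop : ∑ x ∈ cube N X, favg (cube N X) (Phi X (lv S).1 (lv S).2) (ind W) x ^ 2
      ≤ (X : ℝ) ^ N := by
    calc _ ≤ ∑ x ∈ cube N X, (1 : ℝ) := by
          refine Finset.sum_le_sum (fun x hx => ?_)
          have h1 := favg_le_one (cube N X) (Phi X (lv S).1 (lv S).2) (ind W)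
            (fun x _ => ind_le_one _ _) hx
          have h0 := favg_nonneg (cube N X) (Phi X (lv S).1 (lv S).2) (ind W)
            (fun x _ => ind_nonneg _ _) x
          nlinarith
      _ = _ := by simp [card_cube]
  obtain ⟨s, hsS, hjump⟩ := exists_small_jump
    (fun s => ∑ x ∈ cube N X, favg (cube N X) (Phi X (lv s).1 (lv s).2) (ind W) x ^ 2) S hS0
    ((X : ℝ) ^ N) (Finset.sum_nonneg (fun _ _ => sq_nonneg _)) hEtop
  rw [← sum_sq_favg_sub (cube N X) (Phi X (lv (s + 1)).1 (lv (s + 1)).2)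
    (Phi X (lv s).1 (lv s).2) (hcoarse (Nat.le_succ s) hsS) (ind W)] at hjump
  have hUWs := (sum_abs_favg_le (cube N X) (Phi X (lv S).1 (lv S).2) (Phi X (lv s).1 (lv s).2)
    (hcoarse hsS.le le_rfl) (ind U) (ind W)).trans hUW
  set Ψ := Phi (N := N) X (lv s).1 (lv s).2 with hΨ
  set Φ := Phi (N := N) X (lv (s + 1)).1 (lv (s + 1)).2 with hΦ
  set e : (Fin N → ℤ) → ℝ := fun x => (favg (cube N X) Φ (ind W) x - favg (cube N X) Ψ (ind W) x) ^ 2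
    with he
  -- selection of the point
  obtain ⟨x₀, hx₀, hu, hw, hee⟩ : ∃ x₀ ∈ cube N X, ε / 4 ≤ favg (cube N X) Ψ (ind U) x₀ ∧
      ε / 4 ≤ favg (cube N X) Ψ (ind W) x₀ ∧ favg (cube N X) Ψ e x₀ ≤ τ ^ 2 := by
    by_contra hcon
    push Not at hcon
    have hpt : ∀ x ∈ cube N X, favg (cube N X) Ψ (ind U) x
        ≤ ε / 2 + 4 / ε * |favg (cube N X) Ψ (ind U) x - favg (cube N X) Ψ (ind W) x|
          + favg (cube N X) Ψ e x / τ ^ 2 := by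
      intro x hx
      have hu1 := favg_le_one (cube N X) Ψ (ind U) (fun x _ => ind_le_one _ _) hx
      have he0 : 0 ≤ favg (cube N X) Ψ e x / τ ^ 2 :=
        div_nonneg (favg_nonneg _ _ _ (fun x _ => sq_nonneg _) x) (by positivity)
      have ha0 : 0 ≤ 4 / ε * |favg (cube N X) Ψ (ind U) x - favg (cube N X) Ψ (ind W) x| := by
        positivity
      by_cases h1 : favg (cube N X) Ψ (ind U) x < ε / 2
      · linarith
      · push Not at h1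
        by_cases h2 : favg (cube N X) Ψ (ind W) x < ε / 4
        · have h3 : ε / 4 ≤ |favg (cube N X) Ψ (ind U) x - favg (cube N X) Ψ (ind W) x| := by
            refine le_trans ?_ (le_abs_self _)
            linarith
          have h4 : 4 / ε * (ε / 4)
              ≤ 4 / ε * |favg (cube N X) Ψ (ind U) x - favg (cube N X) Ψ (ind W) x| :=
            mul_le_mul_of_nonneg_left h3 (by positivity)
          have h5 : 4 / ε * (ε / 4) = 1 := by field_simp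
          linarith
        · push Not at h2
          have h3 := hcon x hx (by linarith) h2
          have h4 : 1 ≤ favg (cube N X) Ψ e x / τ ^ 2 := by
            rw [le_div_iff₀ (by positivity)]
            linarith
          linarith
    have hs1 := Finset.sum_le_sum hpt
    have hs6 : ∑ x ∈ cube N X, favg (cube N X) Ψ e x / τ ^ 2 = (∑ x ∈ cube N X, e x) / τ ^ 2 := by
      rw [← Finset.sum_div, sum_favg]
    rw [sum_favg, Finset.sum_add_distrib, Finset.sum_add_distrib, ← Finset.mul_sum, hs6] at hs1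
    have hs2 : ∑ x ∈ cube N X, ind U x = U.card := by
      rw [sum_ind]
      congr 1
      rw [Finset.filter_mem_eq_inter, Finset.inter_eq_right.2 hU]
    have hs3 : ∑ _x ∈ cube N X, (ε / 2) = ε / 2 * (X : ℝ) ^ N := by
      rw [Finset.sum_const, card_cube, nsmul_eq_mul]
      push_cast
      ring
    rw [hs2, hs3] at hs1
    have hs4 : 4 / ε * ∑ x ∈ cube N X,
        |favg (cube N X) Ψ (ind U) x - favg (cube N X) Ψ (ind W) x|
        ≤ ε / 8 * (X : ℝ) ^ N := by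
      calc _ ≤ 4 / ε * (ε ^ 2 / 32 * (X : ℝ) ^ N) :=
            mul_le_mul_of_nonneg_left hUWs (by positivity)
        _ = _ := by field_simp; ring
    have hs5 : (∑ x ∈ cube N X, e x) / τ ^ 2 ≤ ε / 8 * (X : ℝ) ^ N := by
      calc _ ≤ ((X : ℝ) ^ N / S) / τ ^ 2 := div_le_div_of_nonneg_right hjump (by positivity)
        _ = 1 / (S * τ ^ 2) * (X : ℝ) ^ N := by field_simp
        _ ≤ _ := mul_le_mul_of_nonneg_right hS8 hXN.le
    nlinarith [mul_pos hε hXN]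
  -- the stability on the chosen cell
  have hfx : ∀ x ∈ fib (cube N X) Ψ x₀, favg (cube N X) Ψ (ind W) x
      = favg (cube N X) Ψ (ind W) x₀ := fun x hx => favg_congr _ (mem_fib.1 hx).2
  have hst : ∑ x ∈ fib (cube N X) Ψ x₀,
      |favg (cube N X) Φ (ind W) x - favg (cube N X) Ψ (ind W) x₀|
      ≤ τ * (fib (cube N X) Ψ x₀).card := by
    apply sum_abs_le_of_sum_sq _ _ _ hτ0.le
    have h1 := sum_fib (cube N X) Ψ e hx₀
    have h2 : ∑ x ∈ fib (cube N X) Ψ x₀,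
        (favg (cube N X) Φ (ind W) x - favg (cube N X) Ψ (ind W) x₀) ^ 2
        = ∑ x ∈ fib (cube N X) Ψ x₀, e x :=
      Finset.sum_congr rfl (fun x hx => by simp only [he]; rw [hfx x hx])
    rw [h2, h1, mul_comm]
    exact mul_le_mul_of_nonneg_right hee (by positivity)
  obtain ⟨D', hD'⟩ := hdX s hsS.le
  have hn := hnext s
  have hres := hcell s X D' (hXf s hsS) hD' A hA (lv s).1 le_rfl x₀ hx₀ x₀ hx₀ (fun _ => rfl)
    (fun j l => by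
      have : ((lv s).1 : ℤ) ^ 2 * B j l + ((lv s).1 : ℤ) * A j l + (x₀ l - x₀ l)
          = (lv s).1 * ((lv s).1 * B j l + A j l) := by ring
      rw [this]
      exact Dvd.intro _ rfl) U W hu Φ ?_ hw (by rw [← hτ]; exact hst)
  · obtain ⟨j, h, x, hx, hxW⟩ := hres
    exact ⟨j, (lv s).1 + (lv s).1 * h, Nat.add_pos_left (hpos s).1 _, x, hx, hxW⟩
  · intro x hx z hz hxz
    refine ⟨hcoarse (Nat.le_succ s) hsS x hx z hz hxz, fun l => ?_⟩
    have h1 := Phi_close (hpos (s + 1)).2 (hKX (s + 1) hsS) hX0 hxz l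
    have e1 : (lv (s + 1)).1 = (lv s).1 * Qf s := by rw [hn]
    have e2 : (lv (s + 1)).2 = (lv s).2 * kf s := by rw [hn]
    rw [e1, e2] at h1
    push_cast at h1 ⊢
    exact h1

end Vale.Agent.P011.H73
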