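import Vale.Agent.P011.H73.Core2

/-!
Conditional averages over the fibres of a map on a finite set.
-/

namespace Vale.Agent.P011.H73

open Finset

section favg

variable {α ι κ : Type*}

/-- the fibre of `x` under `Φ` inside `Ω`. -/
noncomputable def fib (Ω : Finset α) (Φ : α → ι) (x : α) : Finset α :=
  open Classical in Ω.filter (fun z => Φ z = Φ x)

lemma mem_fib {Ω : Finset α} {Φ : α → ι} {x z : α} : z ∈ fib Ω Φ x ↔ z ∈ Ω ∧ Φ z = Φ x := by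
  classical
  simp [fib]

lemma self_mem_fib {Ω : Finset α} {Φ : α → ι} {x : α} (hx : x ∈ Ω) : x ∈ fib Ω Φ x :=
  mem_fib.2 ⟨hx, rfl⟩

lemma fib_congr {Ω : Finset α} {Φ : α → ι} {x z : α} (h : Φ x = Φ z) : fib Ω Φ x = fib Ω Φ z := by
  ext y; rw [mem_fib, mem_fib, h]

lemma fib_subset {Ω : Finset α} {Φ : α → ι} {x : α} : fib Ω Φ x ⊆ Ω :=
  fun _ h => (mem_fib.1 h).1

/-- average of `f` over the fibre of `x`. -/
noncomputable def favg (Ω : Finset α) (Φ : α → ι) (f : α → ℝ) (x : α) : ℝ :=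
  (∑ z ∈ fib Ω Φ x, f z) / ((fib Ω Φ x).card : ℝ)

lemma favg_congr {Ω : Finset α} {Φ : α → ι} {x z : α} (f : α → ℝ) (h : Φ x = Φ z) :
    favg Ω Φ f x = favg Ω Φ f z := by
  unfold favg; rw [fib_congr h]

lemma card_fib_pos {Ω : Finset α} {Φ : α → ι} {x : α} (hx : x ∈ Ω) :
    (0 : ℝ) < ((fib Ω Φ x).card : ℝ) := by
  exact_mod_cast Finset.card_pos.2 ⟨x, self_mem_fib hx⟩

lemma sum_fib (Ω : Finset α) (Φ : α → ι) (f : α → ℝ) {x : α} (hx : x ∈ Ω) :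
    ∑ z ∈ fib Ω Φ x, f z = (fib Ω Φ x).card * favg Ω Φ f x := by
  unfold favg
  rw [mul_div_cancel₀ _ (card_fib_pos hx).ne']

lemma sum_favg_mul (Ω : Finset α) (Φ : α → ι) (f g : α → ℝ)
    (hg : ∀ x ∈ Ω, ∀ z ∈ Ω, Φ x = Φ z → g x = g z) :
    ∑ x ∈ Ω, favg Ω Φ f x * g x = ∑ x ∈ Ω, f x * g x := by
  classical
  have h1 : ∀ x ∈ Ω, favg Ω Φ f x * g x
      = ∑ z ∈ Ω, if Φ z = Φ x then f z * g z / ((fib Ω Φ z).card : ℝ) else 0 := by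
    intro x hx
    rw [← Finset.sum_filter]
    have h2 : ∀ z ∈ Ω.filter (fun z => Φ z = Φ x),
        f z * g z / ((fib Ω Φ z).card : ℝ) = f z * (g x / ((fib Ω Φ x).card : ℝ)) := by
      intro z hz
      obtain ⟨hz1, hz2⟩ := Finset.mem_filter.1 hz
      rw [fib_congr hz2, hg z hz1 x hx hz2]
      ring
    rw [Finset.sum_congr rfl h2, ← Finset.sum_mul]
    have h3 : Ω.filter (fun z => Φ z = Φ x) = fib Ω Φ x := by
      ext z; simp [mem_fib]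
    rw [h3]
    unfold favg
    ring
  rw [Finset.sum_congr rfl h1, Finset.sum_comm]
  refine Finset.sum_congr rfl (fun z hz => ?_)
  rw [← Finset.sum_filter, Finset.sum_const, nsmul_eq_mul]
  have h3 : Ω.filter (fun x => Φ z = Φ x) = fib Ω Φ z := by
    ext x; simp [mem_fib, eq_comm]
  rw [h3, mul_div_cancel₀ _ (card_fib_pos hz).ne']

lemma sum_favg (Ω : Finset α) (Φ : α → ι) (f : α → ℝ) :
    ∑ x ∈ Ω, favg Ω Φ f x = ∑ x ∈ Ω, f x := by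
  have := sum_favg_mul Ω Φ f (fun _ => 1) (fun _ _ _ _ _ => rfl)
  simpa using this

lemma favg_nonneg (Ω : Finset α) (Φ : α → ι) (f : α → ℝ) (hf : ∀ x ∈ Ω, 0 ≤ f x) (x : α) :
    0 ≤ favg Ω Φ f x :=
  div_nonneg (Finset.sum_nonneg (fun z hz => hf z (fib_subset hz))) (by positivity)

lemma favg_mono (Ω : Finset α) (Φ : α → ι) (f g : α → ℝ) (hf : ∀ x ∈ Ω, f x ≤ g x) (x : α) :
    favg Ω Φ f x ≤ favg Ω Φ g x :=
  div_le_div_of_nonneg_right (Finset.sum_le_sum (fun z hz => hf z (fib_subset hz))) (by positivity)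

lemma favg_const (Ω : Finset α) (Φ : α → ι) (c : ℝ) {x : α} (hx : x ∈ Ω) :
    favg Ω Φ (fun _ => c) x = c := by
  unfold favg
  rw [Finset.sum_const, nsmul_eq_mul, mul_div_assoc, mul_comm,
    div_mul_cancel₀ _ (card_fib_pos hx).ne']

lemma favg_le_one (Ω : Finset α) (Φ : α → ι) (f : α → ℝ) (hf : ∀ x ∈ Ω, f x ≤ 1) {x : α}
    (hx : x ∈ Ω) : favg Ω Φ f x ≤ 1 := by
  rw [← favg_const Ω Φ 1 hx]
  exact favg_mono Ω Φ f _ hf x

lemma favg_sub (Ω : Finset α) (Φ : α → ι) (f g : α → ℝ) (x : α) :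
    favg Ω Φ (fun x => f x - g x) x = favg Ω Φ f x - favg Ω Φ g x := by
  unfold favg
  rw [Finset.sum_sub_distrib, sub_div]

lemma abs_favg_le (Ω : Finset α) (Φ : α → ι) (f : α → ℝ) (x : α) :
    |favg Ω Φ f x| ≤ favg Ω Φ (fun x => |f x|) x := by
  unfold favg
  rw [abs_div, abs_of_nonneg (by positivity : (0 : ℝ) ≤ ((fib Ω Φ x).card : ℝ))]
  exact div_le_div_of_nonneg_right (Finset.abs_sum_le_sum_abs _ _) (by positivity)

/-- tower property. -/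
lemma favg_favg (Ω : Finset α) (Φ : α → ι) (Ψ : α → κ)
    (h : ∀ x ∈ Ω, ∀ z ∈ Ω, Φ x = Φ z → Ψ x = Ψ z) (f : α → ℝ) (x : α) :
    favg Ω Ψ (favg Ω Φ f) x = favg Ω Ψ f x := by
  classical
  have key : ∑ z ∈ fib Ω Ψ x, favg Ω Φ f z = ∑ z ∈ fib Ω Ψ x, f z := by
    have h1 := sum_favg_mul Ω Φ f (fun z => if Ψ z = Ψ x then (1 : ℝ) else 0) (by
      intro a ha b hb hab
      simp only [h a ha b hb hab])
    simp only [mul_ite, mul_one, mul_zero, ← Finset.sum_filter] at h1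
    have h3 : Ω.filter (fun z => Ψ z = Ψ x) = fib Ω Ψ x := by
      ext z; simp [mem_fib]
    rwa [h3] at h1
  unfold favg at key ⊢
  rw [key]

/-- `L¹` contraction. -/
lemma sum_abs_favg_le (Ω : Finset α) (Φ : α → ι) (Ψ : α → κ)
    (h : ∀ x ∈ Ω, ∀ z ∈ Ω, Φ x = Φ z → Ψ x = Ψ z) (f g : α → ℝ) :
    ∑ x ∈ Ω, |favg Ω Ψ f x - favg Ω Ψ g x| ≤ ∑ x ∈ Ω, |favg Ω Φ f x - favg Ω Φ g x| := by
  calc ∑ x ∈ Ω, |favg Ω Ψ f x - favg Ω Ψ g x|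
      = ∑ x ∈ Ω, |favg Ω Ψ (fun z => favg Ω Φ f z - favg Ω Φ g z) x| := by
        refine Finset.sum_congr rfl (fun x _ => ?_)
        rw [favg_sub Ω Ψ (favg Ω Φ f) (favg Ω Φ g) x, favg_favg Ω Φ Ψ h, favg_favg Ω Φ Ψ h]
    _ ≤ ∑ x ∈ Ω, favg Ω Ψ (fun z => |favg Ω Φ f z - favg Ω Φ g z|) x :=
        Finset.sum_le_sum (fun x _ => abs_favg_le Ω Ψ _ x)
    _ = _ := sum_favg Ω Ψ _

/-- Pythagoras. -/
lemma sum_sq_favg_sub (Ω : Finset α) (Φ : α → ι) (Ψ : α → κ)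
    (h : ∀ x ∈ Ω, ∀ z ∈ Ω, Φ x = Φ z → Ψ x = Ψ z) (f : α → ℝ) :
    ∑ x ∈ Ω, (favg Ω Φ f x - favg Ω Ψ f x) ^ 2
      = ∑ x ∈ Ω, favg Ω Φ f x ^ 2 - ∑ x ∈ Ω, favg Ω Ψ f x ^ 2 := by
  have h1 : ∑ x ∈ Ω, favg Ω Φ f x * favg Ω Ψ f x = ∑ x ∈ Ω, f x * favg Ω Ψ f x :=
    sum_favg_mul Ω Φ f _ (fun x hx z hz hxz => favg_congr f (h x hx z hz hxz))
  have h2 : ∑ x ∈ Ω, favg Ω Ψ f x * favg Ω Ψ f x = ∑ x ∈ Ω, f x * favg Ω Ψ f x :=
    sum_favg_mul Ω Ψ f _ (fun x _ z _ hxz => favg_congr f hxz)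
  have h3 : ∀ x ∈ Ω, (favg Ω Φ f x - favg Ω Ψ f x) ^ 2
      = favg Ω Φ f x ^ 2 - favg Ω Ψ f x ^ 2
        - 2 * (favg Ω Φ f x * favg Ω Ψ f x - favg Ω Ψ f x * favg Ω Ψ f x) := by
    intro x _; ring
  rw [Finset.sum_congr rfl h3, Finset.sum_sub_distrib, Finset.sum_sub_distrib, ← Finset.mul_sum,
    Finset.sum_sub_distrib, h1, h2]
  ring

lemma dens_eq_favg (Ω W : Finset α) (hW : W ⊆ Ω) (Φ : α → ι) (x : α) :
    dens Ω W Φ x = favg Ω Φ (ind W) x := by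
  classical
  unfold dens favg
  rw [sum_ind]
  have h1 : (fib Ω Φ x).filter (fun z => z ∈ W) = W.filter (fun z => Φ z = Φ x) := by
    ext z
    simp only [Finset.mem_filter, mem_fib]
    constructor
    · rintro ⟨⟨_, h2⟩, h3⟩; exact ⟨h3, h2⟩
    · rintro ⟨h1, h2⟩; exact ⟨⟨hW h1, h2⟩, h1⟩
  rw [h1]
  have h2 : (fib Ω Φ x) = Ω.filter (fun z => Φ z = Φ x) := by
    ext z; simp [mem_fib]
  rw [h2]

end favg

end Vale.Agent.P011.H73
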