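import Vale.Agent.P011.H775.Inf
import Vale.Agent.P011.H73.OmFF
import Vale.Agent.P011.H73.Desc

/-!
# Function fields: the Skolem surface at infinity has local points away from the places of division
type
-/

open Module
open scoped TensorProduct

namespace Vale.Agent.P011.H73

open Vale.Agent.P011.H738 Vale.Agent.P011.H271 Vale.Agent.P011.H775

/-- **Local points at infinity.** -/
theorem locPt_inf {k K F D : Type} [Field k] [GFF k] [Field K] [Field F] [Algebra k K]
    [Algebra k F] [StarRing K] [DivisionRing D] [StarRing D] [Algebra k D] [Algebra K D]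
    [FiniteDimensional K D] [Algebra.IsCentral K D] [IsScalarTower k K D] [StarModule K D]
    [FiniteDimensional k F] [Algebra.IsSeparable k F] {C : Cub K D} {φ : F →ₐ[k] D}
    (M : Dat C φ) (hA : Anis k K D 3) (hF : finrank k F = 3) {v : Place k}
    (hv : v ∉ Adiv k K D) (hE : IsEmpty (F →ₐ[k] v.comp)) (t : F) :
    ∃ f : v.comp ⊗[k] F, Algebra.norm v.comp f +
      Algebra.trace v.comp (v.comp ⊗[k] F) ((1 ⊗ₜ M.A (t, 0)) * f) +
        algebraMap k v.comp (M.G (t, 0)) = 0 := by
  obtain ⟨Ω, _, _, _, _, _, _, h1, ⟨g⟩⟩ := exists_omega Nat.prime_three hA v hv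
  have hinf : Infinite v.comp := by
    let _ := nnfPlace v
    infer_instance
  have : Infinite Ω := Infinite.of_injective _ (algebraMap v.comp Ω).injective
  exact Desc.descent hF hE h1 _ _ (M.exists_point_inf t g)

end Vale.Agent.P011.H73
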