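import Vale.Agent.P011.H73.CubeA
import Vale.Agent.P011.H436.Skew

/-!
CUBE-A for skew windows.
-/

namespace Vale.Agent.P011.H73

open Finset

/-- the cell with index `(r,k)` is the fibre of one of its points. -/
lemma cell_eq_fib {N q L s : ℕ} (hq : 0 < q) (hL : 0 < L) (hs : 0 < s) (hqs : q ∣ s)
    {r k : Fin N → ℤ} (hr : r ∈ cube N q) (hk : k ∈ cube N L) :
    ∃ y₀ ∈ cube N (L * s), Phi (L * s) q L y₀ = (fun l => (r l, k l)) ∧
      ∀ y, y ∈ fib (cube N (L * s)) (Phi (L * s) q L) y₀ ↔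
        y ∈ cube N (L * s) ∧ ∀ i, y i % (q : ℤ) = r i ∧ y i / (s : ℤ) = k i := by
  obtain ⟨D, rfl⟩ := hqs
  have hD : 0 < D := Nat.pos_of_mul_pos_left hs
  have e1 : L * (q * D) / L = q * D := Nat.mul_div_cancel_left _ hL
  have hX : L * (q * D) = q * L * D := by ring
  have h0 : (0 : Fin N → ℤ) ∈ cube N D := by
    rw [mem_cube]; intro l; simp [hD]
  have hP := Phi_tr (N := N) hL hX k r 0 (mem_cube.1 hr) h0
  have hmem : tr q D k r 0 ∈ cube N (L * (q * D)) := by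
    rw [mem_cube]
    intro l
    have h1 := mem_cube.1 hr l
    have h2 := mem_cube.1 hk l
    have hq' : (0 : ℤ) < q := by exact_mod_cast hq
    have hD' : (0 : ℤ) < D := by exact_mod_cast hD
    simp only [tr, Pi.zero_apply, add_zero]
    constructor
    · have := mul_nonneg h2.1 hD'.le
      have := mul_nonneg hq'.le this
      linarith
    · have h3 : k l + 1 ≤ L := by linarith
      have h4 : (k l + 1) * (q * D) ≤ L * (q * D) :=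
        mul_le_mul_of_nonneg_right h3 (by positivity)
      have h5 : (q : ℤ) * 1 ≤ q * D := mul_le_mul_of_nonneg_left (by linarith) hq'.le
      push_cast
      nlinarith
  refine ⟨tr q D k r 0, hmem, hP, ?_⟩
  intro y
  rw [mem_fib, hP]
  refine and_congr_right (fun _ => ?_)
  constructor
  · intro h i
    have := congrFun h i
    simp only [Phi, e1, Prod.mk.injEq] at this
    exact this
  · intro h
    funext i
    simp only [Phi, e1, Prod.mk.injEq]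
    exact h i

/-- the sum over the cube, cell by cell. -/
lemma sum_cells {N q L s : ℕ} (hq : 0 < q) (hL : 0 < L) (hs : 0 < s)
    (F : (Fin N → ℤ) → ℝ) :
    ∑ y ∈ cube N (L * s), F y = ∑ r ∈ cube N q, ∑ k ∈ cube N L,
      ∑ y ∈ cube N (L * s) with (∀ i, y i % (q : ℤ) = r i ∧ y i / (s : ℤ) = k i), F y := by
  classical
  have hq' : (0 : ℤ) < q := by exact_mod_cast hq
  have hs' : (0 : ℤ) < s := by exact_mod_cast hs
  rw [← Finset.sum_product']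
  rw [← Finset.sum_fiberwise_of_maps_to (s := cube N (L * s)) (t := cube N q ×ˢ cube N L)
    (g := fun y => ((fun i => y i % (q : ℤ)), (fun i => y i / (s : ℤ))))]
  · refine Finset.sum_congr rfl (fun rk _ => ?_)
    refine Finset.sum_congr ?_ (fun _ _ => rfl)
    ext y
    simp only [Finset.mem_filter, Prod.ext_iff, funext_iff]
    refine and_congr_right (fun _ => ?_)
    exact ⟨fun h i => ⟨h.1 i, h.2 i⟩, fun h => ⟨fun i => (h i).1, fun i => (h i).2⟩⟩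
  · intro y hy
    rw [Finset.mem_product, mem_cube, mem_cube]
    have hy' := mem_cube.1 hy
    refine ⟨fun l => ⟨Int.emod_nonneg _ hq'.ne', Int.emod_lt_of_pos _ hq'⟩,
      fun l => ⟨Int.ediv_nonneg (hy' l).1 hs'.le, ?_⟩⟩
    apply Int.ediv_lt_of_lt_mul hs'
    have := (hy' l).2
    push_cast at this
    exact this

/-- cell sums versus conditional averages. -/
lemma sum_abs_favg_eq_cs {N q L s : ℕ} (hq : 0 < q) (hL : 0 < L) (hs : 0 < s) (hqs : q ∣ s)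
    (z : Fin N → ℤ) (a : (Fin N → ℤ) → ℝ) (d : ℝ) (U : Finset (Fin N → ℤ))
    (hU : ∀ y ∈ cube N (L * s), ind U y = a (z + y)) :
    ∑ y ∈ cube N (L * s), |favg (cube N (L * s)) (Phi (L * s) q L) (ind U) y - d|
      = ∑ r ∈ cube N q, ∑ k ∈ cube N L, |H436.cs N q L s z a r k - d * ((s : ℝ) / q) ^ N| := by
  classical
  rw [sum_cells hq hL hs]
  refine Finset.sum_congr rfl (fun r hr => Finset.sum_congr rfl (fun k hk => ?_))
  obtain ⟨y₀, hy₀, hP, hfib⟩ := cell_eq_fib (N := N) hq hL hs hqs hr hk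
  have hset : (cube N (L * s)).filter (fun y => ∀ i, y i % (q : ℤ) = r i ∧ y i / (s : ℤ) = k i)
      = fib (cube N (L * s)) (Phi (L * s) q L) y₀ := by
    ext y
    rw [hfib y, Finset.mem_filter]
  obtain ⟨D, hD⟩ := hqs
  have hDpos : 0 < D := by
    rcases Nat.eq_zero_or_pos D with h | h
    · subst h; simp at hD; omega
    · exact h
  have hX : L * s = q * L * D := by rw [hD]; ring
  have hcard := card_fib_Phi (N := N) hq hL hX hy₀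
  have hqr : (0 : ℝ) < q := by exact_mod_cast hq
  have hsD : (s : ℝ) / q = D := by
    rw [hD]; push_cast; field_simp
  have hsum : ∑ y ∈ fib (cube N (L * s)) (Phi (L * s) q L) y₀, ind U y
      = H436.cs N q L s z a r k := by
    unfold H436.cs
    rw [← hset]
    exact Finset.sum_congr rfl (fun y hy => hU y (Finset.mem_filter.1 hy).1)
  rw [hset, Finset.sum_congr rfl (g := fun _ =>
    |favg (cube N (L * s)) (Phi (L * s) q L) (ind U) y₀ - d|)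
    (fun y hy => by rw [favg_congr _ (mem_fib.1 hy).2]), Finset.sum_const, nsmul_eq_mul, hcard,
    hsD]
  have hDr : (0 : ℝ) < (D : ℝ) ^ N := by positivity
  have h1 := sum_fib (cube N (L * s)) (Phi (L * s) q L) (ind U) hy₀
  rw [hsum, hcard] at h1
  push_cast at h1 ⊢
  rw [h1, ← abs_of_pos hDr, ← abs_mul, abs_of_pos hDr]
  congr 1
  ring

/-- helper436's `cube_in_skew` with `σ` independent of `q L m η`. -/
def CubeInSkew (N : ℕ) (C : ℝ) : Prop :=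
  ∃ σ : ℝ, 0 < σ ∧ ∀ q L m : ℕ, 0 < q → 0 < L → 0 < m → ∀ η : ℝ, 0 < η →
    ∃ K : ℕ, 0 < K ∧ ∃ δ : ℝ, 0 < δ ∧
    ∃ X₀ : ℝ, 1 ≤ X₀ ∧ ∀ X : ℝ, X₀ ≤ X → ∀ (T : (Fin N → ℝ) ≃ₗ[ℝ] (Fin N → ℝ))
    (c : Fin N → ℝ), (∀ v, ‖T v‖ ≤ C * X * ‖v‖) → (∀ v, ‖T.symm v‖ ≤ C / X * ‖v‖) →
    ∀ W : Finset (Fin N → ℤ), (∀ x, x ∈ W ↔ ∀ i, 0 ≤ H436.uu T c x i ∧ H436.uu T c x i < 1) →
    ∃ (s : ℕ) (z : Fin N → ℤ), 0 < s ∧ m ∣ s ∧ q ∣ s ∧ σ * X ≤ L * s ∧ (L : ℝ) * s ≤ X ∧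
      (∀ i, (q : ℤ) ∣ z i) ∧ (∀ y ∈ cube N (L * s), z + y ∈ W) ∧
      ∀ (a : (Fin N → ℤ) → ℝ) (d : ℝ), (∀ x, 0 ≤ a x ∧ a x ≤ 1) → 0 ≤ d → d ≤ 1 →
        ∑ r ∈ cube N q, ∑ κ ∈ cube N K, |H436.cw T c W q K a r κ -
          d * |LinearMap.det (T : (Fin N → ℝ) →ₗ[ℝ] (Fin N → ℝ))| / ((q : ℝ) * K) ^ N| ≤
          δ * |LinearMap.det (T : (Fin N → ℝ) →ₗ[ℝ] (Fin N → ℝ))| →
        ∑ r ∈ cube N q, ∑ k ∈ cube N L, |H436.cs N q L s z a r k - d * ((s : ℝ) / q) ^ N| ≤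
          η * ((L * s : ℕ) : ℝ) ^ N

/-- indicator of a set, with real values -/
noncomputable def indS {α : Type*} (S : Set α) (x : α) : ℝ :=
  open Classical in if x ∈ S then 1 else 0

lemma indS_range {α : Type*} (S : Set α) (x : α) : 0 ≤ indS S x ∧ indS S x ≤ 1 := by
  unfold indS; split_ifs <;> norm_num

lemma ind_filter_eq {N X : ℕ} (z : Fin N → ℤ) (S : Set (Fin N → ℤ)) {y : Fin N → ℤ}
    (hy : y ∈ cube N X) :
    open Classical in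
    ind ((cube N X).filter (fun y => z + y ∈ S)) y = indS S (z + y) := by
  classical
  by_cases h : z + y ∈ S
  · rw [ind_of_mem (Finset.mem_filter.2 ⟨hy, h⟩)]
    simp [indS, h]
  · have h1 : indS S (z + y) = 0 := by simp [indS, h]
    rw [h1]
    exact ind_of_not_mem (fun hh => h (Finset.mem_filter.1 hh).2)

/-- **CUBE-A for skew windows.** -/
theorem skew_A {N J : ℕ} (hN : 0 < N) (hJ : 0 < J) (p : ℕ) (hp : p.Prime)
    (B : ℕ → (Fin N → ℤ) → Fin J → Fin N → ℤ)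
    (hBc : ∀ i ζ j l, ((p ^ i : ℕ) : ℤ) ∣ B i ζ j l - ζ l)
    (hB : ∀ i ζ, H63.GenPos (B i ζ)) (ε : ℝ) (hε : 0 < ε) (hε1 : ε ≤ 1)
    (hJε : 4 * ((N : ℝ) - 1) ≤ ((ε / 4) ^ 2 / 16) ^ 2 * J) (C : ℝ)
    (CA : ℕ → ℝ) (hCA : ∀ i, 0 < CA i) (hS : CubeInSkew N C) :
    ∃ q K imax : ℕ, 0 < q ∧ q.Coprime p ∧ 0 < K ∧ ∃ δ X₀ : ℝ, 0 < δ ∧ 1 ≤ X₀ ∧
      ∀ X : ℝ, X₀ ≤ X → ∀ (T : (Fin N → ℝ) ≃ₗ[ℝ] (Fin N → ℝ)) (c : Fin N → ℝ),
      (∀ v, ‖T v‖ ≤ C * X * ‖v‖) → (∀ v, ‖T.symm v‖ ≤ C / X * ‖v‖) →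
      ∀ W : Finset (Fin N → ℤ), (∀ x, x ∈ W ↔ ∀ i, 0 ≤ H436.uu T c x i ∧ H436.uu T c x i < 1) →
      ∀ A : ℕ → (Fin N → ℤ) → Fin J → Fin N → ℤ,
        (∀ i ≤ imax, ∀ ζ ∈ cube N (p ^ i), ∀ j l, ((p ^ i : ℕ) : ℤ) ∣ A i ζ j l ∧
          |(A i ζ j l : ℝ)| ≤ CA i * Real.sqrt X) →
      ∀ 𝒰 𝒱 : Set (Fin N → ℤ), ∀ dU dV : ℝ, ε ≤ dU → dU ≤ 1 → ε ≤ dV → dV ≤ 1 →
        ∑ r ∈ cube N q, ∑ κ ∈ cube N K, |H436.cw T c W q K (indS 𝒰) r κ -
          dU * |LinearMap.det (T : (Fin N → ℝ) →ₗ[ℝ] (Fin N → ℝ))| / ((q : ℝ) * K) ^ N| ≤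
          δ * |LinearMap.det (T : (Fin N → ℝ) →ₗ[ℝ] (Fin N → ℝ))| →
        ∑ r ∈ cube N q, ∑ κ ∈ cube N K, |H436.cw T c W q K (indS 𝒱) r κ -
          dV * |LinearMap.det (T : (Fin N → ℝ) →ₗ[ℝ] (Fin N → ℝ))| / ((q : ℝ) * K) ^ N| ≤
          δ * |LinearMap.det (T : (Fin N → ℝ) →ₗ[ℝ] (Fin N → ℝ))| →
      ∃ i ≤ imax, ∃ ζ ∈ cube N (p ^ i), ∃ j : Fin J, ∃ h : ℕ, 0 < h ∧
        ∃ x, x ∈ 𝒰 ∧ x ∈ W ∧ x + vec (B i ζ) (A i ζ) 0 j h ∈ 𝒱 ∧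
          x + vec (B i ζ) (A i ζ) 0 j h ∈ W := by
  classical
  obtain ⟨σ, hσ, hskew⟩ := hS
  have hsσ : 0 < Real.sqrt σ := Real.sqrt_pos.2 hσ
  obtain ⟨q, L, imax, hq, hqp, hL, X₁, hcube⟩ := cube_A hN hJ p hp B hBc hB ε hε hε1 hJε
    (fun i => CA i / Real.sqrt σ) (fun i => div_pos (hCA i) hsσ)
  have hP : 0 < p ^ imax := pow_pos hp.pos _
  obtain ⟨K, hK, δ, hδ, X₂, hX₂, hsk⟩ := hskew q L (q * p ^ imax) hq hL (Nat.mul_pos hq hP)
    (ε / 16) (by positivity)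
  refine ⟨q, K, imax, hq, hqp, hK, δ, X₂ + |X₁| / σ, hδ, ?_, ?_⟩
  · have : 0 ≤ |X₁| / σ := by positivity
    linarith
  intro X hX T c hT hTs W hW A hA 𝒰 𝒱 dU dV hdU hdU1 hdV hdV1 hU hV
  have hX₂' : X₂ ≤ X := by
    have : 0 ≤ |X₁| / σ := by positivity
    linarith
  have hXpos : 0 < X := by linarith
  have hX₁' : |X₁| ≤ σ * X := by
    have h1 : |X₁| / σ ≤ X := by linarith
    rw [div_le_iff₀ hσ] at h1
    linarith
  obtain ⟨s, z, hs, hms, hqs, hσs, hsX, hzq, hzW, hall⟩ := hsk X hX₂' T c hT hTs W hW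
  obtain ⟨D, hD⟩ := hms
  have hLs : L * s = q * p ^ imax * L * D := by rw [hD]; ring
  have hX₁s : X₁ ≤ ((L * s : ℕ) : ℝ) := by
    push_cast
    linarith [le_abs_self X₁]
  have hA' : ∀ i ≤ imax, ∀ ζ ∈ cube N (p ^ i), ∀ j l, ((p ^ i : ℕ) : ℤ) ∣ A i ζ j l ∧
      |(A i ζ j l : ℝ)| ≤ CA i / Real.sqrt σ * Real.sqrt ((L * s : ℕ) : ℝ) := by
    intro i hi ζ hζ j l
    refine ⟨(hA i hi ζ hζ j l).1, (hA i hi ζ hζ j l).2.trans ?_⟩
    rw [div_mul_eq_mul_div, le_div_iff₀ hsσ, mul_assoc]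
    apply mul_le_mul_of_nonneg_left _ (hCA i).le
    rw [← Real.sqrt_mul hXpos.le]
    apply Real.sqrt_le_sqrt
    push_cast
    linarith
  have hres := hcube (L * s) D hX₁s hLs A hA'
    ((cube N (L * s)).filter (fun y => z + y ∈ 𝒰))
    ((cube N (L * s)).filter (fun y => z + y ∈ 𝒱)) dU dV hdU hdV ?_ ?_
  · obtain ⟨i, hi, ζ, hζ, j, h, hh, y, hy, hyW⟩ := hres
    obtain ⟨hy1, hy2⟩ := Finset.mem_filter.1 hy
    obtain ⟨hy3, hy4⟩ := Finset.mem_filter.1 hyW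
    refine ⟨i, hi, ζ, hζ, j, h, hh, z + y, hy2, hzW y hy1, ?_, ?_⟩
    · rw [add_assoc]; exact hy4
    · rw [add_assoc]; exact hzW _ hy3
  · rw [sum_abs_favg_eq_cs hq hL hs hqs z (indS 𝒰) dU _ (fun y hy => ind_filter_eq z 𝒰 hy)]
    have := hall (indS 𝒰) dU (fun x => indS_range _ _) (hε.le.trans hdU) hdU1 hU
    exact this
  · rw [sum_abs_favg_eq_cs hq hL hs hqs z (indS 𝒱) dV _ (fun y hy => ind_filter_eq z 𝒱 hy)]
    have := hall (indS 𝒱) dV (fun x => indS_range _ _) (hε.le.trans hdV) hdV1 hV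
    exact this

end Vale.Agent.P011.H73
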