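import Vale.Agent.P011.H73.SkewA

/-!
`cube_in_skew'`: helper436's theorem (`H436/Skew.lean`) with the explicit constant `1/(8C)`;
the proof is the same.
-/

namespace Vale.Agent.P011.H73

open Finset
open Vale.Agent.P011.H436

section
open Vale.Agent.P011.H436
/-- **From skew windows to standard cubes.** -/
theorem cube_in_skew' (N : ℕ) (C : ℝ) (hC : 1 ≤ C) (q L m : ℕ) (hq : 0 < q) (hL : 0 < L)
    (hm : 0 < m) (η : ℝ) (hη : 0 < η) : ∃ K : ℕ, 0 < K ∧ ∃ δ : ℝ, 0 < δ ∧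
    ∃ X₀ : ℝ, 1 ≤ X₀ ∧ ∀ X : ℝ, X₀ ≤ X → ∀ (T : (Fin N → ℝ) ≃ₗ[ℝ] (Fin N → ℝ))
    (c : Fin N → ℝ), (∀ v, ‖T v‖ ≤ C * X * ‖v‖) → (∀ v, ‖T.symm v‖ ≤ C / X * ‖v‖) →
    ∀ W : Finset (Fin N → ℤ), (∀ x, x ∈ W ↔ ∀ i, 0 ≤ uu T c x i ∧ uu T c x i < 1) →
    ∃ (s : ℕ) (z : Fin N → ℤ), 0 < s ∧ m ∣ s ∧ q ∣ s ∧ 1 / (8 * C) * X ≤ L * s ∧ (L : ℝ) * s ≤ X ∧
      (∀ i, (q : ℤ) ∣ z i) ∧ (∀ y ∈ cube N (L * s), z + y ∈ W) ∧
      ∀ (a : (Fin N → ℤ) → ℝ) (d : ℝ), (∀ x, 0 ≤ a x ∧ a x ≤ 1) → 0 ≤ d → d ≤ 1 →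
        ∑ r ∈ cube N q, ∑ κ ∈ cube N K, |cw T c W q K a r κ -
          d * |LinearMap.det (T : (Fin N → ℝ) →ₗ[ℝ] (Fin N → ℝ))| / ((q : ℝ) * K) ^ N| ≤
          δ * |LinearMap.det (T : (Fin N → ℝ) →ₗ[ℝ] (Fin N → ℝ))| →
        ∑ r ∈ cube N q, ∑ k ∈ cube N L, |cs N q L s z a r k - d * ((s : ℝ) / q) ^ N| ≤
          η * ((L * s : ℕ) : ℝ) ^ N := by
  have hqr : (0 : ℝ) < q := by exact_mod_cast hq
  have hLr : (0 : ℝ) < L := by exact_mod_cast hL
  have hmr : (0 : ℝ) < m := by exact_mod_cast hm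
  have hCpos : (0 : ℝ) < C := by linarith
  set η' : ℝ := min η 1 with hη'
  have hη'0 : 0 < η' := lt_min hη one_pos
  have hη'1 : η' ≤ 1 := min_le_right _ _
  have hη'le : η' ≤ η := min_le_left _ _
  -- choice of K : b / s will be at most η' / (8 (N+1))
  obtain ⟨K, hK⟩ := exists_nat_ge (128 * (N + 1) * C ^ 2 * L / η' + 1)
  have hKr : (0 : ℝ) < K := by
    have : 0 ≤ 128 * ((N : ℝ) + 1) * C ^ 2 * L / η' := by positivity
    linarith
  have hKn : 0 < K := by exact_mod_cast hKr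
  refine ⟨K, hKn, η / (2 * (8 * C ^ 2) ^ N), by positivity,
    8 * C * q + 4 * C * L * (m * q) + 128 * (N + 1) * C * L / η' + 1, ?_, ?_⟩
  · have h1 : 0 ≤ 8 * C * q := by positivity
    have h2 : 0 ≤ 4 * C * L * (m * q) := by positivity
    have h3 : 0 ≤ 128 * ((N : ℝ) + 1) * C * L / η' := by positivity
    linarith
  intro X hX T c hT hTs W hW
  have hp1 : 0 ≤ 8 * C * q := by positivity
  have hp2 : 0 ≤ 4 * C * L * (m * q) := by positivity
  have hp3 : 0 ≤ 128 * ((N : ℝ) + 1) * C * L / η' := by positivity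
  have hXpos : 0 < X := by linarith
  -- the side
  set M : ℕ := m * q with hM
  have hMpos : 0 < M := Nat.mul_pos hm hq
  have hMr : (0 : ℝ) < M := by exact_mod_cast hMpos
  have hMcast : (M : ℝ) = m * q := by rw [hM]; push_cast; ring
  set t : ℕ := ⌊X / (4 * C * L * M)⌋₊ with ht
  have ht1 : 1 ≤ X / (4 * C * L * M) := by
    rw [le_div_iff₀ (by positivity), hMcast]
    linarith
  have htle : (t : ℝ) ≤ X / (4 * C * L * M) := Nat.floor_le (by positivity)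
  have htge : X / (4 * C * L * M) / 2 ≤ t := by
    have h1 := Nat.lt_floor_add_one (X / (4 * C * L * M))
    have h2 : (1 : ℝ) ≤ t := by
      exact_mod_cast Nat.le_floor (by exact_mod_cast ht1)
    linarith
  have htpos : 0 < t := by
    have h2 : (1 : ℝ) ≤ t := by
      exact_mod_cast Nat.le_floor (by exact_mod_cast ht1)
    exact_mod_cast (by linarith : (0 : ℝ) < t)
  set s : ℕ := M * t with hs
  have hspos : 0 < s := Nat.mul_pos hMpos htpos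
  have hsr : (0 : ℝ) < s := by exact_mod_cast hspos
  have hscast : (s : ℝ) = M * t := by rw [hs]; push_cast; ring
  have hLs_le : (L : ℝ) * s ≤ X / (4 * C) := by
    rw [hscast, le_div_iff₀ (by positivity)]
    rw [le_div_iff₀ (by positivity)] at htle
    linarith
  have hLs_ge : X / (8 * C) ≤ (L : ℝ) * s := by
    rw [hscast, div_le_iff₀ (by positivity)]
    rw [div_div, div_le_iff₀ (by positivity)] at htge
    linarith
  -- the corner
  set p : Fin N → ℝ := T (fun _ => 1 / 2) + c with hp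
  set z : Fin N → ℤ := fun i => q * ⌊p i / q⌋ with hz
  have hzp : ∀ i, (z i : ℝ) ≤ p i ∧ p i < z i + q := by
    intro i
    have h1 := Int.floor_le (p i / q)
    have h2 := Int.lt_floor_add_one (p i / q)
    rw [le_div_iff₀ hqr] at h1
    rw [div_lt_iff₀ hqr] at h2
    rw [hz]
    push_cast
    constructor <;> linarith
  have hin : ∀ v : Fin N → ℝ, (∀ i, (z i : ℝ) ≤ v i ∧ v i < z i + L * s) →
      ∀ i, 0 ≤ T.symm (v - c) i ∧ T.symm (v - c) i < 1 := by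
    intro v hv i
    have h1 : T.symm (v - c) = T.symm (v - p) + fun _ => 1 / 2 := by
      rw [hp]
      have h2 : v - c = (v - (T (fun _ => 1 / 2) + c)) + T (fun _ => 1 / 2) := by abel
      rw [h2, map_add, LinearEquiv.symm_apply_apply]
    have h2 : ‖v - p‖ ≤ q + L * s := by
      rw [pi_norm_le_iff_of_nonneg (by positivity)]
      intro j
      have e1 := hv j
      have e2 := hzp j
      have e3 : 0 ≤ (L : ℝ) * s := by positivity
      rw [Pi.sub_apply, Real.norm_eq_abs, abs_le]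
      constructor <;> linarith [e1.1, e1.2, e2.1, e2.2]
    have h3 : ‖T.symm (v - p)‖ ≤ 3 / 8 := by
      refine (hTs _).trans ?_
      have h4 : (q : ℝ) ≤ X / (8 * C) := by
        rw [le_div_iff₀ (by positivity)]
        linarith
      calc C / X * ‖v - p‖ ≤ C / X * (X / (8 * C) + X / (4 * C)) :=
            mul_le_mul_of_nonneg_left (by linarith) (by positivity)
        _ = 3 / 8 := by field_simp; norm_num
    have h5 := norm_le_pi_norm (T.symm (v - p)) i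
    rw [Real.norm_eq_abs] at h5
    have h6 := abs_le.mp (h5.trans h3)
    rw [h1, Pi.add_apply]
    constructor <;> linarith [h6.1, h6.2]
  -- the wall width
  set b : ℕ := ⌈C * X / K⌉₊ with hb
  have hb1 : C * X / K ≤ b := Nat.le_ceil _
  have hb2 : (b : ℝ) ≤ C * X / K + 1 := (Nat.ceil_lt_add_one (by positivity)).le
  have hbs : (b : ℝ) ≤ η' / (8 * (N + 1)) * s := by
    have h1 : X / (8 * C * L) ≤ s := by
      rw [div_le_iff₀ (by positivity)]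
      rw [div_le_iff₀ (by positivity)] at hLs_ge
      linarith
    have h2 : C * X / K ≤ η' / (8 * (N + 1)) * (X / (8 * C * L)) / 2 := by
      rw [div_le_iff₀ hKr]
      have h3 : 128 * (N + 1) * C ^ 2 * L / η' ≤ K := by linarith
      rw [div_le_iff₀ hη'0] at h3
      have h4 : η' / (8 * (N + 1)) * (X / (8 * C * L)) / 2 * K =
          (K * η') * X / (128 * (N + 1) * C * L) := by
        field_simp
        norm_num
      rw [h4, le_div_iff₀ (by positivity)]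
      calc C * X * (128 * (N + 1) * C * L) = (128 * (N + 1) * C ^ 2 * L) * X := by ring
        _ ≤ (K * η') * X := mul_le_mul_of_nonneg_right h3 hXpos.le
    have h5 : 1 ≤ η' / (8 * (N + 1)) * (X / (8 * C * L)) / 2 := by
      have h6 : 128 * (N + 1) * C * L / η' ≤ X := by linarith
      rw [div_le_iff₀ hη'0] at h6
      have h7 : η' / (8 * (N + 1)) * (X / (8 * C * L)) / 2 =
          (X * η') / (128 * (N + 1) * C * L) := by
        field_simp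
        norm_num
      rw [h7, le_div_iff₀ (by positivity)]
      linarith
    calc (b : ℝ) ≤ C * X / K + 1 := hb2
      _ ≤ η' / (8 * (N + 1)) * (X / (8 * C * L)) := by linarith
      _ ≤ _ := mul_le_mul_of_nonneg_left h1 (by positivity)
  have hbs2 : 2 * b < s := by
    have h1 : η' / (8 * (N + 1)) ≤ 1 / 8 := by
      rw [div_le_div_iff₀ (by positivity) (by norm_num)]
      have : (0 : ℝ) ≤ N := Nat.cast_nonneg N
      nlinarith
    have h2 : (b : ℝ) ≤ 1 / 8 * s := hbs.trans (mul_le_mul_of_nonneg_right h1 hsr.le)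
    have h3 : 2 * (b : ℝ) < s := by linarith
    exact_mod_cast h3
  refine ⟨s, z, hspos, ⟨q * t, by rw [hs, hM]; ring⟩, ⟨m * t, by rw [hs, hM]; ring⟩, ?_, ?_,
    fun i => ⟨_, rfl⟩, ?_, ?_⟩
  · calc 1 / (8 * C) * X = X / (8 * C) := by ring
      _ ≤ _ := hLs_ge
  · refine hLs_le.trans ?_
    rw [div_le_iff₀ (by positivity)]
    nlinarith
  · intro y hy
    rw [hW]
    apply hin (fun i => (((z + y) i : ℤ) : ℝ))
    intro j
    have h1 := mem_cube.mp hy j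
    have h2 : (0 : ℝ) ≤ y j := by exact_mod_cast h1.1
    have h3 : (y j : ℝ) < ((L * s : ℕ) : ℤ) := by exact_mod_cast h1.2
    push_cast at h3
    simp only [Pi.add_apply, Int.cast_add]
    constructor <;> linarith
  · intro a d ha hd0 hd1 hsum
    have hcore := skew_core T c q L K s b W z a hq hL hKn hspos (C * X) (by positivity) hT hb1
      hbs2 hW (fun i => ⟨_, rfl⟩) hin ha d hd0 hd1
    have hdet := det_le T (C * X) (by positivity) hT
    have hest := final_est N L s b η η' C X _ hη hη'0 hη'le hC hL hspos hXpos hdet hLs_ge hbs hbs2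
    linarith



end

theorem cubeInSkew (N : ℕ) (C : ℝ) (hC : 1 ≤ C) : CubeInSkew N C := by
  refine ⟨1 / (8 * C), by positivity, ?_⟩
  intro q L m hq hL hm η hη
  exact cube_in_skew' N C hC q L m hq hL hm η hη

/-- **CUBE-A for skew windows**, unconditional. -/
theorem skew_link_A {N J : ℕ} (hN : 0 < N) (hJ : 0 < J) (p : ℕ) (hp : p.Prime)
    (B : ℕ → (Fin N → ℤ) → Fin J → Fin N → ℤ)
    (hBc : ∀ i ζ j l, ((p ^ i : ℕ) : ℤ) ∣ B i ζ j l - ζ l)
    (hB : ∀ i ζ, H63.GenPos (B i ζ)) (ε : ℝ) (hε : 0 < ε) (hε1 : ε ≤ 1)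
    (hJε : 4 * ((N : ℝ) - 1) ≤ ((ε / 4) ^ 2 / 16) ^ 2 * J) (C : ℝ) (hC : 1 ≤ C)
    (CA : ℕ → ℝ) (hCA : ∀ i, 0 < CA i) :
    ∃ q K imax : ℕ, 0 < q ∧ q.Coprime p ∧ 0 < K ∧ ∃ δ X₀ : ℝ, 0 < δ ∧ 1 ≤ X₀ ∧
      ∀ X : ℝ, X₀ ≤ X → ∀ (T : (Fin N → ℝ) ≃ₗ[ℝ] (Fin N → ℝ)) (c : Fin N → ℝ),
      (∀ v, ‖T v‖ ≤ C * X * ‖v‖) → (∀ v, ‖T.symm v‖ ≤ C / X * ‖v‖) →
      ∀ W : Finset (Fin N → ℤ), (∀ x, x ∈ W ↔ ∀ i, 0 ≤ H436.uu T c x i ∧ H436.uu T c x i < 1) →
      ∀ A : ℕ → (Fin N → ℤ) → Fin J → Fin N → ℤ,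
        (∀ i ≤ imax, ∀ ζ ∈ cube N (p ^ i), ∀ j l, ((p ^ i : ℕ) : ℤ) ∣ A i ζ j l ∧
          |(A i ζ j l : ℝ)| ≤ CA i * Real.sqrt X) →
      ∀ 𝒰 𝒱 : Set (Fin N → ℤ), ∀ dU dV : ℝ, ε ≤ dU → dU ≤ 1 → ε ≤ dV → dV ≤ 1 →
        ∑ r ∈ cube N q, ∑ κ ∈ cube N K, |H436.cw T c W q K (indS 𝒰) r κ -
          dU * |LinearMap.det (T : (Fin N → ℝ) →ₗ[ℝ] (Fin N → ℝ))| / ((q : ℝ) * K) ^ N| ≤
          δ * |LinearMap.det (T : (Fin N → ℝ) →ₗ[ℝ] (Fin N → ℝ))| →
        ∑ r ∈ cube N q, ∑ κ ∈ cube N K, |H436.cw T c W q K (indS 𝒱) r κ -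
          dV * |LinearMap.det (T : (Fin N → ℝ) →ₗ[ℝ] (Fin N → ℝ))| / ((q : ℝ) * K) ^ N| ≤
          δ * |LinearMap.det (T : (Fin N → ℝ) →ₗ[ℝ] (Fin N → ℝ))| →
      ∃ i ≤ imax, ∃ ζ ∈ cube N (p ^ i), ∃ j : Fin J, ∃ h : ℕ, 0 < h ∧
        ∃ x, x ∈ 𝒰 ∧ x ∈ W ∧ x + vec (B i ζ) (A i ζ) 0 j h ∈ 𝒱 ∧
          x + vec (B i ζ) (A i ζ) 0 j h ∈ W :=
  skew_A hN hJ p hp B hBc hB ε hε hε1 hJε C CA hCA (cubeInSkew N C hC)

end Vale.Agent.P011.H73
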