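import Vale.Agent.P011.H268.Csa
import Vale.Agent.P011.H73.Albert

/-!
# Splitting by the absence of division algebras with an involution of the second kind
-/

open Module Matrix
open scoped TensorProduct

namespace Vale.Agent.P011.H73.SplitInv

open Vale.Agent.P011.H268

section inv

variable {K L A : Type} [Field K] [StarRing K] [Field L] [StarRing L] [Ring A] [StarRing A]
  [Algebra K A] [StarModule K A] [Algebra K L]

/-- The involution of the base change. -/
noncomputable def tau (hφ : ∀ x : K, algebraMap K L (star x) = star (algebraMap K L x)) :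
    L ⊗[K] A →+ L ⊗[K] A :=
  TensorProduct.liftAddHom
    (AddMonoidHom.mk' (fun x : L => AddMonoidHom.mk' (fun a : A => star x ⊗ₜ[K] star a)
      (fun a b => by rw [star_add, TensorProduct.tmul_add]))
      (fun x y => by
        ext a
        change star (x + y) ⊗ₜ[K] star a = star x ⊗ₜ[K] star a + star y ⊗ₜ[K] star a
        rw [star_add, TensorProduct.add_tmul]))
    (fun c x a => by
      change star (c • x) ⊗ₜ[K] star a = star x ⊗ₜ[K] star (c • a)
      rw [Algebra.smul_def, star_mul', star_smul, ← TensorProduct.smul_tmul, Algebra.smul_def, hφ])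

variable (hφ : ∀ x : K, algebraMap K L (star x) = star (algebraMap K L x))

theorem tau_tmul (x : L) (a : A) : tau (A := A) hφ (x ⊗ₜ a) = star x ⊗ₜ star a := rfl

theorem tau_mul (x y : L ⊗[K] A) : tau hφ (x * y) = tau hφ y * tau hφ x := by
  induction x using TensorProduct.induction_on with
  | zero => rw [zero_mul, map_zero, mul_zero]
  | add x x' hx hx' => rw [add_mul, map_add, hx, hx', map_add, mul_add]
  | tmul x a =>
    induction y using TensorProduct.induction_on with
    | zero => rw [mul_zero, map_zero, zero_mul]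
    | add y y' hy hy' => rw [mul_add, map_add, hy, hy', map_add, add_mul]
    | tmul y b =>
      rw [Algebra.TensorProduct.tmul_mul_tmul, tau_tmul, tau_tmul, tau_tmul,
        Algebra.TensorProduct.tmul_mul_tmul, star_mul, star_mul]

theorem tau_tau (x : L ⊗[K] A) : tau hφ (tau hφ x) = x := by
  induction x using TensorProduct.induction_on with
  | zero => rw [map_zero, map_zero]
  | add x x' hx hx' => rw [map_add, map_add, hx, hx']
  | tmul x a => rw [tau_tmul, tau_tmul, star_star, star_star]

theorem tau_smul (c : L) (x : L ⊗[K] A) : tau hφ (c • x) = star c • tau hφ x := by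
  induction x using TensorProduct.induction_on with
  | zero => rw [smul_zero, map_zero, smul_zero]
  | add x x' hx hx' => rw [smul_add, map_add, hx, hx', map_add, smul_add]
  | tmul x a =>
    rw [TensorProduct.smul_tmul', tau_tmul, tau_tmul, TensorProduct.smul_tmul', smul_eq_mul,
      smul_eq_mul, star_mul']

end inv

/-- **Splitting.** If every central division algebra over `L` with an involution which is semilinear
over the involution of `L` is `L`, then central simple algebras with such an involution split. -/
theorem exists_split {K L A : Type} [Field K] [StarRing K] [Field L] [StarRing L] [Ring A]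
    [StarRing A] [Algebra K A] [StarModule K A] [FiniteDimensional K A] [Algebra.IsCentral K A]
    [IsSimpleRing A] (φ : K →+* L) (hφ : ∀ x, φ (star x) = star (φ x)) (hne : ∃ x : L, star x ≠ x)
    {n : ℕ} (hA : finrank K A = n ^ 2)
    (h : ∀ (Δ : Type) [DivisionRing Δ] [Algebra L Δ] [FiniteDimensional L Δ]
      [Algebra.IsCentral L Δ] (t : Δ → Δ), (∀ x y, t (x + y) = t x + t y) →
      (∀ x y, t (x * y) = t y * t x) → (∀ x, t (t x) = x) →
      (∀ (c : L) x, t (c • x) = star c • t x) → finrank L Δ = 1) :
    ∃ g : A →+* Matrix (Fin n) (Fin n) L, ∀ c : K, g (algebraMap K A c) = algebraMap L _ (φ c) := by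
  let _ : Algebra K L := φ.toAlgebra
  have hφ' : ∀ x : K, algebraMap K L (star x) = star (algebraMap K L x) := hφ
  have : IsSimpleRing (L ⊗[K] A) := isSimpleRing_baseChange
  have : Algebra.IsCentral L (L ⊗[K] A) := isCentral_baseChange
  have : IsArtinianRing (L ⊗[K] A) := IsArtinianRing.of_finite L _
  obtain ⟨m, hm, Δ, i1, i2, i3, ⟨ψ⟩⟩ :=
    IsSimpleRing.exists_algEquiv_matrix_divisionRing_finite L (L ⊗[K] A)
  have hcenM : Algebra.IsCentral L (Matrix (Fin m) (Fin m) Δ) := Algebra.IsCentral.of_algEquiv _ _ _ ψ
  have hcen : Algebra.IsCentral L Δ := by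
    refine ⟨fun c hc => ?_⟩
    rw [Subalgebra.mem_center_iff] at hc
    have h1 : Matrix.scalar (Fin m) c ∈ Subalgebra.center L (Matrix (Fin m) (Fin m) Δ) := by
      rw [Subalgebra.mem_center_iff]
      intro M
      ext i j
      rw [Matrix.scalar_apply, Matrix.mul_diagonal, Matrix.diagonal_mul]
      exact hc _
    rw [Algebra.IsCentral.center_eq_bot, Algebra.mem_bot] at h1
    obtain ⟨e, he⟩ := h1
    rw [Algebra.mem_bot]
    refine ⟨e, ?_⟩
    have h2 := congrFun (congrFun he 0) 0
    rw [Matrix.scalar_apply, Matrix.diagonal_apply_eq, Matrix.algebraMap_matrix_apply,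
      if_pos rfl] at h2
    exact h2
  obtain ⟨t, ht1, ht2, ht3, ht4⟩ := Albert.albert (L := L) (Δ := Δ) hne (Nat.pos_of_ne_zero hm.out)
    (fun x => ψ (tau hφ' (ψ.symm x)))
    (fun x y => by rw [map_add, map_add, map_add])
    (fun x y => by rw [map_mul, tau_mul, map_mul])
    (fun x => by rw [AlgEquiv.symm_apply_apply, tau_tau, AlgEquiv.apply_symm_apply])
    (fun c x => by rw [map_smul, tau_smul, map_smul])
  have h3 : finrank L Δ = 1 := h Δ t ht1 ht2 ht3 ht4
  have hsurj : Function.Surjective (algebraMap L Δ) := by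
    intro x
    obtain ⟨c, hc⟩ := (finrank_eq_one_iff_of_nonzero' (1 : Δ) one_ne_zero).mp h3 x
    exact ⟨c, by rw [Algebra.algebraMap_eq_smul_one, hc]⟩
  let e : L ≃ₐ[L] Δ := AlgEquiv.ofBijective (Algebra.ofId L Δ)
    ⟨(algebraMap L Δ).injective, hsurj⟩
  have h1 := ψ.toLinearEquiv.finrank_eq
  rw [Module.finrank_baseChange, hA, Module.finrank_matrix, Fintype.card_fin, h3,
    mul_one, ← pow_two] at h1
  have h2 : n = m := Nat.pow_left_injective (n := 2) (by norm_num) h1
  subst h2
  refine ⟨(((e.symm.toAlgHom.mapMatrix.comp (ψ : L ⊗[K] A →ₐ[L] _)).restrictScalars K).comp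
    Algebra.TensorProduct.includeRight : A →ₐ[K] Matrix (Fin n) (Fin n) L), fun c => ?_⟩
  rw [RingHom.coe_coe, AlgHom.commutes]
  rfl

end Vale.Agent.P011.H73.SplitInv
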