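import Vale.Agent.P011.H73.SplitInv
import Vale.Agent.P011.H271.QuadF

/-!
# Algebras with an involution of the second kind split at the places which do not split

`Loc2` is the local theorem: over a local field `L` with a nontrivial norm preserving involution
there is no noncommutative division algebra with an involution of the second kind.
-/

open Module Matrix

namespace Vale.Agent.P011.H73

open Vale.Agent.P011.H738 Vale.Agent.P011.H271

/-- The statement of the local theorem. -/
def Loc2 : Prop :=
  ∀ {F L Δ : Type} [NontriviallyNormedField F] [ProperSpace F] [IsUltrametricDist F]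
    [NontriviallyNormedField L] [ProperSpace L] [IsUltrametricDist L] [StarRing L] [Algebra F L]
    [DivisionRing Δ] [Algebra L Δ] [FiniteDimensional L Δ] [Algebra.IsCentral L Δ],
    (∀ x : L, ‖star x‖ = ‖x‖) → (∃ x : L, star x ≠ x) →
    (∀ x : L, star x = x ↔ x ∈ Set.range (algebraMap F L)) →
    (∀ c : F, ‖algebraMap F L c‖ = ‖c‖) → finrank F L = 2 → ∀ t : Δ → Δ,
    (∀ x y, t (x + y) = t x + t y) → (∀ x y, t (x * y) = t y * t x) → (∀ x, t (t x) = x) →
    (∀ (c : L) x, t (c • x) = star c • t x) → finrank L Δ = 1

/-- The fixed field of the involution. -/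
theorem fixed_iff {F L : Type} [NontriviallyNormedField F] [NontriviallyNormedField L]
    [StarRing L] [Algebra F L] (hst : ∀ x : L, ‖star x‖ = ‖x‖) (hne : ∃ x : L, star x ≠ x)
    (hFL : ∀ c : F, ‖algebraMap F L c‖ = ‖c‖) (hfin : finrank F L = 2) {S : Set F}
    (hS : Dense S) (hfix : ∀ c ∈ S, star (algebraMap F L c) = algebraMap F L c) (x : L) :
    star x = x ↔ x ∈ Set.range (algebraMap F L) := by
  have hcs : Continuous (star : L → L) := by
    refine Metric.continuous_iff.2 fun b ε hε => ⟨ε, hε, fun a hab => ?_⟩
    rw [dist_eq_norm] at hab ⊢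
    rwa [← star_sub, hst]
  have hca : Continuous (algebraMap F L) := by
    refine Metric.continuous_iff.2 fun b ε hε => ⟨ε, hε, fun a hab => ?_⟩
    rw [dist_eq_norm] at hab ⊢
    rwa [← map_sub, hFL]
  have hF : ∀ c : F, star (algebraMap F L c) = algebraMap F L c := by
    intro c
    have h := Continuous.ext_on hS (hcs.comp hca) hca hfix
    exact congrFun h c
  refine ⟨fun hx => ?_, ?_⟩
  · by_contra hcon
    obtain ⟨y, hy⟩ := hne
    apply hy
    -- `1` and `x` are a basis
    have hli : LinearIndependent F ![(1 : L), x] := by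
      rw [LinearIndependent.pair_iff]
      intro a b hab
      have hb : b = 0 := by
        by_contra hb
        apply hcon
        refine ⟨-(b⁻¹ * a), ?_⟩
        rw [Algebra.smul_def, Algebra.smul_def, mul_one] at hab
        have hb' : algebraMap F L b ≠ 0 := by
          rwa [ne_eq, FaithfulSMul.algebraMap_eq_zero_iff]
        rw [map_neg, map_mul, map_inv₀]
        field_simp
        linear_combination -hab
      rw [hb, zero_smul, add_zero] at hab
      exact ⟨by simpa using hab, hb⟩
    have : FiniteDimensional F L := FiniteDimensional.of_finrank_pos (by omega)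
    have hspan : Submodule.span F (Set.range ![(1 : L), x]) = ⊤ :=
      hli.span_eq_top_of_card_eq_finrank (by rw [hfin]; rfl)
    have hy' : y ∈ Submodule.span F (Set.range ![(1 : L), x]) := by rw [hspan]; trivial
    rw [Matrix.range_cons, Matrix.range_cons, Matrix.range_empty, Set.union_empty] at hy'
    have hy2 : y ∈ Submodule.span F ({1, x} : Set L) := by
      rwa [Set.singleton_union] at hy'
    obtain ⟨a, b, rfl⟩ := Submodule.mem_span_pair.1 hy2
    rw [Algebra.smul_def, Algebra.smul_def, star_add, star_mul', star_mul', hF, hF, hx, star_one]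
  · rintro ⟨c, rfl⟩
    exact hF c

/-- **Splitting at the places which do not split in `K`.** -/
theorem split_of_loc2 (h2 : Loc2) {k K A : Type} [Field k] [GFF k] [Field K] [StarRing K]
    [Ring A] [StarRing A] [Algebra k K] [Algebra k A] [Algebra K A] [IsScalarTower k K A]
    [StarModule K A] {n : ℕ} (hA : Anis k K A n) (hn : n ≠ 0) (v : Place k) (L : Type)
    [NontriviallyNormedField L] [ProperSpace L] [IsUltrametricDist L] [StarRing L]
    [Algebra v.comp L] (φ : K →+* L) (hst : ∀ x : L, ‖star x‖ = ‖x‖)
    (hφ : ∀ x, φ (star x) = star (φ x))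
    (hk : ∀ c : k, φ (algebraMap k K c) = algebraMap v.comp L (algebraMap k v.comp c))
    (hFL : ∀ c : v.comp, ‖algebraMap v.comp L c‖ = ‖c‖) (hfin : finrank v.comp L = 2) :
    ∃ g : A →+* Matrix (Fin n) (Fin n) L, ∀ c : K, g (algebraMap K A c) = algebraMap L _ (φ c) := by
  have := hA.central
  have := hA.simple
  have : FiniteDimensional K A := FiniteDimensional.of_finrank_pos (by
    rw [hA.finrank_eq]
    exact pow_pos (Nat.pos_of_ne_zero hn) 2)
  have hne : ∃ x : L, star x ≠ x := by
    obtain ⟨x, hx⟩ := hA.star_ne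
    refine ⟨φ x, fun h => hx ?_⟩
    rw [← hφ] at h
    exact φ.injective h
  refine SplitInv.exists_split φ hφ hne hA.finrank_eq ?_
  intro Δ _ _ _ _ t h3 h4 h5 h6
  let _ := nnfPlace v
  refine h2 (F := v.comp) (L := L) (Δ := Δ) hst hne ?_ hFL hfin t h3 h4 h5 h6
  refine fixed_iff (F := v.comp) hst hne hFL hfin (S := Set.range (algebraMap k v.comp)) ?_ ?_
  · change DenseRange (algebraMap k v.comp)
    rw [Metric.denseRange_iff]
    intro x ε hε
    obtain ⟨a, ha⟩ := dense_alg v x hε
    exact ⟨a, by rwa [dist_eq_norm]⟩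
  · rintro _ ⟨c, rfl⟩
    rw [← hk, ← hφ, (hA.fixed _).2 ⟨c, rfl⟩]

end Vale.Agent.P011.H73
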