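import Vale.Agent.P011.H73.SplitLoc
import Vale.Agent.P011.H698.T1FF

/-! # `SplitNS` from the local theorem -/

namespace Vale.Agent.P011.H73

open Vale.Agent.P011.H738 Vale.Agent.P011.H271

variable {k K A : Type} [Field k] [GFF k] [Field K] [StarRing K] [Ring A] [StarRing A]
  [Algebra k K] [Algebra k A] [Algebra K A] [IsScalarTower k K A] [StarModule K A] {n : ℕ}

/-- **The local hypothesis `SplitNS` of the theorem on solvable quotients.** -/
theorem splitNS (h2 : Loc2) (hA : Anis k K A n) (hn : n ≠ 0) : H698.SplitNS k K A n := by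
  intro v _ L _ _ _ _ _ φ hst hφ _ hk hFL hfin
  exact split_of_loc2 h2 hA hn v L φ hst hφ hk hFL hfin

end Vale.Agent.P011.H73
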